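import Crest.Agent.R300L.Bin2

/-!
# Anti-concentration modulo `M` on a slice of the cube
-/

set_option autoImplicit false
open Finset

noncomputable section
namespace Crest.Agent.R300L

lemma AC_bin_step (θ : ℝ) (t : ℕ) (H : ℕ → ℝ) :
    ∑ u ∈ range (t + 1 + 1), bin θ (t + 1) u * H u =
      ∑ u ∈ range (t + 1), bin θ t u * ((1 - θ) * H u + θ * H (u + 1)) := by
  simp only [bin_succ, add_mul, mul_add, sum_add_distrib]
  rw [sum_range_succ' _ (t + 1), sum_range_succ _ (t + 1), bin_eq_zero θ (Nat.lt_succ_self t), add_comm]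
  simp only [Nat.add_sub_cancel, if_true, Nat.succ_ne_zero, if_false, mul_zero, zero_mul, add_zero]
  congr 1 <;> exact sum_congr rfl fun _ _ => by ring

/-- independent increments under the product weight: condition on the bits below `s` -/
lemma prod_weight_split (θ : ℝ) (s t : ℕ) (F : Finset ℕ → ℝ) (H : Finset ℕ → ℕ → ℝ) :
    ∑ ξ ∈ (range (s + t)).powerset, θ ^ ξ.card * (1 - θ) ^ (s + t - ξ.card) *
        (F (ξ.filter (· < s)) * H (ξ.filter (· < s)) (ξ.card - cnt ξ s)) =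
      ∑ ζ ∈ (range s).powerset, θ ^ ζ.card * (1 - θ) ^ (s - ζ.card) *
        (F ζ * ∑ u ∈ range (t + 1), bin θ t u * H ζ u) := by
  induction t generalizing H with
  | zero =>
    refine sum_congr rfl fun ξ hξ => ?_
    have e : ξ.filter (· < s) = ξ :=
      filter_true_of_mem fun x hx => mem_range.1 (mem_powerset.1 hξ hx)
    simp [cnt, e, bin]
  | succ t ih =>
    rw [← add_assoc, range_add_one (n := s + t), sum_powerset_insert notMem_range_self,
      ← sum_add_distrib]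
    have h1 := ih fun ζ u => (1 - θ) * H ζ u + θ * H ζ (u + 1)
    simp only [AC_bin_step]
    rw [← h1]
    refine sum_congr rfl fun ξ hξ => ?_
    have hξ' := mem_powerset.1 hξ
    have hn : s + t ∉ ξ := fun h => notMem_range_self (hξ' h)
    have hc : ξ.card ≤ s + t := by simpa using card_le_card hξ'
    have e1 : (insert (s + t) ξ).filter (· < s) = ξ.filter (· < s) := by
      rw [filter_insert, if_neg (by omega)]
    have e2 : cnt ξ s ≤ ξ.card := card_filter_le _ _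
    have e3 : cnt (insert (s + t) ξ) s = cnt ξ s := by unfold cnt; rw [e1]
    rw [e1, e3, card_insert_of_notMem hn, show s + t + 1 - ξ.card = s + t - ξ.card + 1 by omega,
      show s + t + 1 - (ξ.card + 1) = s + t - ξ.card by omega,
      show ξ.card + 1 - cnt ξ s = ξ.card - cnt ξ s + 1 by omega]
    ring

lemma AC_step {θ : ℝ} (h0 : 1 / 4 ≤ θ) (h1 : θ ≤ 3 / 4) {M : ℕ} (hM : 1 ≤ M) {s T : ℕ} (hs : s ≤ T)
    (P : Finset ℕ → Prop) [DecidablePred P] (rT : ℕ) {φT : ℝ}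
    (hφT : 1 / (M : ℝ) + 3 / √((T - s + 1 : ℕ) : ℝ) ≤ φT) :
    ∑ ξ ∈ (range T).powerset.filter (fun ξ => P (ξ.filter (· < s)) ∧ ξ.card ≡ rT [MOD M]),
      θ ^ ξ.card * (1 - θ) ^ (T - ξ.card) ≤
    (∑ ζ ∈ (range s).powerset.filter P, θ ^ ζ.card * (1 - θ) ^ (s - ζ.card)) * φT := by
  obtain ⟨t, rfl⟩ := Nat.exists_eq_add_of_le hs
  rw [Nat.add_sub_cancel_left] at hφT
  have h2 := prod_weight_split θ s t (fun ζ => if P ζ then 1 else 0)
    (fun ζ u => if u + ζ.card ≡ rT [MOD M] then 1 else 0)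
  have h3 : 1 / √(((t : ℝ) + 1) * θ * (1 - θ)) ≤ 3 / √((t + 1 : ℕ) : ℝ) := by
    have a0 : (0 : ℝ) < t + 1 := by positivity
    have a1 : 1 / 9 ≤ θ * (1 - θ) := by nlinarith
    have a2 : √((t + 1 : ℕ) : ℝ) ≤ 3 * √(((t : ℝ) + 1) * θ * (1 - θ)) := by
      rw [show (3 : ℝ) = √9 by rw [show (9 : ℝ) = 3 ^ 2 by norm_num, Real.sqrt_sq (by norm_num)],
        ← Real.sqrt_mul (by norm_num)]
      refine Real.sqrt_le_sqrt ?_
      push_cast
      nlinarith
    have a3 : 0 < √(((t : ℝ) + 1) * θ * (1 - θ)) := Real.sqrt_pos.2 (by nlinarith)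
    rw [div_le_div_iff₀ a3 (Real.sqrt_pos.2 (by positivity))]
    linarith
  rw [sum_filter, sum_filter, sum_mul]
  refine le_trans (le_of_eq ?_) (h2.le.trans (sum_le_sum fun ζ _ => ?_))
  · refine sum_congr rfl fun ξ _ => ?_
    have e : ξ.card - cnt ξ s + (ξ.filter (· < s)).card = ξ.card :=
      Nat.sub_add_cancel (card_filter_le _ _)
    rw [e]
    by_cases a1 : P (ξ.filter (· < s)) <;> by_cases a2 : ξ.card ≡ rT [MOD M] <;> simp [a1, a2]
  · split_ifs
    · rw [one_mul]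
      refine mul_le_mul_of_nonneg_left ?_
        (mul_nonneg (pow_nonneg (by linarith) _) (pow_nonneg (by linarith) _))
      have := bin_mod (θ := θ) (by linarith) (by linarith) t ζ.card rT hM
      rw [sum_filter] at this
      simp only [mul_ite, mul_one, mul_zero]
      linarith
    · simp

/-- Under the product weight with `θ ∈ [1/4,3/4]`.  `Finset.induction_on_max` on `B` (generalizing
`T`, `rT`, `φT`): the last congruence, given the bits below `B.sup τ`, has probability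
`≤ 1/M + 3/√(gap+1)` by `prod_weight_split` and `bin_mod` (`θ(1-θ) ≥ 3/16`). -/
lemma ac_prod {θ : ℝ} (h0 : 1 / 4 ≤ θ) (h1 : θ ≤ 3 / 4) {M : ℕ} (hM : 1 ≤ M) (τ r : ℕ → ℕ)
    (φ : ℕ → ℝ) (B : Finset ℕ) (hτ : MonotoneOn τ B)
    (hφ : ∀ i ∈ B, 1 / (M : ℝ) + 3 / √((τ i - (B.filter (· < i)).sup τ + 1 : ℕ) : ℝ) ≤ φ i)
    (T rT : ℕ) (hT : ∀ i ∈ B, τ i ≤ T) (φT : ℝ)
    (hφT : 1 / (M : ℝ) + 3 / √((T - B.sup τ + 1 : ℕ) : ℝ) ≤ φT) :
    ∑ ξ ∈ (range T).powerset.filter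
        (fun ξ => (∀ i ∈ B, cnt ξ (τ i) ≡ r i [MOD M]) ∧ ξ.card ≡ rT [MOD M]),
      θ ^ ξ.card * (1 - θ) ^ (T - ξ.card) ≤ (∏ i ∈ B, φ i) * φT := by
  induction B using Finset.induction_on_max generalizing T rT φT with
  | empty =>
    have := AC_step h0 h1 hM (Nat.zero_le T) (fun _ => True) rT (by simpa using hφT)
    simpa using this
  | insert a B ha ih =>
    have haB : a ∉ B := fun h => lt_irrefl _ (ha a h)
    have hle : ∀ i ∈ B, τ i ≤ τ a := fun i hi =>
      hτ (by simp [hi]) (by simp) (ha i hi).le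
    have e1 : (insert a B).sup τ = τ a := by
      rw [sup_insert]
      exact sup_eq_left.2 (Finset.sup_le hle)
    have e2 : (insert a B).filter (· < a) = B := by
      rw [filter_insert, if_neg (lt_irrefl a), filter_true_of_mem ha]
    have h2 := hφ a (mem_insert_self _ _)
    rw [e2] at h2
    rw [e1] at hφT
    have h3 := ih (hτ.mono (by simp)) (fun i hi => by
      have := hφ i (mem_insert_of_mem hi)
      rwa [filter_insert, if_neg (ha i hi).not_gt] at this) (τ a) (r a) hle (φ a) h2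
    have h4 := AC_step h0 h1 hM (hT a (mem_insert_self _ _))
      (fun ζ => (∀ i ∈ B, cnt ζ (τ i) ≡ r i [MOD M]) ∧ ζ.card ≡ r a [MOD M]) rT hφT
    have h5 : 0 ≤ φT := le_trans (by positivity) hφT
    rw [prod_insert haB, mul_comm (φ a)]
    refine le_trans (le_of_eq ?_) (h4.trans (mul_le_mul_of_nonneg_right h3 h5))
    refine sum_congr (filter_congr fun ξ _ => and_congr_left fun _ => ?_) fun _ _ => rfl
    have e3 : ∀ i ∈ B, cnt (ξ.filter (· < τ a)) (τ i) = cnt ξ (τ i) := fun i hi => by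
      unfold cnt
      rw [filter_filter]
      exact congrArg card (filter_congr fun x _ =>
        ⟨fun h => h.2, fun h => ⟨h.trans_le (hle i hi), h⟩⟩)
    rw [forall_mem_insert, and_comm]
    exact and_congr (forall₂_congr fun i hi => by rw [e3 i hi]) Iff.rfl

/-- tilt to `θ = S/J` and use `bin_mode` -/
theorem ac_slice {J S : ℕ} (hJ : 1 ≤ J) (h1 : J ≤ 4 * S) (h2 : 4 * S ≤ 3 * J) {M : ℕ} (hM : 1 ≤ M)
    (τ r : ℕ → ℕ) (φ : ℕ → ℝ) (B : Finset ℕ) (hτ : MonotoneOn τ B)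
    (hφ : ∀ i ∈ B, 1 / (M : ℝ) + 3 / √((τ i - (B.filter (· < i)).sup τ + 1 : ℕ) : ℝ) ≤ φ i)
    (hT : ∀ i ∈ B, τ i ≤ J) (φT : ℝ)
    (hφT : 1 / (M : ℝ) + 3 / √((J - B.sup τ + 1 : ℕ) : ℝ) ≤ φT) :
    ((((range J).powersetCard S).filter fun ξ => ∀ i ∈ B, cnt ξ (τ i) ≡ r i [MOD M]).card : ℝ) ≤
      J.choose S * (4 * √((J : ℝ) + 1)) * ((∏ i ∈ B, φ i) * φT) := by
  have hJ0 : (0 : ℝ) < J := by exact_mod_cast hJ
  have a0 : 1 / 4 ≤ (S : ℝ) / J := by
    have : (J : ℝ) ≤ 4 * S := by exact_mod_cast h1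
    rw [le_div_iff₀ hJ0]
    linarith
  have a1 : (S : ℝ) / J ≤ 3 / 4 := by
    have : 4 * (S : ℝ) ≤ 3 * J := by exact_mod_cast h2
    rw [div_le_iff₀ hJ0]
    linarith
  have h3 := ac_prod a0 a1 hM τ r φ B hτ hφ J S hT φT hφT
  have h4 := bin_mode (J := J) (S := S) (by omega)
  unfold bin at h4
  generalize (S : ℝ) / J = θ at *
  obtain ⟨X, hX⟩ : ∃ X, X = ((range J).powersetCard S).filter
    fun ξ => ∀ i ∈ B, cnt ξ (τ i) ≡ r i [MOD M] := ⟨_, rfl⟩
  rw [← hX]
  have h5 : (X.card : ℝ) * (θ ^ S * (1 - θ) ^ (J - S)) ≤ (∏ i ∈ B, φ i) * φT := by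
    refine le_trans ?_ (le_trans (sum_le_sum_of_subset_of_nonneg (s := X) ?_ fun ξ _ _ =>
      mul_nonneg (pow_nonneg (by linarith) _) (pow_nonneg (by linarith) _)) h3)
    · rw [← nsmul_eq_mul, ← sum_const]
      refine le_of_eq (sum_congr rfl fun ξ hξ => ?_)
      rw [hX] at hξ
      rw [(mem_powersetCard.1 (mem_filter.1 hξ).1).2]
    · intro ξ hξ
      rw [hX, mem_filter, mem_powersetCard] at hξ
      exact mem_filter.2 ⟨mem_powerset.2 hξ.1.1, hξ.2, by rw [hξ.1.2]⟩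
  have h6 : 0 < 4 * √((J : ℝ) + 1) := by positivity
  rw [div_le_iff₀ h6] at h4
  calc (X.card : ℝ) ≤ X.card * (J.choose S * θ ^ S * (1 - θ) ^ (J - S) * (4 * √((J : ℝ) + 1))) :=
        le_mul_of_one_le_right (Nat.cast_nonneg _) h4
    _ = J.choose S * (4 * √((J : ℝ) + 1)) * (X.card * (θ ^ S * (1 - θ) ^ (J - S))) := by ring
    _ ≤ _ := mul_le_mul_of_nonneg_left h5 (by positivity)

end Crest.Agent.R300L
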