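import Crest.Agent.R300L.Defs

/-!
# Basic API: positivity, mass, `ℓ¹` norm, domination, ordered products
-/

set_option autoImplicit false
open Finset

noncomputable section
namespace Crest.Agent.R300L

section basic
variable {M : Type}

lemma ex_eq_sum (X : Al M) (f : M → ℝ) {s : Finset M} (hs : X.coeff.support ⊆ s) :
    ex X f = ∑ τ ∈ s, X.coeff τ * f τ := by
  unfold ex
  refine Finset.sum_subset hs (fun τ _ h => ?_)
  rw [Finsupp.notMem_support_iff.1 h, zero_mul]
lemma mass_eq_sum (X : Al M) {s : Finset M} (hs : X.coeff.support ⊆ s) :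
    mass X = ∑ τ ∈ s, X.coeff τ := by
  unfold mass
  exact Finset.sum_subset hs (fun τ _ h => Finsupp.notMem_support_iff.1 h)
lemma l1_eq_sum (X : Al M) {s : Finset M} (hs : X.coeff.support ⊆ s) :
    l1 X = ∑ τ ∈ s, |X.coeff τ| := by
  unfold l1
  refine Finset.sum_subset hs (fun τ _ h => ?_)
  rw [Finsupp.notMem_support_iff.1 h, abs_zero]
lemma mass_eq_ex (X : Al M) : mass X = ex X (fun _ => 1) := by
  simp [mass, ex]
lemma ex_zero (f : M → ℝ) : ex (0 : Al M) f = 0 := by
  simp [ex]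
lemma ex_add (X Y : Al M) (f : M → ℝ) : ex (X + Y) f = ex X f + ex Y f := by
  classical
  rw [ex_eq_sum (X + Y) f (s := X.coeff.support ∪ Y.coeff.support) Finsupp.support_add,
    ex_eq_sum X f (s := X.coeff.support ∪ Y.coeff.support) subset_union_left,
    ex_eq_sum Y f (s := X.coeff.support ∪ Y.coeff.support) subset_union_right, ← sum_add_distrib]
  refine sum_congr rfl fun τ _ => ?_
  simp [add_mul]
lemma ex_sub (X Y : Al M) (f : M → ℝ) : ex (X - Y) f = ex X f - ex Y f := by
  have h := ex_add (X - Y) Y f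
  rw [sub_add_cancel] at h
  linarith
lemma ex_smul (c : ℝ) (X : Al M) (f : M → ℝ) : ex (c • X) f = c * ex X f := by
  rw [ex_eq_sum (c • X) f (s := X.coeff.support) Finsupp.support_smul, ex, mul_sum]
  refine sum_congr rfl fun τ _ => ?_
  simp [mul_assoc]
lemma ex_sum {ι : Type*} (s : Finset ι) (X : ι → Al M) (f : M → ℝ) :
    ex (∑ i ∈ s, X i) f = ∑ i ∈ s, ex (X i) f := by
  classical
  induction s using Finset.induction_on with
  | empty => simp [ex_zero]
  | insert a s ha ih => rw [sum_insert ha, sum_insert ha, ex_add, ih]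
lemma ex_single (τ : M) (r : ℝ) (f : M → ℝ) : ex (MonoidAlgebra.single τ r) f = r * f τ := by
  rw [ex_eq_sum _ f (s := {τ}) (by simpa using Finsupp.support_single_subset)]
  simp
lemma ex_add_fun (X : Al M) (f g : M → ℝ) : ex X (fun τ => f τ + g τ) = ex X f + ex X g := by
  simp [ex, mul_add, sum_add_distrib]
lemma ex_mul_fun (X : Al M) (c : ℝ) (f : M → ℝ) : ex X (fun τ => c * f τ) = c * ex X f := by
  simp only [ex, mul_sum]
  exact sum_congr rfl fun τ _ => by ring
lemma ex_const (X : Al M) (c : ℝ) : ex X (fun _ => c) = mass X * c := by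
  simp [ex, mass, sum_mul]
lemma ex_mono {X : Al M} (hX : NN X) {f g : M → ℝ} (h : ∀ τ, f τ ≤ g τ) : ex X f ≤ ex X g := by
  exact sum_le_sum fun τ _ => mul_le_mul_of_nonneg_left (h τ) (hX τ)
lemma ex_nonneg {X : Al M} (hX : NN X) {f : M → ℝ} (h : ∀ τ, 0 ≤ f τ) : 0 ≤ ex X f := by
  exact sum_nonneg fun τ _ => mul_nonneg (hX τ) (h τ)
lemma ex_mono_left {X Y : Al M} (h : NN (Y - X)) {f : M → ℝ} (hf : ∀ τ, 0 ≤ f τ) :
    ex X f ≤ ex Y f := by
  have := ex_nonneg h hf
  rw [ex_sub] at this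
  linarith
lemma abs_ex_le (X : Al M) {f : M → ℝ} {C : ℝ} (h : ∀ τ, |f τ| ≤ C) : |ex X f| ≤ C * l1 X := by
  unfold ex l1
  rw [mul_sum]
  refine (abs_sum_le_sum_abs _ _).trans (sum_le_sum fun τ _ => ?_)
  rw [abs_mul, mul_comm]
  exact mul_le_mul_of_nonneg_right (h τ) (abs_nonneg _)
/-- every element is the combination of its point masses -/
lemma eq_sum_single (X : Al M) :
    X = ∑ τ ∈ X.coeff.support, X.coeff τ • MonoidAlgebra.single τ (1 : ℝ) := by
  conv_lhs => rw [← MonoidAlgebra.sum_coeff_single X]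
  simp [Finsupp.sum]

lemma mass_zero : mass (0 : Al M) = 0 := by
  simp [mass]
lemma mass_add (X Y : Al M) : mass (X + Y) = mass X + mass Y := by
  simp only [mass_eq_ex, ex_add]
lemma mass_sub (X Y : Al M) : mass (X - Y) = mass X - mass Y := by
  simp only [mass_eq_ex, ex_sub]
lemma mass_smul (c : ℝ) (X : Al M) : mass (c • X) = c * mass X := by
  simp only [mass_eq_ex, ex_smul]
lemma mass_sum {ι : Type*} (s : Finset ι) (X : ι → Al M) :
    mass (∑ i ∈ s, X i) = ∑ i ∈ s, mass (X i) := by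
  simp only [mass_eq_ex, ex_sum]
lemma mass_single (τ : M) (r : ℝ) : mass (MonoidAlgebra.single τ r) = r := by
  simp [mass_eq_ex, ex_single]
lemma NN.mass_nonneg {X : Al M} (h : NN X) : 0 ≤ mass X := by
  exact sum_nonneg fun τ _ => h τ

lemma NN.zero : NN (0 : Al M) := by
  intro τ; simp
lemma NN.single (τ : M) {r : ℝ} (hr : 0 ≤ r) : NN (MonoidAlgebra.single τ r) := by
  classical
  intro σ
  rw [MonoidAlgebra.coeff_single, Finsupp.single_apply]
  split_ifs
  · exact hr
  · exact le_rfl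
lemma NN.add {X Y : Al M} (hX : NN X) (hY : NN Y) : NN (X + Y) := by
  intro τ; simpa using add_nonneg (hX τ) (hY τ)
lemma NN.smul {X : Al M} (hX : NN X) {c : ℝ} (hc : 0 ≤ c) : NN (c • X) := by
  intro τ; simpa using mul_nonneg hc (hX τ)
lemma NN.sum {ι : Type*} {s : Finset ι} {X : ι → Al M} (h : ∀ i ∈ s, NN (X i)) :
    NN (∑ i ∈ s, X i) := by
  intro τ
  rw [MonoidAlgebra.coeff_sum, Finsupp.finsetSum_apply]
  exact sum_nonneg fun i hi => h i hi τ
lemma IsProb.single (τ : M) : IsProb (MonoidAlgebra.single τ (1 : ℝ)) := by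
  exact ⟨NN.single τ zero_le_one, mass_single τ 1⟩

lemma l1_nonneg (X : Al M) : 0 ≤ l1 X := by
  exact sum_nonneg fun τ _ => abs_nonneg _
lemma l1_zero : l1 (0 : Al M) = 0 := by
  simp [l1]
lemma l1_neg (X : Al M) : l1 (-X) = l1 X := by
  simp [l1]
lemma l1_add_le (X Y : Al M) : l1 (X + Y) ≤ l1 X + l1 Y := by
  classical
  rw [l1_eq_sum (X + Y) (s := X.coeff.support ∪ Y.coeff.support) Finsupp.support_add,
    l1_eq_sum X (s := X.coeff.support ∪ Y.coeff.support) subset_union_left,
    l1_eq_sum Y (s := X.coeff.support ∪ Y.coeff.support) subset_union_right, ← sum_add_distrib]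
  refine sum_le_sum fun τ _ => ?_
  simpa using abs_add_le (X.coeff τ) (Y.coeff τ)
lemma l1_sub_le (X Y : Al M) : l1 (X - Y) ≤ l1 X + l1 Y := by
  have := l1_add_le X (-Y)
  rwa [l1_neg, ← sub_eq_add_neg] at this
lemma l1_sub_comm (X Y : Al M) : l1 (X - Y) = l1 (Y - X) := by
  rw [← l1_neg, neg_sub]
lemma l1_triangle (X Y Z : Al M) : l1 (X - Z) ≤ l1 (X - Y) + l1 (Y - Z) := by
  have := l1_add_le (X - Y) (Y - Z)
  rwa [sub_add_sub_cancel] at this
lemma l1_smul (c : ℝ) (X : Al M) : l1 (c • X) = |c| * l1 X := by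
  rw [l1_eq_sum (c • X) (s := X.coeff.support) Finsupp.support_smul, l1, mul_sum]
  refine sum_congr rfl fun τ _ => ?_
  simp [abs_mul]
lemma l1_sum_le {ι : Type*} (s : Finset ι) (X : ι → Al M) :
    l1 (∑ i ∈ s, X i) ≤ ∑ i ∈ s, l1 (X i) := by
  classical
  induction s using Finset.induction_on with
  | empty => simp [l1_zero]
  | insert a s ha ih =>
    rw [sum_insert ha, sum_insert ha]
    exact (l1_add_le _ _).trans (by linarith)
lemma NN.l1_eq {X : Al M} (h : NN X) : l1 X = mass X := by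
  exact sum_congr rfl fun τ _ => abs_of_nonneg (h τ)
lemma IsProb.l1_eq {X : Al M} (h : IsProb X) : l1 X = 1 := by
  rw [h.1.l1_eq, h.2]
lemma abs_mass_le (X : Al M) : |mass X| ≤ l1 X := by
  exact abs_sum_le_sum_abs _ _

lemma Dom.nn {X R : Al M} (h : Dom X R) : NN R := by
  exact fun τ => (abs_nonneg _).trans (h τ)
lemma NN.dom {X : Al M} (h : NN X) : Dom X X := by
  exact fun τ => (abs_of_nonneg (h τ)).le
lemma Dom.zero {R : Al M} (h : NN R) : Dom 0 R := by
  intro τ; simpa using h τ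
lemma Dom.neg {X R : Al M} (h : Dom X R) : Dom (-X) R := by
  intro τ; simpa using h τ
lemma Dom.add {X Y R S : Al M} (h : Dom X R) (h' : Dom Y S) : Dom (X + Y) (R + S) := by
  intro τ
  have := abs_add_le (X.coeff τ) (Y.coeff τ)
  have h1 := h τ
  have h2 := h' τ
  simp only [MonoidAlgebra.coeff_add, Finsupp.add_apply]
  linarith
lemma Dom.sub {X Y R S : Al M} (h : Dom X R) (h' : Dom Y S) : Dom (X - Y) (R + S) := by
  rw [sub_eq_add_neg]
  exact h.add h'.neg
lemma Dom.smul {X R : Al M} (h : Dom X R) (c : ℝ) : Dom (c • X) (|c| • R) := by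
  intro τ
  simpa [abs_mul] using mul_le_mul_of_nonneg_left (h τ) (abs_nonneg c)
lemma Dom.sum {ι : Type*} {s : Finset ι} {X R : ι → Al M} (h : ∀ i ∈ s, Dom (X i) (R i)) :
    Dom (∑ i ∈ s, X i) (∑ i ∈ s, R i) := by
  intro τ
  rw [MonoidAlgebra.coeff_sum, MonoidAlgebra.coeff_sum, Finsupp.finsetSum_apply,
    Finsupp.finsetSum_apply]
  exact (abs_sum_le_sum_abs _ _).trans (sum_le_sum fun i hi => h i hi τ)
lemma Dom.mono {X R S : Al M} (h : Dom X R) (h' : NN (S - R)) : Dom X S := by
  intro τ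
  have h1 := h τ
  have h2 := h' τ
  simp only [MonoidAlgebra.coeff_sub, Finsupp.sub_apply] at h2
  linarith
lemma Dom.mono_smul {X R : Al M} {a b : ℝ} (h : Dom X (a • R)) (hR : NN R) (hab : a ≤ b) :
    Dom X (b • R) := by
  refine h.mono ?_
  rw [← sub_smul]
  exact hR.smul (by linarith)
lemma Dom.nn_add {X R : Al M} (h : Dom X R) : NN (R + X) := by
  intro τ
  have h1 := (abs_le.1 (h τ)).1
  simp only [MonoidAlgebra.coeff_add, Finsupp.add_apply]
  linarith
lemma Dom.nn_sub {X R : Al M} (h : Dom X R) : NN (R - X) := by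
  intro τ
  have h1 := (abs_le.1 (h τ)).2
  simp only [MonoidAlgebra.coeff_sub, Finsupp.sub_apply]
  linarith
lemma Dom.l1_le {X R : Al M} (h : Dom X R) : l1 X ≤ mass R := by
  classical
  rw [l1_eq_sum X (s := X.coeff.support ∪ R.coeff.support) subset_union_left,
    mass_eq_sum R (s := X.coeff.support ∪ R.coeff.support) subset_union_right]
  exact sum_le_sum fun τ _ => h τ

lemma Kern.nn {M' : Type} {Φ : Al M →ₗ[ℝ] Al M'} (h : Kern Φ) {X : Al M} (hX : NN X) :
    NN (Φ X) := by
  rw [eq_sum_single X, map_sum]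
  refine NN.sum fun τ _ => ?_
  rw [map_smul]
  exact (h τ).1.smul (hX τ)
lemma Kern.l1_le {M' : Type} {Φ : Al M →ₗ[ℝ] Al M'} (h : Kern Φ) (X : Al M) :
    l1 (Φ X) ≤ l1 X := by
  conv_lhs => rw [eq_sum_single X, map_sum]
  refine (l1_sum_le _ _).trans (sum_le_sum fun τ _ => ?_)
  rw [map_smul, l1_smul, (h τ).1.l1_eq]
  exact mul_le_of_le_one_right (abs_nonneg _) (h τ).2
/-- a Markov kernel preserves mass -/
lemma mass_map_eq {M' : Type} {Φ : Al M →ₗ[ℝ] Al M'}
    (h : ∀ τ, mass (Φ (MonoidAlgebra.single τ 1)) = 1) (X : Al M) : mass (Φ X) = mass X := by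
  conv_lhs => rw [eq_sum_single X, map_sum, mass_sum]
  refine sum_congr rfl fun τ _ => ?_
  rw [map_smul, mass_smul, h, mul_one]

end basic

section pr
variable {A : Type} [Monoid A]

@[simp] lemma pr_zero (f : ℕ → A) (x : ℕ) : pr f x 0 = 1 := rfl
lemma pr_succ (f : ℕ → A) (x k : ℕ) : pr f x (k + 1) = pr f x k * f (x + k) := rfl
lemma pr_succ' (f : ℕ → A) (x k : ℕ) : pr f x (k + 1) = f x * pr f (x + 1) k := by
  induction k with
  | zero => simp [pr_succ]
  | succ k ih => rw [pr_succ, ih, pr_succ, mul_assoc]; congr 3; omega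
lemma pr_add (f : ℕ → A) (x k l : ℕ) : pr f x (k + l) = pr f x k * pr f (x + k) l := by
  induction l with
  | zero => simp
  | succ l ih => rw [← add_assoc, pr_succ, ih, pr_succ, mul_assoc, add_assoc]
lemma pr_congr {f g : ℕ → A} {x k : ℕ} (h : ∀ j, x ≤ j → j < x + k → f j = g j) :
    pr f x k = pr g x k := by
  induction k with
  | zero => simp
  | succ k ih =>
    rw [pr_succ, pr_succ, ih fun j h1 h2 => h j h1 (by omega), h _ (by omega) (by omega)]
lemma pr_const (a : A) (x k : ℕ) : pr (fun _ => a) x k = a ^ k := by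
  induction k with
  | zero => simp
  | succ k ih => rw [pr_succ, ih, pow_succ]
lemma pr_eq_pow {f : ℕ → A} {a : A} {x k : ℕ} (h : ∀ j, x ≤ j → j < x + k → f j = a) :
    pr f x k = a ^ k := by
  rw [pr_congr (g := fun _ => a) h, pr_const]
lemma pr_shift (f : ℕ → A) (x y k : ℕ) : pr f (y + x) k = pr (fun j => f (j + x)) y k := by
  induction k with
  | zero => simp
  | succ k ih => rw [pr_succ, pr_succ, ih]; congr 2; omega
lemma map_pr {B F : Type} [Monoid B] [FunLike F A B] [MonoidHomClass F A B] (φ : F) (f : ℕ → A)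
    (x k : ℕ) : φ (pr f x k) = pr (fun j => φ (f j)) x k := by
  induction k with
  | zero => simp
  | succ k ih => rw [pr_succ, pr_succ, map_mul, ih]
/-- distributivity -/
lemma pr_expand {A : Type} [Semiring A] (f g : ℕ → A) (x k : ℕ) :
    pr (fun j => f j + g j) x k =
      ∑ S ∈ (Ico x (x + k)).powerset, pr (fun j => if j ∈ S then g j else f j) x k := by
  induction k with
  | zero => simp
  | succ k ih =>
    have hn : x + k ∉ Ico x (x + k) := by simp
    rw [pr_succ, ih, ← add_assoc, Nat.Ico_succ_right_eq_insert_Ico (Nat.le_add_right x k),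
      sum_powerset_insert hn, sum_mul, ← sum_add_distrib]
    refine sum_congr rfl fun S hS => ?_
    have hS' : x + k ∉ S := fun h => hn (mem_powerset.1 hS h)
    rw [pr_succ, pr_succ, mul_add, if_neg hS', if_pos (mem_insert_self _ _)]
    congr 2
    refine pr_congr fun j _ h2 => ?_
    have : j ≠ x + k := by omega
    simp [this]
/-- distributivity restricted to the positions in `T` -/
lemma pr_expand_on {A : Type} [Semiring A] (f g : ℕ → A) (N : ℕ) {T : Finset ℕ}
    (hT : T ⊆ range N) :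
    pr (fun j => if j ∈ T then f j + g j else f j) 0 N =
      ∑ S ∈ T.powerset, pr (fun j => if j ∈ S then g j else f j) 0 N := by
  have h := pr_expand f (fun j => if j ∈ T then g j else 0) 0 N
  have e : (fun j => if j ∈ T then f j + g j else f j) =
      fun j => f j + if j ∈ T then g j else 0 := by
    funext j; split_ifs <;> simp
  rw [e, h, zero_add, ← range_eq_Ico]
  symm
  rw [← sum_subset (powerset_mono.2 hT)]
  · refine sum_congr rfl fun S hS => pr_congr fun j _ _ => ?_
    by_cases hj : j ∈ S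
    · simp [hj, mem_powerset.1 hS hj]
    · simp [hj]
  · intro S hS hS'
    obtain ⟨j, hj, hjT⟩ := not_subset.1 (fun h => hS' (mem_powerset.2 h))
    have hjN : j < N := mem_range.1 (mem_powerset.1 hS hj)
    obtain ⟨m, rfl⟩ : ∃ m, N = j + 1 + m := ⟨N - (j + 1), by omega⟩
    rw [pr_add, pr_succ]
    simp [hj, hjT]
lemma pr_smul {A : Type} [Semiring A] [Algebra ℝ A] (c : ℕ → ℝ) (f : ℕ → A) (x k : ℕ) :
    pr (fun j => c j • f j) x k = (∏ j ∈ Ico x (x + k), c j) • pr f x k := by
  induction k with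
  | zero => simp
  | succ k ih =>
    rw [pr_succ, pr_succ, ih, ← add_assoc, prod_Ico_succ_top (Nat.le_add_right x k),
      smul_mul_smul_comm]

end pr

section mul
variable {M : Type} [Monoid M]

lemma Alg_mul_eq_sum (X Y : Al M) : X * Y = ∑ σ ∈ X.coeff.support, ∑ τ ∈ Y.coeff.support,
    (X.coeff σ * Y.coeff τ) • MonoidAlgebra.single (σ * τ) (1 : ℝ) := by
  rw [MonoidAlgebra.mul_def]
  simp [Finsupp.sum]

lemma ex_one (f : M → ℝ) : ex (1 : Al M) f = f 1 := by
  rw [MonoidAlgebra.one_def, ex_single, one_mul]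
lemma ex_mul (X Y : Al M) (f : M → ℝ) :
    ex (X * Y) f = ex X (fun σ => ex Y (fun τ => f (σ * τ))) := by
  rw [Alg_mul_eq_sum, ex_sum]
  unfold ex
  refine sum_congr rfl fun σ _ => ?_
  rw [mul_sum]
  change ex _ f = _
  rw [ex_sum]
  refine sum_congr rfl fun τ _ => ?_
  rw [ex_smul, ex_single]; ring
/-- the product as a mixture of point masses -/
lemma mul_eq_sum (X Y : Al M) : X * Y = ∑ σ ∈ X.coeff.support, ∑ τ ∈ Y.coeff.support,
    (X.coeff σ * Y.coeff τ) • MonoidAlgebra.single (σ * τ) (1 : ℝ) := by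
  exact Alg_mul_eq_sum X Y
lemma mass_one : mass (1 : Al M) = 1 := by
  rw [mass_eq_ex, ex_one]
lemma mass_mul (X Y : Al M) : mass (X * Y) = mass X * mass Y := by
  rw [mass_eq_ex, ex_mul]
  simp only [← mass_eq_ex, ex_const]
lemma mass_pow (X : Al M) (k : ℕ) : mass (X ^ k) = mass X ^ k := by
  induction k with
  | zero => simp [mass_one]
  | succ k ih => rw [pow_succ, mass_mul, ih, pow_succ]
lemma mass_pr (f : ℕ → Al M) (x k : ℕ) : mass (pr f x k) = ∏ j ∈ Ico x (x + k), mass (f j) := by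
  induction k with
  | zero => simp [mass_one]
  | succ k ih =>
    rw [pr_succ, mass_mul, ih, ← add_assoc, prod_Ico_succ_top (Nat.le_add_right x k)]
lemma NN.one : NN (1 : Al M) := by
  exact NN.single 1 zero_le_one
lemma NN.mul {X Y : Al M} (hX : NN X) (hY : NN Y) : NN (X * Y) := by
  rw [mul_eq_sum]
  exact NN.sum fun σ _ => NN.sum fun τ _ =>
    (NN.single _ zero_le_one).smul (mul_nonneg (hX σ) (hY τ))
lemma NN.pow {X : Al M} (hX : NN X) (k : ℕ) : NN (X ^ k) := by
  induction k with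
  | zero => simpa using NN.one
  | succ k ih => rw [pow_succ]; exact ih.mul hX
lemma NN.pr {f : ℕ → Al M} {x k : ℕ} (h : ∀ j, x ≤ j → j < x + k → NN (f j)) : NN (pr f x k) := by
  induction k with
  | zero => simpa using NN.one
  | succ k ih =>
    rw [pr_succ]
    exact (ih fun j h1 h2 => h j h1 (by omega)).mul (h _ (by omega) (by omega))
lemma IsProb.one : IsProb (1 : Al M) := by
  exact ⟨NN.one, mass_one⟩
lemma IsProb.mul {X Y : Al M} (hX : IsProb X) (hY : IsProb Y) : IsProb (X * Y) := by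
  exact ⟨hX.1.mul hY.1, by rw [mass_mul, hX.2, hY.2, one_mul]⟩
lemma IsProb.pow {X : Al M} (hX : IsProb X) (k : ℕ) : IsProb (X ^ k) := by
  exact ⟨hX.1.pow k, by rw [mass_pow, hX.2, one_pow]⟩
lemma IsProb.pr {f : ℕ → Al M} {x k : ℕ} (h : ∀ j, x ≤ j → j < x + k → IsProb (f j)) :
    IsProb (pr f x k) := by
  induction k with
  | zero => simpa using IsProb.one
  | succ k ih =>
    rw [pr_succ]
    exact (ih fun j h1 h2 => h j h1 (by omega)).mul (h _ (by omega) (by omega))
lemma IsProb.bq {μ : Al M} (h : IsProb μ) {θ : ℝ} (h0 : 0 ≤ θ) (h1 : θ ≤ 1) :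
    IsProb (Bq θ μ) := by
  refine ⟨(NN.one.smul (by linarith)).add (h.1.smul h0), ?_⟩
  rw [Bq, mass_add, mass_smul, mass_smul, mass_one, h.2]; ring
lemma l1_mul_le (X Y : Al M) : l1 (X * Y) ≤ l1 X * l1 Y := by
  rw [mul_eq_sum]
  refine (l1_sum_le _ _).trans ?_
  unfold l1
  rw [sum_mul_sum]
  refine sum_le_sum fun σ _ => ?_
  change l1 _ ≤ _
  refine (l1_sum_le _ _).trans (sum_le_sum fun τ _ => ?_)
  rw [l1_smul, (IsProb.single _).l1_eq, mul_one, abs_mul]
/-- multiplying by probability vectors on both sides does not increase `ℓ¹` -/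
lemma l1_mul_mul_le {P Q : Al M} (hP : IsProb P) (hQ : IsProb Q) (X : Al M) :
    l1 (P * X * Q) ≤ l1 X := by
  have h1 := l1_mul_le (P * X) Q
  have h2 := l1_mul_le P X
  rw [hQ.l1_eq, mul_one] at h1
  rw [hP.l1_eq, one_mul] at h2
  linarith
lemma l1_mul_sub_mul {X X' Y Y' : Al M} (hX : IsProb X) (hY' : IsProb Y') :
    l1 (X * Y - X' * Y') ≤ l1 (X - X') + l1 (Y - Y') := by
  have e : X * Y - X' * Y' = (X - X') * Y' + X * (Y - Y') := by noncomm_ring
  have h1 := l1_mul_le (X - X') Y'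
  have h2 := l1_mul_le X (Y - Y')
  rw [hY'.l1_eq, mul_one] at h1
  rw [hX.l1_eq, one_mul] at h2
  rw [e]
  exact (l1_add_le _ _).trans (by linarith)
lemma l1_pr_sub {f g : ℕ → Al M} {x k : ℕ} {e : ℝ} (hf : ∀ j, x ≤ j → j < x + k → IsProb (f j))
    (hg : ∀ j, x ≤ j → j < x + k → IsProb (g j))
    (h : ∀ j, x ≤ j → j < x + k → l1 (f j - g j) ≤ e) : l1 (pr f x k - pr g x k) ≤ k * e := by
  induction k with
  | zero => simp [l1_zero]
  | succ k ih =>
    rw [pr_succ, pr_succ]
    have h1 := ih (fun j h1 h2 => hf j h1 (by omega)) (fun j h1 h2 => hg j h1 (by omega))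
      (fun j h1 h2 => h j h1 (by omega))
    have h2 := h (x + k) (by omega) (by omega)
    refine (l1_mul_sub_mul (IsProb.pr fun j h1 h2 => hf j h1 (by omega))
      (hg _ (by omega) (by omega))).trans ?_
    push_cast
    linarith
lemma l1_pow_sub {X Y : Al M} (hX : IsProb X) (hY : IsProb Y) (k : ℕ) :
    l1 (X ^ k - Y ^ k) ≤ k * l1 (X - Y) := by
  have := l1_pr_sub (f := fun _ => X) (g := fun _ => Y) (x := 0) (k := k) (fun _ _ _ => hX)
    (fun _ _ _ => hY) (fun _ _ _ => le_rfl)
  rwa [pr_const, pr_const] at this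
lemma Dom.mul {X Y R S : Al M} (h : Dom X R) (h' : Dom Y S) : Dom (X * Y) (R * S) := by
  have e1 : (2 : ℝ) • (R * S + X * Y) = (R + X) * (S + Y) + (R - X) * (S - Y) := by
    rw [two_smul]; noncomm_ring
  have e2 : (2 : ℝ) • (R * S - X * Y) = (R + X) * (S - Y) + (R - X) * (S + Y) := by
    rw [two_smul]; noncomm_ring
  have h1 : NN ((2 : ℝ) • (R * S + X * Y)) := by
    rw [e1]; exact (h.nn_add.mul h'.nn_add).add (h.nn_sub.mul h'.nn_sub)
  have h2 : NN ((2 : ℝ) • (R * S - X * Y)) := by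
    rw [e2]; exact (h.nn_add.mul h'.nn_sub).add (h.nn_sub.mul h'.nn_add)
  intro τ
  have a1 := h1 τ
  have a2 := h2 τ
  simp only [MonoidAlgebra.coeff_smul, MonoidAlgebra.coeff_add, MonoidAlgebra.coeff_sub,
    Finsupp.smul_apply, Finsupp.add_apply, Finsupp.sub_apply, smul_eq_mul] at a1 a2
  rw [abs_le]
  constructor <;> linarith
lemma Dom.pr {f g : ℕ → Al M} {x k : ℕ} (h : ∀ j, x ≤ j → j < x + k → Dom (f j) (g j)) :
    Dom (pr f x k) (pr g x k) := by
  induction k with
  | zero => simpa using NN.one.dom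
  | succ k ih =>
    rw [pr_succ, pr_succ]
    exact (ih fun j h1 h2 => h j h1 (by omega)).mul (h _ (by omega) (by omega))
lemma kern_mulLeft {Q : Al M} (hQ : NN Q) (h1 : mass Q ≤ 1) :
    Kern (LinearMap.mulLeft ℝ Q : Al M →ₗ[ℝ] Al M) := by
  intro τ
  rw [LinearMap.mulLeft_apply, mass_mul, mass_single, mul_one]
  exact ⟨hQ.mul (NN.single _ zero_le_one), h1⟩
lemma kern_mulRight {Q : Al M} (hQ : NN Q) (h1 : mass Q ≤ 1) :
    Kern (LinearMap.mulRight ℝ Q : Al M →ₗ[ℝ] Al M) := by
  intro τ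
  rw [LinearMap.mulRight_apply, mass_mul, mass_single, one_mul]
  exact ⟨(NN.single _ zero_le_one).mul hQ, h1⟩

lemma ins_empty (U D : Al M) (N : ℕ) : ins U D N ∅ = U ^ N := by
  unfold ins
  exact pr_eq_pow fun j _ _ => by simp
lemma ins_singleton (U D : Al M) {N j : ℕ} (hj : j < N) :
    ins U D N {j} = U ^ j * D * U ^ (N - 1 - j) := by
  obtain ⟨m, rfl⟩ : ∃ m, N = j + 1 + m := ⟨N - (j + 1), by omega⟩
  unfold ins
  rw [pr_add, pr_succ, pr_eq_pow (a := U), pr_eq_pow (a := U)]
  · have : j + 1 + m - 1 - j = m := by omega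
    simp [this]
  · intro i h1 _
    have : i ≠ j := by omega
    simp [this]
  · intro i _ h2
    have : i ≠ j := by omega
    simp [this]
lemma mass_ins (U : Al M) {D : Al M} (hD : mass D = 0) {N : ℕ} {S : Finset ℕ} (hS : S ⊆ range N)
    (hne : S.Nonempty) : mass (ins U D N S) = 0 := by
  obtain ⟨j, hj⟩ := hne
  unfold ins
  rw [mass_pr]
  refine prod_eq_zero (i := j) ?_ ?_
  · simpa using hS hj
  · simp [hj, hD]
lemma dom_ins {U D : Al M} (hU : NN U) {ε : ℝ} (hD : Dom D (ε • U)) {N : ℕ} {S : Finset ℕ}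
    (hS : S ⊆ range N) : Dom (ins U D N S) (ε ^ S.card • U ^ N) := by
  have h := Dom.pr (f := fun j => if j ∈ S then D else U)
    (g := fun j => (if j ∈ S then ε else 1) • U) (x := 0) (k := N) (fun j _ _ => by
      by_cases hj : j ∈ S
      · simpa [hj] using hD
      · simpa [hj] using hU.dom)
  rw [pr_smul, pr_const, zero_add, ← range_eq_Ico, prod_ite_mem, prod_const,
    inter_eq_right.2 hS] at h
  exact h
lemma ins_shift (U D : Al M) {K N o : ℕ} {S : Finset ℕ} (hS : S ⊆ range K) (h : o + K ≤ N) :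
    U ^ o * ins U D K S * U ^ (N - K - o) = ins U D N (S.image (· + o)) := by
  obtain ⟨m, rfl⟩ : ∃ m, N = o + K + m := ⟨N - (o + K), by omega⟩
  have e : o + K + m - K - o = m := by omega
  rw [e]
  unfold ins
  rw [pr_add, pr_add]
  congr 1
  · congr 1
    · refine (pr_eq_pow fun j _ h2 => ?_).symm
      rw [if_neg]
      simp only [mem_image, not_exists, not_and]
      intro i _ hi; omega
    · rw [pr_shift]
      refine pr_congr fun j _ _ => ?_
      have : j + o ∈ S.image (· + o) ↔ j ∈ S := by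
        simp only [mem_image]
        constructor
        · rintro ⟨i, hi, e⟩
          have : i = j := by omega
          rwa [← this]
        · exact fun hj => ⟨j, hj, rfl⟩
      simp only [this]
  · refine (pr_eq_pow fun j h1 _ => ?_).symm
    rw [if_neg]
    simp only [mem_image, not_exists, not_and]
    intro i hi e
    have := mem_range.1 (hS hi)
    omega
lemma add_pow_eq_sum_ins (U D : Al M) (N : ℕ) :
    (U + D) ^ N = ∑ S ∈ (range N).powerset, ins U D N S := by
  have := pr_expand (fun _ => U) (fun _ => D) 0 N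
  rw [pr_const, zero_add, ← range_eq_Ico] at this
  exact this

lemma ev_lt_false (μ o : Al M) : ev μ o (lt false) = μ := by
  simp [ev, lt]
lemma ev_lt_true (μ o : Al M) : ev μ o (lt true) = o := by
  simp [ev, lt]
lemma ev_single (μ o : Al M) (τ : FB) :
    ev μ o (MonoidAlgebra.single τ 1) =
      ((FreeMonoid.toList τ).map fun x => if x then o else μ).prod := by
  simp [ev, FreeMonoid.lift_apply]
lemma isProb_ev_single {μ o : Al M} (hμ : IsProb μ) (ho : IsProb o) (τ : FB) :
    IsProb (ev μ o (MonoidAlgebra.single τ 1)) := by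
  rw [ev_single]
  induction FreeMonoid.toList τ with
  | nil => simpa using IsProb.one
  | cons a l ih =>
    rw [List.map_cons, List.prod_cons]
    refine IsProb.mul ?_ ih
    cases a
    · simpa using hμ
    · simpa using ho
lemma map_Bq {M' : Type} [Monoid M'] (φ : Al M →ₐ[ℝ] Al M') (θ : ℝ) (μ : Al M) :
    φ (Bq θ μ) = Bq θ (φ μ) := by
  simp [Bq]
lemma isProb_lt (a : Bool) : IsProb (lt a) := by
  exact IsProb.single _
lemma law_nil (p : ℝ) : law p [] = 1 := by
  simp [law]
lemma law_cons (p : ℝ) (a : Bool) (w : List Bool) : law p (a :: w) = Bq p (lt a) * law p w := by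
  simp [law]
lemma law_append (p : ℝ) (u v : List Bool) : law p (u ++ v) = law p u * law p v := by
  simp [law]
lemma isProb_law {p : ℝ} (h0 : 0 ≤ p) (h1 : p ≤ 1) (w : List Bool) : IsProb (law p w) := by
  induction w with
  | nil => rw [law_nil]; exact IsProb.one
  | cons a w ih => rw [law_cons]; exact ((isProb_lt a).bq h0 h1).mul ih
/-- `u` repeated `k` times -/
lemma law_rep (p : ℝ) (u : List Bool) (k : ℕ) :
    law p (List.replicate k u).flatten = law p u ^ k := by
  induction k with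
  | zero => simp [law_nil]
  | succ k ih => rw [List.replicate_succ, List.flatten_cons, law_append, ih, pow_succ']
lemma law_flatMap (p : ℝ) (f : ℕ → List Bool) (k : ℕ) :
    law p ((List.range k).flatMap f) = pr (fun j => law p (f j)) 0 k := by
  induction k with
  | zero => simp [law_nil]
  | succ k ih => rw [List.range_succ, List.flatMap_append, law_append, ih, pr_succ]; simp

end mul

end Crest.Agent.R300L
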