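import Crest.Agent.R300L.Defs

/-!
# Gap products
-/

set_option autoImplicit false
open Finset

noncomputable section
namespace Crest.Agent.R300L

lemma Gam_nonneg {φ : ℕ → ℝ} (hφ : ∀ g, 0 ≤ φ g) (N : ℕ) (B : Finset ℕ) : 0 ≤ Gam φ N B := by
  exact prod_nonneg fun _ _ => hφ _
lemma Gam_empty (φ : ℕ → ℝ) (N : ℕ) : Gam φ N ∅ = φ (N + 1) := by
  simp [Gam, gap]

lemma gam_sup_le {B : Finset ℕ} {x : ℕ} (h : ∀ i ∈ B, i < x) : B.sup (· + 1) ≤ x :=
  Finset.sup_le fun i hi => h i hi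

lemma gam_eq (φ : ℕ → ℝ) {B : Finset ℕ} {x : ℕ} (h : ∀ i ∈ B, i < x) :
    Gam φ x B = φ (x + 1 - B.sup (· + 1)) * ∏ i ∈ B, φ (gap B i) := by
  rw [Gam, prod_insert fun hx => lt_irrefl _ (h x hx), gap, filter_true_of_mem h]

lemma gam_insert (φ : ℕ → ℝ) {B : Finset ℕ} {x y : ℕ} (h : ∀ i ∈ B, i < y) (hx : y < x) :
    Gam φ x (insert y B) = φ (x - y) * Gam φ y B := by
  rw [gam_eq φ (x := x) fun i hi => by
    rcases mem_insert.1 hi with rfl | hi
    · exact hx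
    · exact (h i hi).trans hx]
  have h1 := gam_sup_le h
  rw [sup_insert, sup_of_le_left (by omega : B.sup (· + 1) ≤ y + 1), Nat.add_sub_add_right, Gam]
  congr 1
  refine prod_congr rfl fun i hi => ?_
  have h2 : ¬ y < i := by
    rcases mem_insert.1 hi with rfl | hi
    · exact lt_irrefl _
    · exact not_lt.2 (h i hi).le
  rw [gap, gap, filter_insert, if_neg h2]

lemma gam_conv {φ : ℕ → ℝ} (hφ : ∀ g, 0 ≤ φ g) {wt : ℝ} {y : ℕ}
    (hconv : ∀ g ≤ y + 1, 2 * wt * ∑ i ∈ Ioo 0 g, φ i * φ (g - i) ≤ φ g) {S : Finset ℕ}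
    (hS : ∀ i ∈ S, i < y) :
    2 * wt * ∑ ρ ∈ Ico (S.sup (· + 1)) y, φ (y - ρ) * Gam φ ρ S ≤ Gam φ y S := by
  have h1 := gam_sup_le hS
  have h2 : ∑ ρ ∈ Ico (S.sup (· + 1)) y, φ (y - ρ) * Gam φ ρ S =
      (∑ i ∈ Ioo 0 (y + 1 - S.sup (· + 1)), φ i * φ (y + 1 - S.sup (· + 1) - i)) * ∏ i ∈ S, φ (gap S i) := by
    rw [sum_mul]
    refine sum_nbij' (fun ρ => ρ + 1 - S.sup (· + 1)) (fun i => i + S.sup (· + 1) - 1) ?_ ?_ ?_ ?_ ?_
    · intro ρ h
      simp only [mem_Ico, mem_Ioo] at h ⊢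
      omega
    · intro ρ h
      simp only [mem_Ico, mem_Ioo] at h ⊢
      omega
    · intro ρ h
      simp only [mem_Ico] at h ⊢
      omega
    · intro ρ h
      simp only [mem_Ioo] at h ⊢
      omega
    · intro ρ h
      obtain ⟨h3, h4⟩ := mem_Ico.1 h
      rw [gam_eq φ (x := ρ) fun i hi => lt_of_lt_of_le (Nat.lt_succ_self i)
        ((le_sup (f := (· + 1)) hi).trans h3),
        show y + 1 - S.sup (· + 1) - (ρ + 1 - S.sup (· + 1)) = y - ρ by omega]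
      ring
  rw [h2, ← mul_assoc, gam_eq φ hS]
  exact mul_le_mul_of_nonneg_right (hconv _ (by omega)) (prod_nonneg fun _ _ => hφ _)

lemma gam_inv {φ : ℕ → ℝ} (hφ : ∀ g, 0 ≤ φ g) (N : ℕ) {wt : ℝ} (hwt : 0 ≤ wt)
    (hconv : ∀ g ≤ N + 1, 2 * wt * ∑ i ∈ Ioo 0 g, φ i * φ (g - i) ≤ φ g) :
    ∀ y ≤ N, ∀ S : Finset ℕ, (∀ i ∈ S, i < y) →
      (∀ x, y ≤ x → ∑ R ∈ (range y \ S).powerset, wt ^ R.card * Gam φ x (S ∪ R) ≤
        2 ^ S.card * (Gam φ x S + 2 * wt * ∑ ρ ∈ Ico (S.sup (· + 1)) y, φ (x - ρ) * Gam φ ρ S)) ∧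
      ∑ R ∈ (range y \ S).powerset, wt ^ R.card * Gam φ y (S ∪ R) ≤ 2 ^ (S.card + 1) * Gam φ y S := by
  intro y
  induction y with
  | zero =>
    intro _ S hS
    obtain rfl : S = ∅ := eq_empty_of_forall_notMem fun i hi => absurd (hS i hi) (by omega)
    refine ⟨fun x _ => by simp, ?_⟩
    have := Gam_nonneg hφ 0 ∅
    simp
    linarith
  | succ y ih =>
    intro hy S hS
    have key : ∀ x, y + 1 ≤ x → ∑ R ∈ (range (y + 1) \ S).powerset, wt ^ R.card * Gam φ x (S ∪ R) ≤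
        2 ^ S.card * (Gam φ x S + 2 * wt * ∑ ρ ∈ Ico (S.sup (· + 1)) (y + 1), φ (x - ρ) * Gam φ ρ S) := by
      intro x hx
      have hlt : ∀ {T R : Finset ℕ}, (∀ i ∈ T, i < y) → R ∈ (range y \ T).powerset → ∀ i ∈ T ∪ R, i < y := by
        intro T R hT hR i hi
        rcases mem_union.1 hi with hi | hi
        · exact hT i hi
        · exact mem_range.1 (mem_sdiff.1 (mem_powerset.1 hR hi)).1
      by_cases hyS : y ∈ S
      · obtain ⟨T, hT, rfl⟩ : ∃ T, y ∉ T ∧ S = insert y T := ⟨S.erase y, notMem_erase _ _, (insert_erase hyS).symm⟩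
        have hT' : ∀ i ∈ T, i < y := fun i hi =>
          lt_of_le_of_ne (Nat.lt_succ_iff.1 (hS i (mem_insert_of_mem hi))) fun e => hT (e ▸ hi)
        have h1 : range (y + 1) \ insert y T = range y \ T := by
          ext i
          simp only [mem_sdiff, mem_range, mem_insert, not_or]
          constructor
          · rintro ⟨h2, h3, h4⟩
            exact ⟨by omega, h4⟩
          · rintro ⟨h2, h3⟩
            exact ⟨by omega, by omega, h3⟩
        have h2 := gam_sup_le hT'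
        rw [h1, sup_insert, sup_of_le_left (by omega : T.sup (· + 1) ≤ y + 1), Ico_self, sum_empty, mul_zero,
          add_zero, card_insert_of_notMem hT, gam_insert φ hT' hx,
          sum_congr rfl fun R hR => by rw [insert_union, gam_insert φ (hlt hT' hR) hx, mul_left_comm],
          ← mul_sum, mul_left_comm]
        exact mul_le_mul_of_nonneg_left (ih (by omega) T hT').2 (hφ _)
      · have hS' : ∀ i ∈ S, i < y := fun i hi =>
          lt_of_le_of_ne (Nat.lt_succ_iff.1 (hS i hi)) fun e => hyS (e ▸ hi)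
        have h1 : range (y + 1) \ S = insert y (range y \ S) := by
          rw [range_add_one, insert_sdiff_of_notMem _ hyS]
        obtain ⟨h2, h3⟩ := ih (by omega) S hS'
        have h4 : ∑ R ∈ (range y \ S).powerset, wt ^ (insert y R).card * Gam φ x (S ∪ insert y R) =
            wt * φ (x - y) * ∑ R ∈ (range y \ S).powerset, wt ^ R.card * Gam φ y (S ∪ R) := by
          rw [mul_sum]
          refine sum_congr rfl fun R hR => ?_
          have h5 : y ∉ R := fun h => lt_irrefl _ (hlt hS' hR y (mem_union_right _ h))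
          rw [union_insert, gam_insert φ (hlt hS' hR) hx, card_insert_of_notMem h5]
          ring
        rw [h1, sum_powerset_insert (by simp), h4, sum_Ico_succ_top (gam_sup_le hS')]
        have h5 := mul_le_mul_of_nonneg_left h3 (mul_nonneg hwt (hφ (x - y)))
        have h6 := h2 x (by omega)
        rw [pow_succ] at h5
        linarith
    refine ⟨key, (key _ le_rfl).trans ?_⟩
    have h7 := gam_conv hφ (fun g hg => hconv g (by omega)) hS
    rw [pow_succ, mul_assoc (2 ^ S.card : ℝ)]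
    exact mul_le_mul_of_nonneg_left (by linarith) (by positivity)

/-- Summing out the spectators.  Let `Ψ y = ∑_{R ⊆ range y \ S} wt^|R| Gam φ y ((S ∪ R) ∩ range y)`.
Decomposing by the largest element of `(S ∪ R) ∩ range y` gives
`Ψ y = φ(y - s) Ψ s + wt ∑_{s < ρ < y} φ(y - ρ) Ψ ρ` (`s = max (S ∩ range y)`; if there is none the
first term is `φ(y+1)` and `ρ` ranges over `range y`); strong induction on `y` gives
`Ψ y ≤ 2^{|S ∩ range y|+1} Gam φ y (S ∩ range y)`.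
(One way: `Z y ψ = ∑_R wt^|R| (∏_{i ∈ (S∪R)∩range y} φ(gap)) ψ(sup (·+1))` satisfies a one-step
recursion in `y`.) -/
theorem gam_sum {φ : ℕ → ℝ} (hφ : ∀ g, 0 ≤ φ g) (N : ℕ) {wt : ℝ} (hwt : 0 ≤ wt)
    (hconv : ∀ g ≤ N + 1, 2 * wt * ∑ i ∈ Ioo 0 g, φ i * φ (g - i) ≤ φ g) {S : Finset ℕ}
    (hS : S ⊆ range N) :
    ∑ R ∈ (range N \ S).powerset, wt ^ R.card * Gam φ N (S ∪ R) ≤
      2 ^ (S.card + 1) * Gam φ N S := by
  exact (gam_inv hφ N hwt hconv N le_rfl S (fun i hi => mem_range.1 (hS hi))).2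

/-- `wt^|R| ≤ (wt/wt₀) wt₀^|R|` for `R ≠ ∅`, then `gam_sum` with `S = ∅` -/
theorem gam_sum_empty {φ : ℕ → ℝ} (hφ : ∀ g, 0 ≤ φ g) (N : ℕ) {wt wt₀ : ℝ} (hwt : 0 ≤ wt)
    (hle : wt ≤ wt₀) (h0 : 0 < wt₀)
    (hconv : ∀ g ≤ N + 1, 2 * wt₀ * ∑ i ∈ Ioo 0 g, φ i * φ (g - i) ≤ φ g) :
    ∑ R ∈ (range N).powerset.erase ∅, wt ^ R.card * Gam φ N R ≤ wt / wt₀ * (2 * φ (N + 1)) := by
  have h1 := gam_sum hφ N h0.le hconv (empty_subset _)
  simp only [sdiff_empty, empty_union, card_empty, zero_add, pow_one, Gam_empty] at h1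
  have hq : 0 ≤ wt / wt₀ := div_nonneg hwt h0.le
  refine le_trans ?_ (mul_le_mul_of_nonneg_left h1 hq)
  rw [mul_sum]
  refine le_trans (sum_le_sum fun R hR => ?_) (sum_le_sum_of_subset_of_nonneg (erase_subset _ _)
    fun R _ _ => mul_nonneg hq (mul_nonneg (pow_nonneg h0.le _) (Gam_nonneg hφ _ _)))
  obtain ⟨k, hk⟩ := Nat.exists_eq_succ_of_ne_zero (card_ne_zero.2 (nonempty_iff_ne_empty.2 (ne_of_mem_erase hR)))
  rw [← mul_assoc, hk]
  refine mul_le_mul_of_nonneg_right ?_ (Gam_nonneg hφ _ _)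
  rw [pow_succ', pow_succ', ← mul_assoc, div_mul_cancel₀ _ h0.ne']
  exact mul_le_mul_of_nonneg_left (pow_le_pow_left₀ hwt hle k) hwt

/-- a cluster far from both ends: keep the factors of `min S` and of `N` -/
theorem gam_cluster {φ : ℕ → ℝ} (hφ : ∀ g, 0 ≤ φ g) (h1 : ∀ g, 1 ≤ g → φ g ≤ 1)
    (hanti : ∀ g g', 1 ≤ g → g ≤ g' → φ g' ≤ φ g) {N o K b : ℕ} {S : Finset ℕ} (hne : S.Nonempty)
    (hS : S ⊆ Ico o (o + K)) (hb : 1 ≤ b) (ho : b ≤ o) (hN : o + K + b ≤ N) :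
    Gam φ N S ≤ φ b ^ 2 := by
  have hm := mem_Ico.1 (hS (S.min'_mem hne))
  have h2 : ({S.min' hne, N} : Finset ℕ) ⊆ insert N S := by
    intro i hi
    rcases mem_insert.1 hi with rfl | hi
    · exact mem_insert_of_mem (S.min'_mem hne)
    · rw [mem_singleton.1 hi]
      exact mem_insert_self _ _
  have h3 : ∀ i, 1 ≤ gap S i := by
    intro i
    have := gam_sup_le (B := S.filter (· < i)) (x := i) fun j hj => (mem_filter.1 hj).2
    unfold gap
    omega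
  refine (prod_le_prod_of_subset_of_le_one h2 (fun _ _ => hφ _) fun i _ _ => h1 _ (h3 i)).trans ?_
  rw [prod_pair (by omega), sq]
  refine mul_le_mul (hanti _ _ hb ?_) (hanti _ _ hb ?_) (hφ _) (hφ _)
  · rw [gap, filter_false_of_mem fun j hj => not_lt.2 (S.min'_le j hj), sup_empty]
    simp only [bot_eq_zero', tsub_zero]
    omega
  · have := gam_sup_le (B := S.filter (· < N)) (x := o + K) fun j hj => (mem_Ico.1 (hS (mem_filter.1 hj).1)).2
    unfold gap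
    omega

lemma ft_nonneg {A C : ℝ} (hA : 0 ≤ A) (hC : 0 ≤ C) (g : ℕ) : 0 ≤ ft A C g := by
  unfold ft
  positivity
lemma ft_anti {A C : ℝ} (hC : 0 ≤ C) {g g' : ℕ} (hg : 1 ≤ g) (h : g ≤ g') :
    ft A C g' ≤ ft A C g := by
  unfold ft
  have h1 : (0 : ℝ) < g := by exact_mod_cast hg
  gcongr
lemma gam_sum_inv_sqrt (g : ℕ) : ∑ i ∈ range (g + 1), 1 / √(i : ℝ) ≤ 2 * √(g : ℝ) := by
  induction g with
  | zero => simp
  | succ g ih =>
    rw [sum_range_succ]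
    have h0 : (0 : ℝ) ≤ g := Nat.cast_nonneg g
    have h1 : 0 < √((g + 1 : ℕ) : ℝ) := Real.sqrt_pos.2 (by positivity)
    have h2 : √((g + 1 : ℕ) : ℝ) ^ 2 = g + 1 := by rw [Real.sq_sqrt (by positivity)]; push_cast; rfl
    have h3 := Real.sq_sqrt h0
    have h4 : 1 / √((g + 1 : ℕ) : ℝ) ≤ 2 * (√((g + 1 : ℕ) : ℝ) - √(g : ℝ)) := by
      rw [div_le_iff₀ h1]
      nlinarith [sq_nonneg (√((g + 1 : ℕ) : ℝ) - √(g : ℝ))]
    linarith

/-- `∑_{1≤i≤g} 1/√i ≤ 2√g`; one of `i`, `g-i` is `≥ g/2`, where `ft ≤ (3/2) ft g`; so the sum is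
`≤ (3/2) ft g · 2 ∑_{0<i<g} ft i` -/
theorem ft_conv {A C : ℝ} (hA : 0 ≤ A) (hC : 0 ≤ C) (g : ℕ) :
    ∑ i ∈ Ioo 0 g, ft A C i * ft A C (g - i) ≤ 3 * ft A C g * (A * g + 2 * C * √(g : ℝ)) := by
  have h1 : ∀ i ∈ Ioo 0 g, g ≤ 2 * i → ft A C i ≤ 3 / 2 * ft A C g := by
    intro i hi h
    obtain ⟨h2, h3⟩ := mem_Ioo.1 hi
    have h4 : (0 : ℝ) < i := by exact_mod_cast h2
    have h5 : (0 : ℝ) < g := by exact_mod_cast h2.trans h3
    have h6 : (g : ℝ) ≤ 2 * i := by exact_mod_cast h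
    have h7 : √(g : ℝ) ≤ 3 / 2 * √(i : ℝ) := by
      refine Real.sqrt_le_iff.2 ⟨by positivity, ?_⟩
      rw [mul_pow, Real.sq_sqrt h4.le]
      linarith
    have h8 : C / √(i : ℝ) ≤ 3 / 2 * (C / √(g : ℝ)) := by
      rw [← mul_div_assoc, div_le_div_iff₀ (Real.sqrt_pos.2 h4) (Real.sqrt_pos.2 h5)]
      nlinarith
    unfold ft
    linarith
  have h2 : ∀ i ∈ Ioo 0 g, ft A C i * ft A C (g - i) ≤ 3 / 2 * ft A C g * (ft A C i + ft A C (g - i)) := by
    intro i hi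
    have h3 := ft_nonneg hA hC i
    have h4 := ft_nonneg hA hC (g - i)
    have h5 := ft_nonneg hA hC g
    obtain ⟨h6, h7⟩ := mem_Ioo.1 hi
    rcases le_or_gt g (2 * i) with h | h
    · nlinarith [h1 i hi h]
    · nlinarith [h1 (g - i) (mem_Ioo.2 ⟨by omega, by omega⟩) (by omega)]
  have h3 : ∑ i ∈ Ioo 0 g, ft A C (g - i) = ∑ i ∈ Ioo 0 g, ft A C i := by
    refine sum_nbij' (fun i => g - i) (fun i => g - i) ?_ ?_ ?_ ?_ fun _ _ => rfl
    all_goals
      intro i h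
      simp only [mem_Ioo] at h ⊢
      omega
  have h4 : ∑ i ∈ Ioo 0 g, ft A C i ≤ A * g + 2 * C * √(g : ℝ) := by
    have h5 : ∑ i ∈ Ioo 0 g, 1 / √(i : ℝ) ≤ 2 * √(g : ℝ) :=
      (sum_le_sum_of_subset_of_nonneg (fun i hi => mem_range.2 (by have := mem_Ioo.1 hi; omega))
        fun i _ _ => by positivity).trans (gam_sum_inv_sqrt g)
    have h6 : ((Ioo 0 g).card : ℝ) ≤ g := by
      rw [Nat.card_Ioo]
      exact_mod_cast (by omega : g - 0 - 1 ≤ g)
    have h7 : ∑ i ∈ Ioo 0 g, ft A C i = (Ioo 0 g).card * A + C * ∑ i ∈ Ioo 0 g, 1 / √(i : ℝ) := by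
      simp only [ft, sum_add_distrib, sum_const, nsmul_eq_mul, mul_sum, mul_one_div]
    rw [h7]
    nlinarith
  refine (sum_le_sum h2).trans ?_
  rw [← mul_sum, sum_add_distrib, h3]
  nlinarith [ft_nonneg hA hC g]

end Crest.Agent.R300L
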