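import Crest.Agent.R300L.Defs

/-!
# Geometry of the parse (no algebra)
-/

set_option autoImplicit false
open Finset

noncomputable section
namespace Crest.Agent.R300L

lemma cnt_zero (s : Finset ℕ) : cnt s 0 = 0 := by
  simp [cnt]
lemma cnt_succ (s : Finset ℕ) (j : ℕ) : cnt s (j + 1) = cnt s j + if j ∈ s then 1 else 0 := by
  unfold cnt
  split_ifs with h
  · rw [← card_insert_of_notMem (a := j) (by simp)]
    congr 1
    ext i
    simp only [mem_filter, mem_insert]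
    constructor
    · rintro ⟨h1, h2⟩
      rcases Nat.lt_succ_iff_lt_or_eq.1 h2 with h3 | h3
      · exact Or.inr ⟨h1, h3⟩
      · exact Or.inl h3
    · rintro (rfl | ⟨h1, h2⟩)
      · exact ⟨h, Nat.lt_succ_self _⟩
      · exact ⟨h1, by omega⟩
  · rw [add_zero]
    congr 1
    refine filter_congr fun i hi => ?_
    have : i ≠ j := fun e => h (e ▸ hi)
    omega
lemma cnt_le (s : Finset ℕ) (j : ℕ) : cnt s j ≤ j := by
  induction j with
  | zero => rw [cnt_zero]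
  | succ j ih =>
    rw [cnt_succ]
    split_ifs <;> omega
lemma cnt_congr {s s' : Finset ℕ} {j : ℕ} (h : ∀ i < j, i ∈ s ↔ i ∈ s') : cnt s j = cnt s' j := by
  unfold cnt
  congr 1
  ext i
  simp only [mem_filter]
  exact ⟨fun h1 => ⟨(h i h1.2).1 h1.1, h1.2⟩, fun h1 => ⟨(h i h1.2).2 h1.1, h1.2⟩⟩
lemma card_slice (J' S : ℕ) (e : Bool) : (slice J' S e).card = J'.choose S := by
  rw [show J'.choose S = (powersetCard S (range J')).card by simp]
  refine card_bij (fun ξ _ => ξ.filter (· < J')) (fun ξ hξ => ?_) (fun ξ hξ ξ' hξ' h => ?_)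
    fun t ht => ?_
  · simp only [slice, mem_filter] at hξ
    exact mem_powersetCard.2 ⟨fun i hi => mem_range.2 (mem_filter.1 hi).2, hξ.2.1⟩
  · simp only [slice, mem_filter, mem_powerset] at hξ hξ'
    ext i
    rcases lt_trichotomy i J' with hi | rfl | hi
    · simpa [hi] using Finset.ext_iff.1 h i
    · rw [hξ.2.2, hξ'.2.2]
    · constructor
      · intro h1
        have := mem_range.1 (hξ.1 h1)
        omega
      · intro h1
        have := mem_range.1 (hξ'.1 h1)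
        omega
  · obtain ⟨h1, h2⟩ := mem_powersetCard.1 ht
    have h3 : ∀ i ∈ t, i < J' := fun i hi => mem_range.1 (h1 hi)
    have h4 : (if e = true then insert J' t else t).filter (· < J') = t := by
      ext i
      simp only [mem_filter]
      split_ifs
      · rw [mem_insert]
        exact ⟨fun h => h.1.resolve_left h.2.ne, fun h => ⟨Or.inr h, h3 i h⟩⟩
      · exact ⟨fun h => h.1, fun h => ⟨h, h3 i h⟩⟩
    refine ⟨if e = true then insert J' t else t, ?_, h4⟩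
    simp only [slice, mem_filter, mem_powerset, cnt, h4]
    refine ⟨fun i hi => mem_range.2 ?_, h2, ?_⟩
    · split_ifs at hi
      · rcases mem_insert.1 hi with rfl | hi
        · omega
        · exact (h3 i hi).trans (Nat.lt_succ_self _)
      · exact (h3 i hi).trans (Nat.lt_succ_self _)
    · split_ifs with he
      · simp [he]
      · exact ⟨fun h => absurd (h3 _ h) (lt_irrefl _), fun h => absurd h he⟩

namespace PP
variable (G : PP)

lemma Geo_s_add {i i' : ℕ} (h : i < i') : G.s i + (2 * G.P + G.K) ≤ G.s i' := by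
  have := Nat.mul_le_mul_right G.M (Nat.succ_le_of_lt h)
  rw [Nat.succ_mul] at this
  unfold s
  change _ + G.M ≤ _
  omega
lemma Geo_P_le (i : ℕ) : G.P ≤ G.s i := Nat.le_add_left _ _
lemma Geo_chunk (ω : Finset ℕ) (j : ℕ) : G.chunk ω j = 4 * G.b ∨ G.chunk ω j = 8 * G.b := by
  unfold chunk
  split_ifs <;> simp
lemma Geo_s_eq (hG : G.Good) {i i' : ℕ} (h : G.s i < G.s i' + 20 * G.b)
    (h' : G.s i' < G.s i + 20 * G.b) : i = i' := by
  obtain ⟨-, h2, -, -⟩ := hG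
  rcases lt_trichotomy i i' with hi | hi | hi
  · have := G.Geo_s_add hi
    omega
  · exact hi
  · have := G.Geo_s_add hi
    omega
lemma pos_zero (ω ξ : Finset ℕ) : G.pos ω ξ 0 = 0 := by
  simp [pos, cnt_zero]
lemma pos_succ (ω ξ : Finset ℕ) (j : ℕ) :
    G.pos ω ξ (j + 1) = G.pos ω ξ j + G.chunk ω j + G.l + if j ∈ ξ then 1 else 0 := by
  unfold pos chunk
  rw [cnt_succ, cnt_succ]
  split_ifs <;> ring
lemma pos_mono (ω ξ : Finset ℕ) {i j : ℕ} (h : i ≤ j) : G.pos ω ξ i ≤ G.pos ω ξ j := by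
  induction h with
  | refl => rfl
  | step _ ih =>
    rw [Nat.succ_eq_add_one, pos_succ]
    omega
lemma pos_sub_le (hG : G.Good) (ω ξ : Finset ℕ) {i j : ℕ} (h : i ≤ j) :
    G.pos ω ξ j ≤ G.pos ω ξ i + (j - i) * (10 * G.b) := by
  induction h with
  | refl => simp
  | @step j h ih =>
    obtain ⟨h1, -, -, -⟩ := hG
    have h2 := G.Geo_chunk ω j
    rw [Nat.succ_eq_add_one, pos_succ, Nat.sub_add_comm h, add_mul]
    split_ifs <;> omega
lemma le_pos (ω ξ : Finset ℕ) (j : ℕ) : j * (4 * G.b) ≤ G.pos ω ξ j := by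
  unfold pos
  rw [mul_add]
  omega
lemma pos_congr {ω ω' ξ ξ' : Finset ℕ} {j : ℕ} (h : ∀ i < j, i ∈ ω ↔ i ∈ ω')
    (h' : cnt ξ j = cnt ξ' j) : G.pos ω ξ j = G.pos ω' ξ' j := by
  unfold pos
  rw [cnt_congr h, h']
/-- the forbidden intervals have length `< 4b` and are `M ≥ 20b` apart -/
lemma ok_or (hG : G.Good) (B : Finset ℕ) (x : ℕ) : G.ok B (x + 4 * G.b) ∨ G.ok B (x + 8 * G.b) := by
  by_contra hc
  simp only [ok, not_or, not_forall, not_le] at hc
  obtain ⟨⟨i, -, h1, h2⟩, i', -, h3, h4⟩ := hc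
  have h5 := hG.1
  obtain rfl : i = i' := G.Geo_s_eq hG (by omega) (by omega)
  omega
lemma tf_sum (hG : G.Good) (B : Finset ℕ) (x : ℕ) :
    G.tf B x (4 * G.b) + G.tf B x (8 * G.b) = 2 := by
  unfold tf
  rw [show 12 * G.b - 4 * G.b = 8 * G.b by omega, show 12 * G.b - 8 * G.b = 4 * G.b by omega]
  have := G.ok_or hG B x
  split_ifs <;> first | tauto | norm_num
lemma h_nonneg (B ω ξ : Finset ℕ) (J : ℕ) : 0 ≤ G.h B ω ξ J := by
  refine prod_nonneg fun j _ => ?_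
  unfold tf
  split_ifs <;> norm_num
lemma h_empty (ω ξ : Finset ℕ) (J : ℕ) : G.h ∅ ω ξ J = 1 := by
  simp [h, tf, ok]
/-- potential `c x = ∑_{i∈B} ([x + 8b < e i] + [x + 4b < e i])`, `e i = s i + K + b`:
`h J * 2^{c (pos J)} ≤ 2^{c 0} ≤ 4^{|B|}`; `c` is antitone and drops at every step with `tf = 2`
(a step advances by `≥ 4b` and a forbidden cut `y` satisfies `e i - 4b < y < e i`). -/
lemma h_le (hG : G.Good) (B ω ξ : Finset ℕ) (J : ℕ) : G.h B ω ξ J ≤ 4 ^ B.card := by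
  obtain ⟨c, hc⟩ : ∃ c : ℕ → ℕ, c = fun x => ∑ i ∈ B,
      ((if x + 8 * G.b < G.s i + G.K + G.b then 1 else 0) +
        if x + 4 * G.b < G.s i + G.K + G.b then 1 else 0) := ⟨_, rfl⟩
  have h1 : ∀ x y, x ≤ y → c y ≤ c x := fun x y hxy => by
    rw [hc]
    refine sum_le_sum fun i _ => ?_
    split_ifs <;> omega
  have h2 : ∀ x y z, z = 4 * G.b ∨ z = 8 * G.b → x + z ≤ y → ¬ G.ok B (x + (12 * G.b - z)) →
      c y + 1 ≤ c x := fun x y z hz hxy hok => by
    simp only [ok, not_or, not_forall, not_le] at hok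
    obtain ⟨i, hi, a1, a2⟩ := hok
    have a3 := hG.1
    rw [hc]
    refine Nat.succ_le_of_lt (sum_lt_sum (fun i _ => ?_) ⟨i, hi, ?_⟩) <;> split_ifs <;> omega
  have h3 : G.h B ω ξ J * 2 ^ c (G.pos ω ξ J) ≤ 2 ^ c 0 := by
    induction J with
    | zero => simp [h, pos_zero]
    | succ j ih =>
      refine le_trans ?_ ih
      rw [h, prod_range_succ, mul_assoc]
      refine mul_le_mul_of_nonneg_left ?_ (G.h_nonneg B ω ξ j)
      have a1 : G.pos ω ξ j + G.chunk ω j ≤ G.pos ω ξ (j + 1) := by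
        rw [pos_succ]
        omega
      unfold tf
      split_ifs with a2 a3
      · rw [one_mul]
        exact pow_le_pow_right₀ one_le_two (h1 _ _ (by omega))
      · rw [← pow_succ']
        exact pow_le_pow_right₀ one_le_two (h2 _ _ _ (G.Geo_chunk ω j) a1 a3)
      · rw [zero_mul]
        positivity
  have h4 : c 0 ≤ 2 * B.card := by
    rw [hc]
    refine (sum_le_card_nsmul _ _ 2 fun i _ => ?_).trans (by rw [smul_eq_mul, mul_comm])
    split_ifs <;> omega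
  calc G.h B ω ξ J ≤ G.h B ω ξ J * 2 ^ c (G.pos ω ξ J) :=
        le_mul_of_one_le_right (G.h_nonneg B ω ξ J) (one_le_pow₀ one_le_two)
    _ ≤ 2 ^ (2 * B.card) := h3.trans (pow_le_pow_right₀ one_le_two h4)
    _ = 4 ^ B.card := by rw [pow_mul]; norm_num
lemma ok_of_h {B ω ξ : Finset ℕ} {J j : ℕ} (h : G.h B ω ξ J ≠ 0) (hj : j < J) :
    G.ok B (G.pos ω ξ j + G.chunk ω j) := by
  by_contra hc
  exact prod_ne_zero_iff.1 h j (mem_range.2 hj) (if_neg hc)
/-- step boundaries are at distance `≥ b` from all occupied windows -/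
lemma clean (hG : G.Good) {B ω ξ : Finset ℕ} {J j : ℕ} (h : G.h B ω ξ J ≠ 0) (hj : j ≤ J) :
    ∀ i ∈ B, G.s i + G.K + G.b ≤ G.pos ω ξ j ∨ G.pos ω ξ j + G.b ≤ G.s i := by
  intro i hi
  rcases j with _ | j
  · have h1 := hG.2.1
    have h2 := G.Geo_P_le i
    rw [pos_zero]
    omega
  · have h1 := G.ok_of_h h (show j < J from hj) i hi
    rw [pos_succ]
    split_ifs <;> omega
lemma zl_spec (hG : G.Good) {κ : Cfg} {ω ξ : Finset ℕ} {J j : ℕ} (h : G.h (occ κ) ω ξ J ≠ 0)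
    (hj : j < J) :
    (G.zl κ ω ξ j = none ∧ ∀ i ∈ occ κ,
        G.s i + G.K ≤ G.pos ω ξ j ∨ G.pos ω ξ j + G.chunk ω j ≤ G.s i) ∨
      ∃ i ∈ occ κ, G.zl κ ω ξ j = some (G.s i - G.pos ω ξ j, decide (i ∈ κ.1)) ∧
        G.pos ω ξ j + G.b ≤ G.s i ∧ G.s i + G.K + G.b ≤ G.pos ω ξ j + G.chunk ω j := by
  have h1 := G.clean hG h hj.le
  have h2 := G.ok_of_h h hj
  have h3 := hG.2.2.1
  unfold zl
  split_ifs with hF
  · obtain ⟨a1, a2, a3⟩ := mem_filter.1 (min'_mem _ hF)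
    have a4 := h1 _ a1
    have a5 := h2 _ a1
    exact Or.inr ⟨_, a1, rfl, by omega, by omega⟩
  · refine Or.inl ⟨rfl, fun i hi => ?_⟩
    have a1 : ¬ (G.pos ω ξ j ≤ G.s i ∧ G.s i < G.pos ω ξ j + G.chunk ω j) :=
      fun a => hF ⟨i, mem_filter.2 ⟨hi, a⟩⟩
    have a2 := h1 i hi
    omega
lemma zl_congr (κ : Cfg) {ω ω' ξ ξ' : Finset ℕ} {j : ℕ} (h : G.pos ω ξ j = G.pos ω' ξ' j)
    (h' : G.chunk ω j = G.chunk ω' j) : G.zl κ ω ξ j = G.zl κ ω' ξ' j := by
  unfold zl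
  rw [h, h']
lemma Valid.bounds (hG : G.Good) {J : ℕ} {ω ξ : Finset ℕ} (hV : G.Valid J ω ξ) :
    1 ≤ J ∧ G.pos ω ξ J ≤ G.n ∧ J * G.b ≤ G.n ∧ G.n ≤ 22 * G.b * J := by
  have h0 := G.pos_sub_le hG ω ξ (Nat.zero_le J)
  obtain ⟨h1, h2, h3, h4⟩ := hG
  obtain ⟨v1, v2⟩ := hV
  have h5 : 2 * G.P + G.K ≤ G.n := Nat.le_mul_of_pos_left _ h4
  rw [pos_zero] at h0
  rcases J with _ | j
  · omega
  · have h6 := v2 j (Nat.lt_succ_self j)
    have h7 : G.pos ω ξ (j + 1) ≤ G.n := by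
      have := G.Geo_chunk ω j
      rw [pos_succ]
      split_ifs <;> omega
    have h8 := G.le_pos ω ξ (j + 1)
    rw [show (j + 1) * (4 * G.b) = 4 * ((j + 1) * G.b) by ring] at h8
    rw [Nat.sub_zero, show (j + 1) * (10 * G.b) = 10 * (j * G.b) + 10 * G.b by ring] at h0
    rw [show 22 * G.b * (j + 1) = 22 * (j * G.b) + 22 * G.b by ring]
    omega
/-- at the stopping time all occupied windows are behind -/
lemma past (hG : G.Good) {κ : Cfg} (hκ : G.Adm κ) {J : ℕ} {ω ξ : Finset ℕ} (hV : G.Valid J ω ξ)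
    (h : G.h (occ κ) ω ξ J ≠ 0) : ∀ i ∈ occ κ, G.s i + G.K + G.b ≤ G.pos ω ξ J := by
  intro i hi
  have h1 := G.clean hG h le_rfl i hi
  have h2 := G.Geo_s_add (mem_range.1 (hκ.2 hi))
  have h3 : G.s G.N = G.n + G.P := rfl
  have h4 := hV.1
  obtain ⟨h5, h6, -, -⟩ := hG
  omega
/-- the step whose chunk contains window `i` -/
lemma exists_time (hG : G.Good) {κ : Cfg} (hκ : G.Adm κ) {J : ℕ} {ω ξ : Finset ℕ}
    (hV : G.Valid J ω ξ) (h : G.h (occ κ) ω ξ J ≠ 0) :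
    ∃ τ : ℕ → ℕ, StrictMonoOn τ (occ κ) ∧
      (∀ i ∈ occ κ, τ i < J ∧ G.pos ω ξ (τ i) + G.b ≤ G.s i ∧
        G.s i + G.K + G.b ≤ G.pos ω ξ (τ i) + G.chunk ω (τ i) ∧
        G.zl κ ω ξ (τ i) = some (G.s i - G.pos ω ξ (τ i), decide (i ∈ κ.1))) ∧
      ∀ j < J, G.zl κ ω ξ j ≠ none → ∃ i ∈ occ κ, τ i = j := by
  have hb : 1 ≤ G.b := by
    have := hG.1
    omega
  have hex : ∀ i, ∃ j, G.s i < G.pos ω ξ (j + 1) := fun i =>
    ⟨G.s i, lt_of_lt_of_le (by nlinarith) (G.le_pos ω ξ (G.s i + 1))⟩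
  have h1 : ∀ i, G.s i < G.pos ω ξ (Nat.find (hex i) + 1) := fun i => Nat.find_spec (hex i)
  have h2 : ∀ i, G.pos ω ξ (Nat.find (hex i)) ≤ G.s i := fun i => by
    rcases e : Nat.find (hex i) with _ | j
    · rw [pos_zero]
      exact Nat.zero_le _
    · exact not_lt.1 (Nat.find_min (hex i) (by omega))
  refine ⟨fun i => Nat.find (hex i), fun i _ i' _ hi => ?_, fun i hi => ?_, fun j hj hz => ?_⟩
  · by_contra hc
    have a1 := G.pos_mono ω ξ (Nat.succ_le_succ (not_lt.1 hc))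
    have a2 := G.pos_sub_le hG ω ξ (Nat.le_succ (Nat.find (hex i)))
    have a3 := G.Geo_s_add hi
    have a4 := h1 i'
    have a5 := h2 i
    have a6 := hG.2.1
    simp only [Nat.succ_eq_add_one, Nat.add_sub_cancel_left, one_mul] at a1 a2
    omega
  · have a1 : Nat.find (hex i) < J := by
      have a2 := G.past hG hκ hV h i hi
      have a3 := (hV.bounds G hG).1
      have a4 : Nat.find (hex i) ≤ J - 1 := Nat.find_min' _ (by
        rw [Nat.sub_add_cancel a3]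
        omega)
      omega
    have a2 := G.clean hG h a1.le i hi
    have a3 := G.ok_of_h h a1 i hi
    have a4 := h1 i
    have a5 := h2 i
    have a6 := G.pos_succ ω ξ (Nat.find (hex i))
    have a7 : (if Nat.find (hex i) ∈ ξ then 1 else 0) ≤ 1 := by split_ifs <;> omega
    have a8 := G.Geo_chunk ω (Nat.find (hex i))
    beta_reduce
    refine ⟨a1, by omega, by omega, ?_⟩
    rcases G.zl_spec hG h a1 with ⟨-, a9⟩ | ⟨i', -, b1, b2, b3⟩
    · have := a9 i hi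
      omega
    · obtain rfl : i = i' := G.Geo_s_eq hG (by omega) (by omega)
      exact b1
  · rcases G.zl_spec hG h hj with ⟨a1, -⟩ | ⟨i, hi, -, a2, a3⟩
    · exact absurd a1 hz
    · refine ⟨i, hi, (Nat.find_eq_iff _).2 ⟨?_, fun j' hj' => ?_⟩⟩
      · rw [pos_succ]
        omega
      · have := G.pos_mono ω ξ (Nat.succ_le_of_lt hj')
        simp only [Nat.succ_eq_add_one] at this
        omega
lemma zl_prod (hG : G.Good) {κ : Cfg} (hκ : G.Adm κ) {J : ℕ} {ω ξ : Finset ℕ}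
    (hV : G.Valid J ω ξ) (h : G.h (occ κ) ω ξ J ≠ 0) (f : Bool → ℝ) :
    ∏ j ∈ Ico 0 (0 + J), (G.zl κ ω ξ j).elim 1 (fun t => f t.2) =
      f true ^ κ.1.card * f false ^ κ.2.card := by
  obtain ⟨τ, h1, h2, h3⟩ := G.exists_time hG hκ hV h
  rw [← prod_subset (s₁ := (occ κ).image τ), prod_image h1.injOn,
    prod_congr rfl fun i hi => by rw [(h2 i hi).2.2.2, Option.elim_some], occ, prod_union hκ.1,
    ← prod_const, ← prod_const]
  · congr 1
    · exact prod_congr rfl fun i hi => by simp [hi]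
    · exact prod_congr rfl fun i hi => by simp [disjoint_right.1 hκ.1 hi]
  · intro j hj
    obtain ⟨i, hi, rfl⟩ := mem_image.1 hj
    simpa using (h2 i hi).1
  · intro j hj hj'
    by_cases hz : G.zl κ ω ξ j = none
    · rw [hz, Option.elim_none]
    · exact absurd (mem_image.2 (h3 j (by simpa using hj) hz)) hj'
lemma Geo_zl_inj (hG : G.Good) {κ κ' : Cfg} (hκ : G.Adm κ) {J : ℕ} {ω ξ : Finset ℕ}
    (hV : G.Valid J ω ξ) (h : G.h (occ κ) ω ξ J ≠ 0) (h' : G.h (occ κ') ω ξ J ≠ 0)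
    (hz : ∀ j < J, G.zl κ' ω ξ j = G.zl κ ω ξ j) :
    ∀ i ∈ occ κ, i ∈ occ κ' ∧ (i ∈ κ'.1 ↔ i ∈ κ.1) := by
  obtain ⟨τ, -, h2, -⟩ := G.exists_time hG hκ hV h
  intro i hi
  obtain ⟨a1, a2, a3, a4⟩ := h2 i hi
  rw [← hz _ a1] at a4
  rcases G.zl_spec hG h' a1 with ⟨b1, -⟩ | ⟨i', b1, b2, b3, b4⟩
  · rw [b1] at a4
    cases a4
  · rw [b2, Option.some.injEq, Prod.mk.injEq] at a4
    have b5 : 1 ≤ G.b := by
      have := hG.1
      omega
    obtain rfl : i = i' := G.Geo_s_eq hG (by omega) (by omega)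
    exact ⟨b1, by simpa using a4.2⟩
/-- for a fixed path the labels determine the configuration (`s` is injective) -/
lemma zl_inj (hG : G.Good) {κ κ' : Cfg} (hκ : G.Adm κ) (hκ' : G.Adm κ') {J : ℕ} {ω ξ : Finset ℕ}
    (hV : G.Valid J ω ξ) (h : G.h (occ κ) ω ξ J ≠ 0) (h' : G.h (occ κ') ω ξ J ≠ 0)
    (hz : ∀ j < J, G.zl κ' ω ξ j = G.zl κ ω ξ j) : κ' = κ := by
  have h1 := G.Geo_zl_inj hG hκ hV h h' hz
  have h2 := G.Geo_zl_inj hG hκ' hV h' h fun j hj => (hz j hj).symm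
  simp only [occ, mem_union] at h1 h2
  have h3 := disjoint_left.1 hκ.1
  have h4 := disjoint_left.1 hκ'.1
  refine Prod.ext (Finset.ext fun i => ⟨fun a => ?_, fun a => ?_⟩)
    (Finset.ext fun i => ⟨fun a => ?_, fun a => ?_⟩)
  · exact (h2 i (Or.inl a)).2.2 a
  · exact (h1 i (Or.inl a)).2.2 a
  · exact (h2 i (Or.inr a)).1.resolve_left fun b => h4 ((h2 i (Or.inr a)).2.1 b) a
  · exact (h1 i (Or.inr a)).1.resolve_left fun b => h3 ((h1 i (Or.inr a)).2.1 b) a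
/-- validity and the final position only depend on the atom -/
lemma valid_slice {J' S : ℕ} {e : Bool} {ω ξ ξ' : Finset ℕ} (hξ : ξ ∈ slice J' S e)
    (hξ' : ξ' ∈ slice J' S e) :
    G.pos ω ξ (J' + 1) = G.pos ω ξ' (J' + 1) ∧ (G.Valid (J' + 1) ω ξ → G.Valid (J' + 1) ω ξ') := by
  obtain ⟨-, h1, h2⟩ := mem_filter.1 hξ
  obtain ⟨-, h3, h4⟩ := mem_filter.1 hξ'
  have h5 : G.pos ω ξ J' = G.pos ω ξ' J' := G.pos_congr (fun _ _ => Iff.rfl) (h1.trans h3.symm)
  have h6 : G.pos ω ξ (J' + 1) = G.pos ω ξ' (J' + 1) := by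
    rw [pos_succ, pos_succ, h5, if_congr (h2.trans h4.symm) rfl rfl]
  refine ⟨h6, fun hV => ⟨h6 ▸ hV.1, fun j hj => ?_⟩⟩
  have h7 := hV.2 J' (Nat.lt_succ_self _)
  have h8 := G.pos_mono ω ξ' (Nat.le_of_lt_succ hj)
  omega

end PP

end Crest.Agent.R300L
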