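import Crest.Agent.R300L.ChaosP
import Crest.Agent.R300L.Geo
import Crest.Agent.R300L.AC
import Crest.Agent.R300L.Gam

/-!
# The bound on one atom
-/

set_option autoImplicit false
open Finset

noncomputable section
namespace Crest.Agent.R300L

namespace PP
variable (G : PP)

open Classical in
/-- pairs (configuration, hidden bits) of the atom producing the same labels as `(κ, ξ)` -/
def mates (𝒦 : Finset Cfg) (J' S : ℕ) (e : Bool) (ω : Finset ℕ) (κ : Cfg) (ξ : Finset ℕ) :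
    Finset (Cfg × Finset ℕ) :=
  (𝒦 ×ˢ slice J' S e).filter fun a => G.h (occ a.1) ω a.2 (J' + 1) ≠ 0 ∧
    ∀ j ∈ Ico 0 (0 + (J' + 1)), G.zl a.1 ω a.2 j = G.zl κ ω ξ j

lemma Atom_mem {𝒦 : Finset Cfg} {J' S : ℕ} {e : Bool} {ω ξ : Finset ℕ} {κ : Cfg} {a : Cfg × Finset ℕ} :
    a ∈ G.mates 𝒦 J' S e ω κ ξ ↔ a.1 ∈ 𝒦 ∧ a.2 ∈ slice J' S e ∧ G.h (occ a.1) ω a.2 (J' + 1) ≠ 0 ∧
      ∀ j < J' + 1, G.zl a.1 ω a.2 j = G.zl κ ω ξ j := by
  simp only [mates, mem_filter, mem_product, and_assoc, mem_Ico, zero_le, true_and, zero_add]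

lemma Atom_inj (hG : G.Good) {𝒦 : Finset Cfg} (h𝒦 : ∀ κ ∈ 𝒦, G.Adm κ) {J' S : ℕ} {e : Bool}
    {ω ξ : Finset ℕ} (κ : Cfg) (hξ : ξ ∈ slice J' S e) (hV : G.Valid (J' + 1) ω ξ) :
    Set.InjOn Prod.snd (G.mates 𝒦 J' S e ω κ ξ : Set (Cfg × Finset ℕ)) := by
  rintro ⟨κ₁, ξ₁⟩ ha ⟨κ₂, ξ₂⟩ ha' rfl
  obtain ⟨a1, a2, a3, a4⟩ := G.Atom_mem.1 (mem_coe.1 ha)
  obtain ⟨b1, -, b3, b4⟩ := G.Atom_mem.1 (mem_coe.1 ha')
  exact Prod.ext (G.zl_inj hG (h𝒦 _ b1) (h𝒦 _ a1) ((G.valid_slice hξ a2).2 hV) b3 a3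
    fun j hj => (a4 j hj).trans (b4 j hj).symm) rfl

lemma Atom_slice_inj {J' S : ℕ} {e : Bool} {ξ ξ' : Finset ℕ} (h : ξ ∈ slice J' S e) (h' : ξ' ∈ slice J' S e)
    (he : ξ.filter (· < J') = ξ'.filter (· < J')) : ξ = ξ' := by
  simp only [slice, mem_filter, mem_powerset] at h h'
  ext j
  rcases lt_trichotomy j J' with h1 | rfl | h1
  · have := congrArg (j ∈ ·) he
    simpa [h1] using this
  · rw [h.2.2, h'.2.2]
  · constructor <;> intro h2
    · have := mem_range.1 (h.1 h2); omega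
    · have := mem_range.1 (h'.1 h2); omega

lemma Atom_sqrt {b M g t : ℕ} (hg : 1 ≤ g) (hM : 1 ≤ M) (h : g * M ≤ 44 * b * (t + 1)) :
    3 / √((t + 1 : ℕ) : ℝ) ≤ 20 * √((b : ℝ) / M) / √(g : ℝ) := by
  have hg' : (0 : ℝ) < g := by exact_mod_cast hg
  have hM' : (0 : ℝ) < M := by exact_mod_cast hM
  have ht : (0 : ℝ) < ((t + 1 : ℕ) : ℝ) := by positivity
  have h' : (g : ℝ) * M ≤ 44 * b * ((t + 1 : ℕ) : ℝ) := by exact_mod_cast h
  rw [div_le_div_iff₀ (Real.sqrt_pos.2 ht) (Real.sqrt_pos.2 hg')]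
  refine le_of_sq_le_sq ?_ (by positivity)
  rw [mul_pow, mul_pow, mul_pow, Real.sq_sqrt hg'.le, Real.sq_sqrt ht.le, Real.sq_sqrt (by positivity)]
  have e : (20 : ℝ) ^ 2 * (b / M) * ((t + 1 : ℕ) : ℝ) = 400 * b * ((t + 1 : ℕ) : ℝ) / M := by ring
  rw [e, le_div_iff₀ hM']
  have : (0 : ℝ) ≤ b * ((t + 1 : ℕ) : ℝ) := by positivity
  nlinarith

/-- `Prod.snd` is injective on `mates` (`zl_inj`, `valid_slice`) -/
theorem mates_le (hG : G.Good) {𝒦 : Finset Cfg} (h𝒦 : ∀ κ ∈ 𝒦, G.Adm κ) {J' S : ℕ} {e : Bool}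
    {ω ξ : Finset ℕ} (κ : Cfg) (hξ : ξ ∈ slice J' S e) (hV : G.Valid (J' + 1) ω ξ) :
    (G.mates 𝒦 J' S e ω κ ξ).card ≤ (slice J' S e).card := by
  refine card_le_card_of_injOn Prod.snd (fun a ha => ?_) (G.Atom_inj hG h𝒦 κ hξ hV)
  exact (G.Atom_mem.1 (mem_coe.1 ha)).2.1

/-- Let `τ` be given by `exists_time` for `(κ, ξ)`.  If `(κ', ξ')` is a mate then for `i ∈ occ κ`,
`j = τ i`, `zl_spec` gives `i'` with `s i' - pos ξ' j = s i - pos ξ j`, so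
`cnt ξ' j ≡ cnt ξ j [MOD M]` (`s i ≡ s i' ≡ P`).  The map `a ↦ a.2.filter (· < J')` is injective into
`powersetCard S (range J')`; apply `ac_slice` with `φ i := G.φ (gap B i)`.  Time gaps `t` and period
gaps `g` satisfy `g M ≤ 44 b (t+1)` (`pos_sub_le`; first gap: `(i+1) M ≤ 3 s i`; last gap:
`n - s i ≥ (N-i) M/2` and `n ≤ pos J + 10 b`), hence `3/√(t+1) ≤ 20 √(b/M)/√g`; `J b ≤ n`. -/
theorem mates_typ (hG : G.Good) {𝒦 : Finset Cfg} (h𝒦 : ∀ κ ∈ 𝒦, G.Adm κ) {J' S : ℕ} {e : Bool}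
    {ω ξ : Finset ℕ} {κ : Cfg} (hκ : G.Adm κ) (hξ : ξ ∈ slice J' S e)
    (hV : G.Valid (J' + 1) ω ξ) (h : G.h (occ κ) ω ξ (J' + 1) ≠ 0) (hJ : 1 ≤ J') (h1 : J' ≤ 4 * S)
    (h2 : 4 * S ≤ 3 * J') :
    ((G.mates 𝒦 J' S e ω κ ξ).card : ℝ) ≤
      (slice J' S e).card * (G.Θ * Gam G.φ G.N (occ κ)) := by
  classical
  obtain ⟨τ, hτ, hτ1, -⟩ := G.exists_time hG hκ hV h
  obtain ⟨hb1, hb2, hK, hN⟩ := hG
  have hG : G.Good := ⟨hb1, hb2, hK, hN⟩
  have hM : G.M = 2 * G.P + G.K := rfl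
  have hM1 : 1 ≤ G.M := by omega
  have hch : ∀ j, G.chunk ω j ≤ 8 * G.b := fun j => by unfold chunk; split_ifs <;> omega
  have hcard : (G.mates 𝒦 J' S e ω κ ξ).card ≤ (((range J').powersetCard S).filter fun ζ =>
      ∀ i ∈ occ κ, cnt ζ (τ i) ≡ cnt ξ (τ i) [MOD G.M]).card := by
    refine card_le_card_of_injOn (fun a => a.2.filter (· < J')) (fun a ha => ?_) fun a ha a' ha' e => ?_
    · obtain ⟨-, h3, h4, h5⟩ := G.Atom_mem.1 (mem_coe.1 ha)
      simp only [coe_filter, mem_powersetCard, Set.mem_ofPred_eq]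
      refine ⟨⟨fun j hj => mem_range.2 (mem_filter.1 hj).2, (mem_filter.1 h3).2.1⟩, fun i hi => ?_⟩
      obtain ⟨t1, t2, -, t4⟩ := hτ1 i hi
      rw [cnt_congr (s' := a.2) fun j hj => by simp only [mem_filter]; exact and_iff_left (by omega)]
      have h6 := h5 (τ i) t1
      rw [t4] at h6
      rcases G.zl_spec hG h4 t1 with h7 | ⟨i', -, h7, h8, -⟩
      · rw [h7.1] at h6; exact absurd h6 (by simp)
      · rw [h7] at h6
        have h9 := (Prod.mk.inj (Option.some.inj h6)).1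
        have h10 : cnt a.2 (τ i) + i * G.M = cnt ξ (τ i) + i' * G.M := by
          simp only [s, pos] at h8 h9 t2
          omega
        have h11 : cnt a.2 (τ i) + i * G.M ≡ cnt ξ (τ i) + i' * G.M [MOD G.M] := by rw [h10]
        simpa [Nat.ModEq] using h11
    · refine G.Atom_inj hG h𝒦 κ hξ hV ha ha' ?_
      exact Atom_slice_inj (G.Atom_mem.1 (mem_coe.1 ha)).2.1 (G.Atom_mem.1 (mem_coe.1 ha')).2.1 e
  have hsup : ∀ A ⊆ occ κ, (A.sup (· + 1) = 0 ∧ A.sup τ = 0) ∨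
      G.pos ω ξ (A.sup τ) + G.M ≤ A.sup (· + 1) * G.M + G.P := by
    intro A hA
    rcases A.eq_empty_or_nonempty with rfl | hne
    · exact Or.inl ⟨rfl, rfl⟩
    · obtain ⟨i, hi, e⟩ := exists_mem_eq_sup A hne τ
      have h3 := (hτ1 i (hA hi)).2.1
      have h4 : (i + 1) * G.M ≤ A.sup (· + 1) * G.M :=
        Nat.mul_le_mul_right _ (le_sup (f := (· + 1)) hi)
      rw [add_mul, one_mul] at h4
      right
      rw [e]
      simp only [s] at h3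
      omega
  have hpos : ∀ u v, G.pos ω ξ v ≤ G.pos ω ξ u + (v - u) * (10 * G.b) := fun u v => by
    rcases le_total u v with h3 | h3
    · exact G.pos_sub_le hG ω ξ h3
    · exact (G.pos_mono ω ξ h3).trans (Nat.le_add_right _ _)
  have hac := ac_slice hJ h1 h2 hM1 τ (fun i => cnt ξ (τ i)) (fun i => G.φ (gap (occ κ) i)) (occ κ)
    hτ.monotoneOn (fun i hi => ?_) (fun i hi => Nat.lt_succ_iff.1 (hτ1 i hi).1) (G.φ (gap (occ κ) G.N)) ?_
  · refine le_trans (by exact_mod_cast hcard) (hac.trans ?_)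
    have hNB : G.N ∉ occ κ := fun h3 => by simpa using hκ.2 h3
    rw [card_slice, Gam, prod_insert hNB, mul_assoc, mul_comm (G.φ (gap (occ κ) G.N))]
    have hφ : ∀ g, 0 ≤ G.φ g := fun g => ft_nonneg (by positivity) (by positivity) g
    refine mul_le_mul_of_nonneg_left (mul_le_mul_of_nonneg_right ?_
      (mul_nonneg (prod_nonneg fun i _ => hφ _) (hφ _))) (Nat.cast_nonneg _)
    unfold Θ
    refine mul_le_mul_of_nonneg_left (Real.sqrt_le_sqrt ?_) (by norm_num)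
    rw [le_div_iff₀ (by exact_mod_cast (by omega : 0 < G.b))]
    exact_mod_cast (Valid.bounds G hG hV).2.2.1
  · have h3 : ((occ κ).filter (· < i)).sup (· + 1) ≤ i :=
      Finset.sup_le fun j hj => (mem_filter.1 hj).2
    refine add_le_add le_rfl (Atom_sqrt (by unfold gap; omega) hM1 ?_)
    have h4 := (hτ1 i hi).2.2.1
    have h5 := hch (τ i)
    have h6 := hpos (((occ κ).filter (· < i)).sup τ) (τ i)
    have h7 := hsup _ (filter_subset (· < i) (occ κ))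
    unfold gap
    simp only [s] at h4
    generalize ((occ κ).filter (· < i)).sup (· + 1) = a at h3 h7 ⊢
    generalize ((occ κ).filter (· < i)).sup τ = u at h6 h7 ⊢
    generalize τ i - u = t at h6 ⊢
    have e1 : t * (10 * G.b) = 10 * (G.b * t) := by ring
    have e2 : 44 * G.b * (t + 1) = 44 * (G.b * t) + 44 * G.b := by ring
    rw [Nat.sub_mul, add_mul, one_mul, e2]
    rcases h7 with ⟨rfl, rfl⟩ | h7
    · rw [pos_zero] at h6
      omega
    · omega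
  · have h3 : (occ κ).filter (· < G.N) = occ κ := filter_true_of_mem fun i hi => mem_range.1 (hκ.2 hi)
    have h4 : (occ κ).sup (· + 1) ≤ G.N := Finset.sup_le fun j hj => mem_range.1 (hκ.2 hj)
    have h5 : (occ κ).sup τ ≤ J' := Finset.sup_le fun j hj => Nat.lt_succ_iff.1 (hτ1 j hj).1
    refine add_le_add le_rfl (Atom_sqrt (by unfold gap; rw [h3]; omega) hM1 ?_)
    have h6 := hpos ((occ κ).sup τ) (J' + 1)
    have h7 := hsup _ (Subset.refl (occ κ))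
    have h8 := hV.1
    unfold gap
    rw [h3]
    simp only [n] at h8
    generalize (occ κ).sup (· + 1) = a at h4 h7 ⊢
    generalize (occ κ).sup τ = u at h5 h6 h7 ⊢
    rw [show J' + 1 - u = J' - u + 1 by omega] at h6
    generalize J' - u = t at h6 ⊢
    have e1 : (t + 1) * (10 * G.b) = 10 * (G.b * t) + 10 * G.b := by ring
    have e2 : 44 * G.b * (t + 1) = 44 * (G.b * t) + 44 * G.b := by ring
    have e3 : G.M ≤ G.N * G.M := Nat.le_mul_of_pos_left _ hN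
    have e4 : a * G.M ≤ G.N * G.M := Nat.mul_le_mul_right _ h4
    rw [Nat.sub_mul, add_mul, one_mul, e2]
    rcases h7 with ⟨rfl, rfl⟩ | h7
    · rw [pos_zero] at h6
      omega
    · omega

variable {M : Type} [Monoid M] {p : ℕ}

/-- joint Bessel inequality for both window types in chunk `j` (triangle inequality,
`(a+b)² ≤ 2a²+2b²`) -/
lemma bess_chunk (hp : 1 ≤ p) {U : Al M} (hU : IsProb U) {E : Bool → Al M} {Bs : Bool → ℝ}
    (hBs : ∀ t, 0 ≤ Bs t) (h4 : ∀ t, Bes p U (E t) G.K G.b (4 * G.b) (Bs t))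
    (h8 : ∀ t, Bes p U (E t) G.K G.b (8 * G.b) (Bs t)) (ω : Finset ℕ) (j : ℕ) :
    Bess p (U ^ G.chunk ω j) (Icc G.b (G.chunk ω j - G.K - G.b) ×ˢ (univ : Finset Bool))
      (G.Ych U E ω j) (fun t => 2 * Bs t.2) := by
  have hc : ∀ t, Bes p U (E t) G.K G.b (G.chunk ω j) (Bs t) := fun t => by
    unfold chunk; split_ifs
    · exact h8 t
    · exact h4 t
  intro c
  have h1 := Nb.add hp (hU.pow _).1 (hc true fun o => c (o, true)) (hc false fun o => c (o, false))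
  rw [sum_product, sum_product]
  simp only [Fintype.sum_bool, sum_add_distrib, Ych]
  refine h1.mono ?_
  have e : ∀ t, ∑ o ∈ Icc G.b (G.chunk ω j - G.K - G.b), 2 * Bs t * c (o, t) ^ 2 =
      2 * ∑ o ∈ Icc G.b (G.chunk ω j - G.K - G.b), Bs t * c (o, t) ^ 2 := fun t => by
    rw [mul_sum]; exact sum_congr rfl fun o _ => mul_assoc _ _ _
  have h0 : ∀ t, 0 ≤ ∑ o ∈ Icc G.b (G.chunk ω j - G.K - G.b), Bs t * c (o, t) ^ 2 := fun t =>
    sum_nonneg fun o _ => mul_nonneg (hBs t) (sq_nonneg _)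
  rw [e, e]
  refine Real.le_sqrt_of_sq_le ?_
  have a1 := Real.sq_sqrt (h0 true)
  have a2 := Real.sq_sqrt (h0 false)
  nlinarith [sq_nonneg (√(∑ o ∈ Icc G.b (G.chunk ω j - G.K - G.b), Bs true * c (o, true) ^ 2) -
    √(∑ o ∈ Icc G.b (G.chunk ω j - G.K - G.b), Bs false * c (o, false) ^ 2))]

/-- `chaos_schur` with index set `{(κ,ξ) : h ≠ 0}`, `c = c κ * h`, `π = 1/#slice`; use `zl_spec`,
`zl_prod`, `h_le` (`16^{|occ κ|} ∏ (6 p Bs) = wt`), `J'+1 ≤ n`. -/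
theorem atom (hp : Even p) (hp2 : 2 ≤ p) (hG : G.Good) {U ν Y : Al M} (hU : IsProb U)
    (hν : IsProb ν) (hY0 : mass Y = 0) {η : ℝ} (hY : Nb p ν Y η) {E : Bool → Al M}
    (hE0 : ∀ t, mass (E t) = 0) {Bs : Bool → ℝ} (hBs : ∀ t, 0 ≤ Bs t)
    (h4 : ∀ t, Bes p U (E t) G.K G.b (4 * G.b) (Bs t))
    (h8 : ∀ t, Bes p U (E t) G.K G.b (8 * G.b) (Bs t)) (hjunk : (1 + 3 * p * η ^ 2) ^ G.n ≤ 2)
    {𝒦 : Finset Cfg} (h𝒦 : ∀ κ ∈ 𝒦, G.Adm κ) (c : Cfg → ℝ) {J' S : ℕ} {e : Bool}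
    {ω ξ₀ : Finset ℕ} (hξ₀ : ξ₀ ∈ slice J' S e) (hV : G.Valid (J' + 1) ω ξ₀) (Γ : Cfg → ℝ)
    (hΓ0 : ∀ κ ∈ 𝒦, 0 ≤ Γ κ)
    (hΓ : ∀ κ ∈ 𝒦, ∀ ξ ∈ slice J' S e, G.h (occ κ) ω ξ (J' + 1) ≠ 0 →
      ((G.mates 𝒦 J' S e ω κ ξ).card : ℝ) ≤ (slice J' S e).card * Γ κ) :
    Nb p (G.ref U ν (J' + 1) ω ξ₀)
      (∑ ξ ∈ slice J' S e, ∑ κ ∈ 𝒦, (c κ * G.h (occ κ) ω ξ (J' + 1) / (slice J' S e).card) •
        G.term U E ν Y κ (J' + 1) ω ξ)
      (√(2 * ∑ κ ∈ 𝒦, c κ ^ 2 * wt p Bs κ * Γ κ)) := by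
  classical
  have hcard : (0 : ℝ) < (slice J' S e).card := by exact_mod_cast card_pos.2 ⟨_, hξ₀⟩
  have hI : ∀ a ∈ (𝒦 ×ˢ slice J' S e).filter fun a => G.h (occ a.1) ω a.2 (J' + 1) ≠ 0,
      a.1 ∈ 𝒦 ∧ a.2 ∈ slice J' S e ∧ G.h (occ a.1) ω a.2 (J' + 1) ≠ 0 := fun a ha => by
    simpa only [mem_filter, mem_product, and_assoc] using ha
  have key := chaos_schur hp hp2 (fun j => U ^ G.chunk ω j) (fun j => hU.pow _)
    (fun j => Icc G.b (G.chunk ω j - G.K - G.b) ×ˢ (univ : Finset Bool)) (G.Ych U E ω) (fun t => 2 * Bs t.2)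
    (fun t => mul_nonneg (by norm_num) (hBs _))
    (fun j t _ => by simp only [Ych, mass_mul, hE0, mul_zero, zero_mul])
    (fun j => G.bess_chunk (by omega) hU hBs h4 h8 ω j) hν (hU.pow (G.n - G.pos ω ξ₀ (J' + 1))) hY0 hY
    (fun a : Cfg × Finset ℕ => G.zl a.1 ω a.2) (fun a j => if j ∈ a.2 then 1 else -1)
    (fun a j => by split_ifs <;> simp) (J' + 1) 0
    ((𝒦 ×ˢ slice J' S e).filter fun a => G.h (occ a.1) ω a.2 (J' + 1) ≠ 0)
    (fun a => c a.1 * G.h (occ a.1) ω a.2 (J' + 1)) (fun _ => 1 / (slice J' S e).card) (fun a => Γ a.1)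
    (fun a ha j hj t ht => by
      rcases G.zl_spec hG (hI a ha).2.2 (j := j) (by simpa using hj) with h7 | ⟨i, -, h7, h8, h9⟩
      · rw [h7.1] at ht; exact absurd ht (by simp)
      · rw [h7] at ht
        rw [← Option.some.inj ht]
        simp only [mem_product, mem_Icc, mem_univ, and_true]
        omega)
    (fun _ _ => by positivity)
    (fun a ha => by
      obtain ⟨a1, a2, a3⟩ := hI a ha
      have h1 := hΓ a.1 a1 a.2 a2 a3
      rw [sum_const, nsmul_eq_mul, mul_one_div, div_le_iff₀' hcard]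
      refine le_trans (le_of_eq ?_) h1
      congr 2
      ext x
      simp only [mates, mem_filter, and_assoc])
  have e1 : (∑ ξ ∈ slice J' S e, ∑ κ ∈ 𝒦, (c κ * G.h (occ κ) ω ξ (J' + 1) / (slice J' S e).card) •
        G.term U E ν Y κ (J' + 1) ω ξ) =
      ∑ a ∈ (𝒦 ×ˢ slice J' S e).filter fun a => G.h (occ a.1) ω a.2 (J' + 1) ≠ 0,
        (c a.1 * G.h (occ a.1) ω a.2 (J' + 1) * (1 / (slice J' S e).card)) •
          (pr (fun j => (G.zl a.1 ω a.2 j).elim (U ^ G.chunk ω j) (G.Ych U E ω j) *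
            (ν + (if j ∈ a.2 then (1 : ℝ) else -1) • Y)) 0 (J' + 1) * U ^ (G.n - G.pos ω ξ₀ (J' + 1))) := by
    rw [sum_filter_of_ne, sum_product_right]
    · refine sum_congr rfl fun ξ hξ => sum_congr rfl fun κ _ => ?_
      rw [mul_one_div, term, (G.valid_slice (ω := ω) hξ₀ hξ).1]
    · intro a _ h1 h2
      exact h1 (by rw [h2, mul_zero, zero_mul, zero_smul])
  rw [e1]
  refine Nb.mono key (Real.sqrt_le_sqrt ?_)
  have hp0 : (0 : ℝ) ≤ p := Nat.cast_nonneg p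
  have hJ : (1 + 3 * p * η ^ 2) ^ (J' + 1) ≤ 2 := by
    refine le_trans (pow_le_pow_right₀ (by have : 0 ≤ 3 * (p : ℝ) * η ^ 2 := by positivity
                                           linarith) ?_) hjunk
    have h1 := (Valid.bounds G hG hV).2.2.1
    have h2 : 0 < G.b := by have := hG.1; omega
    exact (Nat.le_mul_of_pos_right _ h2).trans h1
  have hw : ∀ κ, 0 ≤ wt p Bs κ := fun κ => by
    have := hBs true
    have := hBs false
    unfold wt; positivity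
  have hterm : ∀ a ∈ (𝒦 ×ˢ slice J' S e).filter fun a => G.h (occ a.1) ω a.2 (J' + 1) ≠ 0,
      0 ≤ (c a.1 * G.h (occ a.1) ω a.2 (J' + 1)) ^ 2 * (1 / (slice J' S e).card) *
        (∏ j ∈ Ico 0 (0 + (J' + 1)), (G.zl a.1 ω a.2 j).elim 1 (fun t => 3 * p * (2 * Bs t.2))) * Γ a.1 ∧
      (c a.1 * G.h (occ a.1) ω a.2 (J' + 1)) ^ 2 * (1 / (slice J' S e).card) *
        (∏ j ∈ Ico 0 (0 + (J' + 1)), (G.zl a.1 ω a.2 j).elim 1 (fun t => 3 * p * (2 * Bs t.2))) * Γ a.1 ≤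
      c a.1 ^ 2 * wt p Bs a.1 * Γ a.1 * (1 / (slice J' S e).card) := fun a ha => by
    obtain ⟨a1, a2, a3⟩ := hI a ha
    rw [G.zl_prod hG (h𝒦 _ a1) ((G.valid_slice hξ₀ a2).2 hV) a3 fun t => 3 * p * (2 * Bs t)]
    have b1 := hBs true
    have b2 := hBs false
    have b3 := hΓ0 _ a1
    refine ⟨by positivity, ?_⟩
    have h1 : G.h (occ a.1) ω a.2 (J' + 1) ^ 2 ≤ 16 ^ a.1.1.card * 16 ^ a.1.2.card := by
      calc _ ≤ ((4 : ℝ) ^ (occ a.1).card) ^ 2 :=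
            pow_le_pow_left₀ (G.h_nonneg _ _ _ _) (G.h_le hG _ _ _ _) 2
        _ = _ := by
          rw [occ, card_union_of_disjoint (h𝒦 _ a1).1, ← pow_add, ← pow_mul, mul_comm, pow_mul]
          norm_num
    have h2 : wt p Bs a.1 = 16 ^ a.1.1.card * 16 ^ a.1.2.card *
        ((3 * p * (2 * Bs true)) ^ a.1.1.card * (3 * p * (2 * Bs false)) ^ a.1.2.card) := by
      rw [mul_mul_mul_comm, ← mul_pow, ← mul_pow, wt]
      congr 2 <;> ring
    rw [h2]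
    calc _ = c a.1 ^ 2 * (G.h (occ a.1) ω a.2 (J' + 1) ^ 2 *
          ((3 * p * (2 * Bs true)) ^ a.1.1.card * (3 * p * (2 * Bs false)) ^ a.1.2.card)) * Γ a.1 *
          (1 / (slice J' S e).card) := by ring
      _ ≤ _ := by gcongr
  refine mul_le_mul hJ ?_ (sum_nonneg fun a ha => (hterm a ha).1) (by norm_num)
  refine (sum_le_sum fun a ha => (hterm a ha).2).trans ?_
  refine (sum_le_sum_of_subset_of_nonneg (filter_subset _ _) fun a ha _ => ?_).trans (le_of_eq ?_)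
  · have := hΓ0 _ (mem_product.1 ha).1
    have := hw a.1
    positivity
  · rw [sum_product]
    refine sum_congr rfl fun κ _ => ?_
    simp only [sum_const, nsmul_eq_mul]
    field_simp

end PP

end Crest.Agent.R300L
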