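import Crest.Agent.R300L.Alg

/-!
# The `L^p` calculus
Hints. `NbP.mix` is the only convexity argument: with `R = ∑ R i`, put `f = (∑ R i f i) / R`
(`0` where `R = 0`; there all `R i` vanish) and use Jensen / weighted power mean
(`Real.pow_arith_mean_le_arith_mean_pow`, or `inner_le_nnorm_mul_nnorm`) pointwise, then `ex_eq_sum`
on the union of the supports.  `NbP.kern`: write `R`, `X` by `eq_sum_single` over `supp R` and apply
`NbP.mix` to the pieces `R τ • Φ δ_τ`, `(R τ f τ) • Φ δ_τ` (constant density `f τ`).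
`Nb.add`: Minkowski (`Real.Lp_add_le` with weights `R τ ^ (1/p)`, or convexity of `|·|^p` with
weights `β/(β+γ)`; treat `β+γ = 0` separately).
-/

set_option autoImplicit false
open Finset

noncomputable section
namespace Crest.Agent.R300L

variable {M : Type} {p : ℕ}

lemma Nrm_ex_le {X Y : Al M} {f g : M → ℝ} (h : ∀ τ, X.coeff τ * f τ ≤ Y.coeff τ * g τ) :
    ex X f ≤ ex Y g := by
  classical
  rw [ex_eq_sum X f (s := X.coeff.support ∪ Y.coeff.support) subset_union_left,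
    ex_eq_sum Y g (s := X.coeff.support ∪ Y.coeff.support) subset_union_right]
  exact sum_le_sum fun τ _ => h τ

/-- weighted Jensen inequality -/
lemma Nrm_jensen {ι : Type*} (s : Finset ι) (w z : ι → ℝ) (hw : ∀ i ∈ s, 0 ≤ w i) :
    (∑ i ∈ s, w i) * |(∑ i ∈ s, w i * z i) / ∑ i ∈ s, w i| ^ p ≤ ∑ i ∈ s, w i * |z i| ^ p := by
  rcases (sum_nonneg hw).eq_or_lt with h0 | hW
  · rw [← h0, zero_mul]
    exact sum_nonneg fun i hi => mul_nonneg (hw i hi) (by positivity)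
  set W := ∑ i ∈ s, w i with hWdef
  have h1 : ∑ i ∈ s, w i / W = 1 := by rw [← sum_div, ← hWdef, div_self hW.ne']
  have h2 := Real.pow_arith_mean_le_arith_mean_pow s (fun i => w i / W) (fun i => |z i|)
    (fun i hi => div_nonneg (hw i hi) hW.le) h1 (fun i _ => abs_nonneg _) p
  have h3 : |(∑ i ∈ s, w i * z i) / W| ≤ ∑ i ∈ s, w i / W * |z i| := by
    rw [sum_div]
    refine (abs_sum_le_sum_abs _ _).trans (sum_le_sum fun i hi => ?_)
    rw [mul_div_right_comm, abs_mul, abs_of_nonneg (div_nonneg (hw i hi) hW.le)]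
  calc W * |(∑ i ∈ s, w i * z i) / W| ^ p ≤ W * ∑ i ∈ s, w i / W * |z i| ^ p :=
        mul_le_mul_of_nonneg_left ((pow_le_pow_left₀ (abs_nonneg _) h3 p).trans h2) hW.le
    _ = ∑ i ∈ s, w i * |z i| ^ p := by
        rw [mul_sum]
        refine sum_congr rfl fun i _ => ?_
        field_simp

lemma Nrm_div_dom {R X : Al M} {C : ℝ} (h : Dom X (C • R)) (τ : M) :
    X.coeff τ = R.coeff τ * (X.coeff τ / R.coeff τ) := by
  by_cases h0 : R.coeff τ = 0
  · have := h τ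
    simp only [MonoidAlgebra.coeff_smul, Finsupp.smul_apply, smul_eq_mul, h0, mul_zero,
      abs_nonpos_iff] at this
    rw [h0, zero_mul, this]
  · field_simp

lemma Nrm_abs_div_le {R X : Al M} {C : ℝ} (hR : NN R) (hC : 0 ≤ C) (h : Dom X (C • R)) (τ : M) :
    |X.coeff τ / R.coeff τ| ≤ C := by
  rcases (hR τ).eq_or_lt with h0 | h0
  · rw [← h0, div_zero, abs_zero]; exact hC
  · have := h τ
    simp only [MonoidAlgebra.coeff_smul, Finsupp.smul_apply, smul_eq_mul] at this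
    rw [abs_div, abs_of_pos h0, div_le_iff₀ h0]
    exact this

/-- a vanishing `L^p` norm kills every term -/
lemma Nrm_term_zero {R : Al M} (hR : NN R) {g : M → ℝ} (hg : ∀ τ, 0 ≤ g τ) (h : ex R g ≤ 0)
    (τ : M) : R.coeff τ * g τ = 0 := by
  by_cases h0 : τ ∈ R.coeff.support
  · have hnn : ∀ σ ∈ R.coeff.support, 0 ≤ R.coeff σ * g σ := fun σ _ => mul_nonneg (hR σ) (hg σ)
    exact (sum_eq_zero_iff_of_nonneg hnn).1 (le_antisymm h (sum_nonneg hnn)) τ h0
  · rw [Finsupp.notMem_support_iff.1 h0, zero_mul]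

lemma Nrm_ref_pt (hp : 1 ≤ p) {a r C z : ℝ} (ha : 0 ≤ a) (hr : 0 ≤ r) (hC : 1 ≤ C)
    (h : a ≤ C * r) : r * |a * z / r| ^ p ≤ a * (C ^ p * |z| ^ p) := by
  rcases hr.eq_or_lt with h0 | h0
  · rw [← h0, zero_mul]; positivity
  obtain ⟨q, rfl⟩ : ∃ q, p = q + 1 := ⟨p - 1, by omega⟩
  have h1 : a / r ≤ C := by rw [div_le_iff₀ h0]; exact h
  have h2 : (a / r) ^ q ≤ C ^ (q + 1) :=
    (pow_le_pow_left₀ (div_nonneg ha hr) h1 q).trans (pow_le_pow_right₀ hC (Nat.le_succ q))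
  have e : r * |a * z / r| ^ (q + 1) = a * ((a / r) ^ q * |z| ^ (q + 1)) := by
    rw [mul_div_right_comm, abs_mul, abs_of_nonneg (div_nonneg ha hr), mul_pow, pow_succ (a / r)]
    field_simp
  rw [e]
  gcongr

/-- Minkowski -/
lemma Nrm_mink (hp : 1 ≤ p) {R : Al M} (hR : NN R) {f g : M → ℝ} {β γ : ℝ} (hβ : 0 ≤ β)
    (hγ : 0 ≤ γ) (hf : ex R (fun τ => |f τ| ^ p) ≤ β ^ p) (hg : ex R (fun τ => |g τ| ^ p) ≤ γ ^ p) :
    ex R (fun τ => |f τ + g τ| ^ p) ≤ (β + γ) ^ p := by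
  have hp0 : p ≠ 0 := by omega
  have key : ∀ {f g : M → ℝ} {γ : ℝ}, ex R (fun τ => |f τ| ^ p) ≤ 0 ^ p →
      ex R (fun τ => |g τ| ^ p) ≤ γ ^ p → ex R (fun τ => |f τ + g τ| ^ p) ≤ γ ^ p := by
    intro f g γ hf hg
    refine le_trans (Nrm_ex_le fun τ => ?_) hg
    rw [zero_pow hp0] at hf
    have h0 := Nrm_term_zero hR (g := fun τ => |f τ| ^ p) (fun τ => by positivity) hf τ
    rcases mul_eq_zero.1 h0 with h1 | h1
    · rw [h1, zero_mul, zero_mul]
    · rw [abs_eq_zero.1 (pow_eq_zero_iff hp0 |>.1 h1), zero_add]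
  rcases hβ.eq_or_lt with h0 | hβ'
  · rw [← h0] at hf ⊢
    rw [zero_add]
    exact key hf hg
  rcases hγ.eq_or_lt with h0 | hγ'
  · rw [← h0] at hg ⊢
    rw [add_zero]
    simpa only [add_comm] using key hg hf
  have hs : 0 < β + γ := by linarith
  have hpt : ∀ τ, |f τ + g τ| ^ p ≤ (β + γ) ^ p / (β + γ) * (β / β ^ p) * |f τ| ^ p +
      (β + γ) ^ p / (β + γ) * (γ / γ ^ p) * |g τ| ^ p := by
    intro τ
    have h := Nrm_jensen (p := p) (univ : Finset Bool) (fun b => if b then β else γ)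
      (fun b => if b then f τ / β else g τ / γ) (fun b _ => by cases b <;> simp [hβ, hγ])
    simp only [Fintype.sum_bool, if_true, Bool.false_eq_true, if_false] at h
    rw [mul_div_cancel₀ _ hβ'.ne', mul_div_cancel₀ _ hγ'.ne', abs_div, abs_div, abs_div,
      abs_of_pos hs, abs_of_pos hβ', abs_of_pos hγ', div_pow, div_pow, div_pow] at h
    have hsp : 0 < (β + γ) ^ p := by positivity
    have h' := mul_le_mul_of_nonneg_left h (div_nonneg hsp.le hs.le)
    calc |f τ + g τ| ^ p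
        = (β + γ) ^ p / (β + γ) * ((β + γ) * (|f τ + g τ| ^ p / (β + γ) ^ p)) := by field_simp
      _ ≤ _ := h'
      _ = _ := by ring
  calc ex R (fun τ => |f τ + g τ| ^ p)
      ≤ ex R (fun τ => (β + γ) ^ p / (β + γ) * (β / β ^ p) * |f τ| ^ p +
          (β + γ) ^ p / (β + γ) * (γ / γ ^ p) * |g τ| ^ p) := ex_mono hR hpt
    _ = (β + γ) ^ p / (β + γ) * (β / β ^ p) * ex R (fun τ => |f τ| ^ p) +
          (β + γ) ^ p / (β + γ) * (γ / γ ^ p) * ex R (fun τ => |g τ| ^ p) := by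
        rw [ex_add_fun, ex_mul_fun, ex_mul_fun]
    _ ≤ (β + γ) ^ p / (β + γ) * (β / β ^ p) * β ^ p +
          (β + γ) ^ p / (β + γ) * (γ / γ ^ p) * γ ^ p := by gcongr
    _ = (β + γ) ^ p := by field_simp

lemma Nrm_young {p p' : ℕ} (hpp : p ≤ p') {t : ℝ} (ht : 0 ≤ t) :
    (p' : ℝ) * t ^ p ≤ p * t ^ p' + (p' - p) := by
  induction p', hpp using Nat.le_induction with
  | base => simp
  | succ n hn ih =>
    have e : t ^ p - 1 = (t - 1) * ∑ i ∈ range p, t ^ i := by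
      rw [mul_comm, geom_sum_mul]
    have h : t ^ p - 1 ≤ (t - 1) * (p * t ^ n) := by
      rw [e]
      have e2 : (p : ℝ) * t ^ n = ∑ _i ∈ range p, t ^ n := by simp
      rw [e2]
      rcases le_total 1 t with h1 | h1
      · refine mul_le_mul_of_nonneg_left (sum_le_sum fun i hi => ?_) (by linarith)
        exact pow_le_pow_right₀ h1 (by have := mem_range.1 hi; omega)
      · refine mul_le_mul_of_nonpos_left (sum_le_sum fun i hi => ?_) (by linarith)
        exact pow_le_pow_of_le_one ht h1 (by have := mem_range.1 hi; omega)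
    push_cast
    rw [pow_succ]
    nlinarith

lemma Nrm_eq_sum {R X : Al M} {f : M → ℝ} (h : ∀ τ, X.coeff τ = R.coeff τ * f τ) :
    X = ∑ τ ∈ R.coeff.support, (R.coeff τ * f τ) • MonoidAlgebra.single τ (1 : ℝ) := by
  conv_lhs => rw [eq_sum_single X]
  simp only [← h]
  refine sum_subset (fun τ hτ => ?_) (fun τ _ hτ => ?_)
  · rw [Finsupp.mem_support_iff] at hτ ⊢
    intro h0
    exact hτ (by rw [h, h0, zero_mul])
  · rw [Finsupp.notMem_support_iff.1 hτ, zero_smul]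

lemma Nrm_smul_right {R X : Al M} {s : ℝ} (h : NbP p R X s) (c : ℝ) :
    NbP p R (c • X) (|c| ^ p * s) := by
  obtain ⟨f, hf, hs⟩ := h
  refine ⟨fun τ => c * f τ, fun τ => ?_, ?_⟩
  · simp only [MonoidAlgebra.coeff_smul, Finsupp.smul_apply, smul_eq_mul, hf]
    ring
  · simp only [abs_mul, mul_pow]
    rw [ex_mul_fun]
    exact mul_le_mul_of_nonneg_left hs (by positivity)

lemma Nrm_self (R : Al M) : NbP p R R (mass R) :=
  ⟨fun _ => 1, fun τ => by simp, by simp [ex_const]⟩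

theorem NbP.mono {R X : Al M} {s s' : ℝ} (h : NbP p R X s) (hs : s ≤ s') : NbP p R X s' := by
  obtain ⟨f, hf, h⟩ := h
  exact ⟨f, hf, h.trans hs⟩
theorem NbP.smul_both {R X : Al M} {s c : ℝ} (hc : 0 ≤ c) (h : NbP p R X s) :
    NbP p (c • R) (c • X) (c * s) := by
  obtain ⟨f, hf, h⟩ := h
  refine ⟨f, fun τ => ?_, ?_⟩
  · simp only [MonoidAlgebra.coeff_smul, Finsupp.smul_apply, smul_eq_mul, hf]
    ring
  · rw [ex_smul]
    exact mul_le_mul_of_nonneg_left h hc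
/-- mixtures -/
theorem NbP.mix {ι : Type*} (hp : 1 ≤ p) (s : Finset ι) (R X : ι → Al M) (b : ι → ℝ)
    (hR : ∀ i ∈ s, NN (R i)) (h : ∀ i ∈ s, NbP p (R i) (X i) (b i)) :
    NbP p (∑ i ∈ s, R i) (∑ i ∈ s, X i) (∑ i ∈ s, b i) := by
  classical
  have _ := hp
  choose! f hf hb using h
  refine ⟨fun τ => (∑ i ∈ s, (R i).coeff τ * f i τ) / ∑ i ∈ s, (R i).coeff τ, fun τ => ?_, ?_⟩
  · rw [MonoidAlgebra.coeff_sum, MonoidAlgebra.coeff_sum, Finsupp.finsetSum_apply,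
      Finsupp.finsetSum_apply, sum_congr rfl fun i hi => hf i hi τ]
    by_cases h0 : ∑ i ∈ s, (R i).coeff τ = 0
    · rw [h0, zero_mul]
      refine sum_eq_zero fun i hi => ?_
      rw [(sum_eq_zero_iff_of_nonneg fun i hi => hR i hi τ).1 h0 i hi, zero_mul]
    · field_simp
  · refine le_trans ?_ (sum_le_sum hb)
    have hsub : ∀ i ∈ s, (R i).coeff.support ⊆ s.biUnion fun i => (R i).coeff.support :=
      fun i hi => subset_biUnion_of_mem (fun i => (R i).coeff.support) hi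
    rw [sum_congr rfl fun i hi => ex_eq_sum (R i) _ (hsub i hi), sum_comm,
      ex_eq_sum _ _ (s := s.biUnion fun i => (R i).coeff.support)
        (by rw [MonoidAlgebra.coeff_sum]; exact Finsupp.support_finsetSum)]
    refine sum_le_sum fun τ _ => ?_
    rw [MonoidAlgebra.coeff_sum, Finsupp.finsetSum_apply]
    exact Nrm_jensen s (fun i => (R i).coeff τ) (fun i => f i τ) fun i hi => hR i hi τ
/-- data processing -/
theorem NbP.kern {M' : Type} (hp : 1 ≤ p) {Φ : Al M →ₗ[ℝ] Al M'} (hΦ : Kern Φ) {R X : Al M}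
    {s : ℝ} (hR : NN R) (h : NbP p R X s) : NbP p (Φ R) (Φ X) s := by
  obtain ⟨f, hf, hs⟩ := h
  have h := NbP.mix hp R.coeff.support (fun τ => R.coeff τ • Φ (MonoidAlgebra.single τ 1))
    (fun τ => (R.coeff τ * f τ) • Φ (MonoidAlgebra.single τ 1)) (fun τ => R.coeff τ * |f τ| ^ p)
    (fun τ _ => (hΦ τ).1.smul (hR τ)) (fun τ _ => by
      rw [mul_smul]
      refine NbP.smul_both (hR τ) ((Nrm_smul_right (Nrm_self _) _).mono ?_)
      exact mul_le_of_le_one_right (by positivity) (hΦ τ).2)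
  simp only [← map_smul, ← map_sum] at h
  rw [← eq_sum_single R, ← Nrm_eq_sum hf] at h
  exact h.mono hs
theorem NbP.of_dom_l1 (hp : 1 ≤ p) {R X : Al M} {C η : ℝ} (hR : NN R) (hC : 0 ≤ C)
    (h : Dom X (C • R)) (hη : l1 X ≤ η) : NbP p R X (C ^ (p - 1) * η) := by
  obtain ⟨q, rfl⟩ : ∃ q, p = q + 1 := ⟨p - 1, by omega⟩
  refine ⟨fun τ => X.coeff τ / R.coeff τ, Nrm_div_dom h, ?_⟩
  rw [Nat.add_sub_cancel]
  refine le_trans ?_ (mul_le_mul_of_nonneg_left hη (pow_nonneg hC q))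
  have hsub : X.coeff.support ⊆ R.coeff.support := fun τ hτ => by
    rw [Finsupp.mem_support_iff] at hτ ⊢
    intro h0
    exact hτ (by rw [Nrm_div_dom h τ, h0, zero_mul])
  rw [l1_eq_sum X hsub, mul_sum]
  refine sum_le_sum fun τ _ => ?_
  have e : |X.coeff τ| = R.coeff τ * |X.coeff τ / R.coeff τ| := by
    conv_lhs => rw [Nrm_div_dom h τ, abs_mul, abs_of_nonneg (hR τ)]
  have h1 := pow_le_pow_left₀ (abs_nonneg _) (Nrm_abs_div_le hR hC h τ) q
  have h2 : 0 ≤ R.coeff τ * |X.coeff τ / R.coeff τ| := mul_nonneg (hR τ) (abs_nonneg _)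
  calc R.coeff τ * |X.coeff τ / R.coeff τ| ^ (q + 1)
      = |X.coeff τ / R.coeff τ| ^ q * (R.coeff τ * |X.coeff τ / R.coeff τ|) := by ring
    _ ≤ C ^ q * (R.coeff τ * |X.coeff τ / R.coeff τ|) := mul_le_mul_of_nonneg_right h1 h2
    _ = C ^ q * |X.coeff τ| := by rw [← e]

theorem Nb.nonneg {R X : Al M} {β : ℝ} (h : Nb p R X β) : 0 ≤ β := h.1
theorem Nb.mono {R X : Al M} {β β' : ℝ} (h : Nb p R X β) (hβ : β ≤ β') : Nb p R X β' :=
  ⟨h.1.trans hβ, h.2.mono (pow_le_pow_left₀ h.1 hβ p)⟩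
theorem Nb.zero (hp : 1 ≤ p) (R : Al M) {β : ℝ} (hβ : 0 ≤ β) : Nb p R 0 β := by
  refine ⟨hβ, fun _ => 0, fun τ => by simp, ?_⟩
  rw [ex_const, abs_zero, zero_pow (by omega), mul_zero]
  positivity
theorem Nb.self {R : Al M} (hR : IsProb R) : Nb p R R 1 :=
  ⟨zero_le_one, (Nrm_self R).mono (by rw [hR.2, one_pow])⟩
theorem Nb.smul {R X : Al M} {β : ℝ} (h : Nb p R X β) (c : ℝ) : Nb p R (c • X) (|c| * β) :=
  ⟨mul_nonneg (abs_nonneg c) h.1, by rw [mul_pow]; exact Nrm_smul_right h.2 c⟩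
theorem Nb.neg {R X : Al M} {β : ℝ} (h : Nb p R X β) : Nb p R (-X) β := by
  simpa using h.smul (-1)
theorem Nb.add (hp : 1 ≤ p) {R X Y : Al M} {β γ : ℝ} (hR : NN R) (h : Nb p R X β)
    (h' : Nb p R Y γ) : Nb p R (X + Y) (β + γ) := by
  obtain ⟨hβ, f, hf, hs⟩ := h
  obtain ⟨hγ, g, hg, ht⟩ := h'
  refine ⟨add_nonneg hβ hγ, fun τ => f τ + g τ, fun τ => ?_, Nrm_mink hp hR hβ hγ hs ht⟩
  simp only [MonoidAlgebra.coeff_add, Finsupp.add_apply, hf, hg]
  ring
theorem Nb.sum {ι : Type*} (hp : 1 ≤ p) {R : Al M} (hR : NN R) (s : Finset ι) (X : ι → Al M)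
    (β : ι → ℝ) (h : ∀ i ∈ s, Nb p R (X i) (β i)) : Nb p R (∑ i ∈ s, X i) (∑ i ∈ s, β i) := by
  classical
  induction s using Finset.induction_on with
  | empty => simpa using Nb.zero hp R le_rfl
  | insert a s ha ih =>
    rw [sum_insert ha, sum_insert ha]
    exact Nb.add hp hR (h a (mem_insert_self _ _)) (ih fun i hi => h i (mem_insert_of_mem hi))
theorem Nb.kern {M' : Type} (hp : 1 ≤ p) {Φ : Al M →ₗ[ℝ] Al M'} (hΦ : Kern Φ) {R X : Al M}
    {β : ℝ} (hR : NN R) (h : Nb p R X β) : Nb p (Φ R) (Φ X) β :=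
  ⟨h.1, NbP.kern hp hΦ hR h.2⟩
theorem Nb.mix_const {ι : Type*} (hp : 1 ≤ p) (s : Finset ι) (π : ι → ℝ) (R X : ι → Al M) {β : ℝ}
    (hβ : 0 ≤ β) (hπ : ∀ i ∈ s, 0 ≤ π i) (h1 : ∑ i ∈ s, π i ≤ 1) (hR : ∀ i ∈ s, NN (R i))
    (h : ∀ i ∈ s, Nb p (R i) (X i) β) : Nb p (∑ i ∈ s, π i • R i) (∑ i ∈ s, π i • X i) β := by
  refine ⟨hβ, (NbP.mix hp s (fun i => π i • R i) (fun i => π i • X i) (fun i => π i * β ^ p)
    (fun i hi => (hR i hi).smul (hπ i hi))
    (fun i hi => NbP.smul_both (hπ i hi) (h i hi).2)).mono ?_⟩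
  rw [← sum_mul]
  exact mul_le_of_le_one_left (by positivity) h1
/-- power-mean monotonicity -/
theorem Nb.anti_p {p' : ℕ} (hp : 1 ≤ p) (hpp : p ≤ p') {R X : Al M} {β : ℝ} (hR : NN R)
    (h1 : mass R ≤ 1) (h : Nb p' R X β) : Nb p R X β := by
  obtain ⟨hβ, f, hf, hs⟩ := h
  refine ⟨hβ, f, hf, ?_⟩
  have hp0 : p ≠ 0 := by omega
  have hp0' : p' ≠ 0 := by omega
  rcases hβ.eq_or_lt with h0 | hβ'
  · rw [← h0, zero_pow hp0'] at hs
    rw [← h0, zero_pow hp0]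
    refine le_of_eq (sum_eq_zero fun τ _ => ?_)
    have h2 := Nrm_term_zero hR (g := fun τ => |f τ| ^ p') (fun τ => by positivity) hs τ
    rcases mul_eq_zero.1 h2 with h3 | h3
    · rw [h3, zero_mul]
    · beta_reduce
      rw [(pow_eq_zero_iff hp0').1 h3, zero_pow hp0, mul_zero]
  have hP : (0 : ℝ) < p' := by exact_mod_cast Nat.pos_of_ne_zero hp0'
  have hpp' : (p : ℝ) ≤ p' := by exact_mod_cast hpp
  have hpt : ∀ τ, |f τ| ^ p ≤ β ^ p / p' * (p / β ^ p') * |f τ| ^ p' + β ^ p / p' * (p' - p) := by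
    intro τ
    have h2 := Nrm_young hpp (div_nonneg (abs_nonneg (f τ)) hβ)
    rw [div_pow, div_pow] at h2
    have h3 := mul_le_mul_of_nonneg_left h2 (div_nonneg (pow_nonneg hβ p) hP.le)
    calc |f τ| ^ p = β ^ p / p' * (p' * (|f τ| ^ p / β ^ p)) := by field_simp
      _ ≤ _ := h3
      _ = _ := by ring
  have hd : (0 : ℝ) ≤ p' - p := by linarith
  calc ex R (fun τ => |f τ| ^ p)
      ≤ ex R (fun τ => β ^ p / p' * (p / β ^ p') * |f τ| ^ p' + β ^ p / p' * (p' - p)) :=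
        ex_mono hR hpt
    _ = β ^ p / p' * (p / β ^ p') * ex R (fun τ => |f τ| ^ p') +
          mass R * (β ^ p / p' * (p' - p)) := by rw [ex_add_fun, ex_mul_fun, ex_const]
    _ ≤ β ^ p / p' * (p / β ^ p') * β ^ p' + 1 * (β ^ p / p' * (p' - p)) := by gcongr
    _ = β ^ p := by field_simp; ring
theorem Nb.l1_le (hp : 1 ≤ p) {R X : Al M} {β : ℝ} (hR : NN R) (h1 : mass R ≤ 1)
    (h : Nb p R X β) : l1 X ≤ β := by
  obtain ⟨-, f, hf, hs⟩ := Nb.anti_p le_rfl hp hR h1 h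
  rw [pow_one] at hs
  refine le_trans (le_of_eq ?_) hs
  have hsub : X.coeff.support ⊆ R.coeff.support := fun τ hτ => by
    rw [Finsupp.mem_support_iff] at hτ ⊢
    intro h0
    exact hτ (by rw [hf, h0, zero_mul])
  rw [l1_eq_sum X hsub]
  refine sum_congr rfl fun τ _ => ?_
  beta_reduce
  rw [hf, abs_mul, abs_of_nonneg (hR τ), pow_one]
theorem Nb.of_dom {R X : Al M} {C : ℝ} (hR : NN R) (h1 : mass R ≤ 1) (hC : 0 ≤ C)
    (h : Dom X (C • R)) : Nb p R X C := by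
  refine ⟨hC, fun τ => X.coeff τ / R.coeff τ, Nrm_div_dom h, ?_⟩
  refine (ex_mono hR (g := fun _ => C ^ p) fun τ =>
    pow_le_pow_left₀ (abs_nonneg _) (Nrm_abs_div_le hR hC h τ) p).trans ?_
  rw [ex_const]
  exact mul_le_of_le_one_left (by positivity) h1
/-- `R' ≤ C R` -/
theorem Nb.ref_mono (hp : 1 ≤ p) {R R' X : Al M} {β C : ℝ} (hR' : NN R') (hR : NN R) (hC : 1 ≤ C)
    (hle : NN (C • R - R')) (h : Nb p R' X β) : Nb p R X (C * β) := by
  obtain ⟨hβ, f, hf, hs⟩ := h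
  have hle' : ∀ τ, R'.coeff τ ≤ C * R.coeff τ := fun τ => by
    have := hle τ
    simp only [MonoidAlgebra.coeff_sub, MonoidAlgebra.coeff_smul, Finsupp.sub_apply,
      Finsupp.smul_apply, smul_eq_mul] at this
    linarith
  refine ⟨mul_nonneg (by linarith) hβ, fun τ => R'.coeff τ * f τ / R.coeff τ, fun τ => ?_, ?_⟩
  · rw [hf]
    by_cases h0 : R.coeff τ = 0
    · have h2 := hle' τ
      rw [h0, mul_zero] at h2
      rw [h0, le_antisymm h2 (hR' τ), zero_mul, zero_mul]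
    · field_simp
  · refine (Nrm_ex_le (Y := R') (g := fun τ => C ^ p * |f τ| ^ p) fun τ =>
      Nrm_ref_pt hp (hR' τ) (hR τ) hC (hle' τ)).trans ?_
    rw [ex_mul_fun, mul_pow]
    exact mul_le_mul_of_nonneg_left hs (pow_nonneg (by linarith) p)
/-- change of reference.  Split `X` along `G = {Rb ≤ 2 R}`: on `G` the density w.r.t. `R` is at most
twice the density w.r.t. `Rb` (and `anti_p`); off `G` it is `≤ C` and
`R(Gᶜ) ≤ Rb(Gᶜ) ≤ (2·(1/4))^(g p)` by Markov (`|R - Rb| > Rb/2` on `Gᶜ`). -/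
theorem Nb.ref_change (hp : 1 ≤ p) {g : ℕ} (hg : 1 ≤ g) {Rb R X : Al M} {β C : ℝ}
    (hRb : IsProb Rb) (hR : IsProb R) (h1 : Nb (g * p) Rb (R - Rb) (1 / 4))
    (h2 : Nb (g * p) Rb X β) (hC : 0 ≤ C) (h3 : Dom X (C • R)) :
    Nb p R X (2 * β + C * (1 / 2) ^ g) := by
  classical
  have hp0 : p ≠ 0 := by omega
  obtain ⟨hβ, f, hf, hs⟩ := Nb.anti_p hp (Nat.le_mul_of_pos_left p hg) hRb.1 hRb.2.le h2
  obtain ⟨-, h, hh, ht⟩ := h1
  refine ⟨by positivity, fun τ => (if Rb.coeff τ ≤ 2 * R.coeff τ then X.coeff τ / R.coeff τ else 0) +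
    (if Rb.coeff τ ≤ 2 * R.coeff τ then 0 else X.coeff τ / R.coeff τ), fun τ => ?_, ?_⟩
  · conv_lhs => rw [Nrm_div_dom h3 τ]
    beta_reduce
    split_ifs <;> simp
  refine Nrm_mink hp hR.1 (by positivity) (by positivity) ?_ ?_
  · refine (Nrm_ex_le (Y := Rb) (g := fun τ => 2 ^ p * |f τ| ^ p) fun τ => ?_).trans ?_
    · split_ifs with hG
      · rw [hf]
        exact Nrm_ref_pt hp (hRb.1 τ) (hR.1 τ) one_le_two hG
      · rw [abs_zero, zero_pow hp0, mul_zero]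
        exact mul_nonneg (hRb.1 τ) (by positivity)
    · rw [ex_mul_fun, mul_pow]
      exact mul_le_mul_of_nonneg_left hs (by positivity)
  · refine (Nrm_ex_le (Y := Rb) (g := fun τ => (C ^ p * 2 ^ (g * p)) * |h τ| ^ (g * p))
      fun τ => ?_).trans ?_
    · split_ifs with hG
      · rw [abs_zero, zero_pow hp0, mul_zero]
        exact mul_nonneg (hRb.1 τ) (by positivity)
      · have hG' := not_le.1 hG
        have hR0 := hR.1 τ
        have hb : 0 < Rb.coeff τ := by linarith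
        have e := hh τ
        simp only [MonoidAlgebra.coeff_sub, Finsupp.sub_apply] at e
        have h5 : 1 ≤ 2 * |h τ| := by
          have h6 : -h τ ≤ |h τ| := neg_le_abs _
          by_contra hc
          have h7 : -(1 / 2) < h τ := by linarith [not_le.1 hc]
          nlinarith
        have h6 : (1 : ℝ) ≤ 2 ^ (g * p) * |h τ| ^ (g * p) := by
          rw [← mul_pow]; exact one_le_pow₀ h5
        have h7 := pow_le_pow_left₀ (abs_nonneg _) (Nrm_abs_div_le hR.1 hC h3 τ) p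
        have h8 : 0 ≤ C ^ p := by positivity
        calc R.coeff τ * |X.coeff τ / R.coeff τ| ^ p ≤ Rb.coeff τ * (C ^ p * 1) := by
              rw [mul_one]
              exact mul_le_mul (by linarith) h7 (by positivity) hb.le
          _ ≤ Rb.coeff τ * (C ^ p * (2 ^ (g * p) * |h τ| ^ (g * p))) := by gcongr
          _ = _ := by ring
    · rw [ex_mul_fun]
      refine (mul_le_mul_of_nonneg_left ht (by positivity)).trans (le_of_eq ?_)
      rw [mul_assoc, ← mul_pow, mul_pow C, ← pow_mul]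
      norm_num
theorem Bess.mono {T : Type} {R : Al M} {s : Finset T} {Y : T → Al M} {w w' : T → ℝ}
    (h : Bess p R s Y w) (hw : ∀ t ∈ s, w t ≤ w' t) : Bess p R s Y w' := fun c =>
  (h c).mono (Real.sqrt_le_sqrt (sum_le_sum fun t ht =>
    mul_le_mul_of_nonneg_right (hw t ht) (sq_nonneg _)))

variable [Monoid M]

theorem Nb.mul_left (hp : 1 ≤ p) {R X Q : Al M} {β : ℝ} (hR : NN R) (hQ : IsProb Q)
    (h : Nb p R X β) : Nb p (Q * R) (Q * X) β :=
  Nb.kern hp (kern_mulLeft hQ.1 hQ.2.le) hR h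
theorem Nb.mul_right (hp : 1 ≤ p) {R X Q : Al M} {β : ℝ} (hR : NN R) (hQ : IsProb Q)
    (h : Nb p R X β) : Nb p (R * Q) (X * Q) β :=
  Nb.kern hp (kern_mulRight hQ.1 hQ.2.le) hR h
/-- use `mul_eq_sum`-like expansions over `supp R ×ˢ supp R'` and `NbP.mix` -/
theorem Nb.mul (hp : 1 ≤ p) {R X R' X' : Al M} {β β' : ℝ} (hR : NN R) (hR' : NN R')
    (h : Nb p R X β) (h' : Nb p R' X' β') : Nb p (R * R') (X * X') (β * β') := by
  obtain ⟨hβ, f, hf, hs⟩ := h
  refine ⟨mul_nonneg hβ h'.1, ?_⟩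
  have h := NbP.mix hp R.coeff.support
    (fun τ => R.coeff τ • (MonoidAlgebra.single τ (1 : ℝ) * R'))
    (fun τ => (R.coeff τ * f τ) • (MonoidAlgebra.single τ (1 : ℝ) * X'))
    (fun τ => R.coeff τ * (|f τ| ^ p * β' ^ p))
    (fun τ _ => ((IsProb.single τ).1.mul hR').smul (hR τ)) (fun τ _ => by
      rw [mul_smul]
      exact NbP.smul_both (hR τ)
        (Nrm_smul_right (Nb.mul_left hp hR' (IsProb.single τ) h').2 _))
  simp only [← smul_mul_assoc, ← sum_mul] at h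
  rw [← eq_sum_single R, ← Nrm_eq_sum hf] at h
  refine h.mono ?_
  simp only [← mul_assoc, ← sum_mul]
  rw [mul_pow]
  exact mul_le_mul_of_nonneg_right hs (pow_nonneg h'.1 p)
/-- induction: `(P+Δ)(R+X) - P R = Δ R + P X + Δ X` -/
theorem Nb.pr_sub (hp : 1 ≤ p) {R X : ℕ → Al M} {η : ℝ} (hR : ∀ j, IsProb (R j))
    (h : ∀ j, Nb p (R j) (X j) η) (x k : ℕ) :
    Nb p (pr R x k) (pr (fun j => R j + X j) x k - pr R x k) ((1 + η) ^ k - 1) := by
  induction k with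
  | zero => simpa using Nb.zero hp (1 : Al M) le_rfl
  | succ k ih =>
    have hP : IsProb (pr R x k) := IsProb.pr fun j _ _ => hR j
    have hQ := hR (x + k)
    have hPQ := (hP.mul hQ).1
    have h1 := Nb.mul_right hp hP.1 hQ ih
    have h2 := Nb.mul_left hp hQ.1 hP (h (x + k))
    have h3 := Nb.mul hp hP.1 hQ.1 ih (h (x + k))
    have h4 := Nb.add hp hPQ (Nb.add hp hPQ h1 h2) h3
    rw [pr_succ, pr_succ]
    convert h4 using 1
    · noncomm_ring
    · ring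
theorem Bes.mono {U E : Al M} {K b N : ℕ} {B B' : ℝ} (h : Bes p U E K b N B) (hB : B ≤ B') :
    Bes p U E K b N B' :=
  Bess.mono h fun _ _ => hB

end Crest.Agent.R300L
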