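import Crest.Agent.R300L.Bin
import Crest.Agent.R300L.Nrm

/-!
# Overlap, hidden bits and smoothing
-/

set_option autoImplicit false
open Finset

noncomputable section
namespace Crest.Agent.R300L

variable {M : Type} [Monoid M]

theorem Bit_S (U : Al M) : Bq (1 / 2) U = (1 / 2 : ℝ) • (1 : Al M) + (1 / 2 : ℝ) • U := by
  rw [Bq]
  norm_num
theorem Bit_prob {U : Al M} (hU : IsProb U) : IsProb (Bq (1 / 2) U) :=
  hU.bq (by norm_num) (by norm_num)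
theorem Bit_comm (U : Al M) (n : ℕ) : Commute (Bq (1 / 2) U) (U ^ n) :=
  commute_Bq _ (Commute.self_pow U n)
theorem BitL.mul {U : Al M} (hU : IsProb U) {l l' : ℕ} {η η' : ℝ} (h : BitL U l η)
    (h' : BitL U l' η') : BitL U (l + l') (η * η') := by
  obtain ⟨μ, J, h0, h1, h2, h3⟩ := h
  obtain ⟨μ', J', h0', h1', h2', h3'⟩ := h'
  refine ⟨μ * U ^ l' + J * μ', J * J', (h0.mul (hU.1.pow _)).add (h1.mul h0'), h1.mul h1', ?_, ?_⟩
  · rw [pow_add, h2, add_mul, mul_assoc, (Bit_comm U l').eq]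
    nth_rewrite 2 [h2']
    noncomm_ring
  · rw [mass_mul]
    exact mul_le_mul h3 h3' h1'.mass_nonneg (h1.mass_nonneg.trans h3)
theorem BitR.mul {U : Al M} (hU : IsProb U) {l l' : ℕ} {η η' : ℝ} (h : BitR U l η)
    (h' : BitR U l' η') : BitR U (l + l') (η * η') := by
  obtain ⟨μ, J, h0, h1, h2, h3⟩ := h
  obtain ⟨μ', J', h0', h1', h2', h3'⟩ := h'
  refine ⟨U ^ l' * μ + μ' * J, J' * J, ((hU.1.pow _).mul h0).add (h0'.mul h1), h1'.mul h1, ?_, ?_⟩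
  · rw [add_comm l, pow_add, h2, mul_add, ← mul_assoc, ← (Bit_comm U l').eq]
    nth_rewrite 2 [h2']
    noncomm_ring
  · rw [mass_mul, mul_comm]
    exact mul_le_mul h3 h3' h1'.mass_nonneg (h1.mass_nonneg.trans h3)

/-- `ν = min X Y` pointwise (`ν = (X + Y - |X - Y|)/2`) -/
theorem ovl_of_l1 {X Y : Al M} (hX : IsProb X) (hY : IsProb Y) (h : l1 (X - Y) ≤ 1) :
    Ovl X Y (1 / 2) := by
  obtain ⟨Z, hZ⟩ : ∃ Z : Al M, ∀ τ, Z.coeff τ = |X.coeff τ - Y.coeff τ| :=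
    ⟨.ofCoeff ((X - Y).coeff.mapRange (|·|) abs_zero), fun τ => rfl⟩
  have hm : mass Z = l1 (X - Y) := by
    rw [mass_eq_sum Z (s := (X - Y).coeff.support) fun τ hτ => ?_]
    · exact sum_congr rfl fun τ _ => hZ τ
    · rw [Finsupp.mem_support_iff] at hτ ⊢
      rw [hZ, abs_ne_zero] at hτ
      exact hτ
  have hc : ∀ τ, ((1 / 2 : ℝ) • (X + Y - Z)).coeff τ =
      1 / 2 * (X.coeff τ + Y.coeff τ - |X.coeff τ - Y.coeff τ|) := fun τ => by
    rw [← hZ]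
    rfl
  refine ⟨(1 / 2 : ℝ) • (X + Y - Z), fun τ => ?_, fun τ => ?_, fun τ => ?_, ?_⟩
  · have := abs_sub (X.coeff τ) (Y.coeff τ)
    rw [abs_of_nonneg (hX.1 τ), abs_of_nonneg (hY.1 τ)] at this
    rw [hc]
    linarith
  · change 0 ≤ X.coeff τ - ((1 / 2 : ℝ) • (X + Y - Z)).coeff τ
    rw [hc]
    linarith [neg_abs_le (X.coeff τ - Y.coeff τ)]
  · change 0 ≤ Y.coeff τ - ((1 / 2 : ℝ) • (X + Y - Z)).coeff τ
    rw [hc]
    linarith [le_abs_self (X.coeff τ - Y.coeff τ)]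
  · rw [mass_smul, mass_sub, mass_add, hX.2, hY.2, hm]
    linarith
theorem Ovl.mul {X Y X' Y' : Al M} {c c' : ℝ} (hc : 0 ≤ c) (hc' : 0 ≤ c') (h : Ovl X Y c)
    (h' : Ovl X' Y' c') : Ovl (X * X') (Y * Y') (c * c') := by
  obtain ⟨ν, h0, h1, h2, h3⟩ := h
  obtain ⟨ν', h0', h1', h2', h3'⟩ := h'
  have key : ∀ {A A' : Al M}, NN (A - ν) → NN (A' - ν') → NN (A * A' - ν * ν') := fun {A A'} a a' => by
    have e : A * A' - ν * ν' = (A - ν) * (A' - ν' + ν') + ν * (A' - ν') := by noncomm_ring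
    rw [e]
    exact (a.mul (a'.add h0')).add (h0.mul a')
  refine ⟨ν * ν', h0.mul h0', key h1 h1', key h2 h2', ?_⟩
  rw [mass_mul]
  exact mul_le_mul h3 h3' hc' (hc.trans h3)
/-- `U^{r+1} = ν S + ρ` with `S = (1+U)/2`, `ρ = ((U^r - ν) U + (U^{r+1} - ν))/2` of mass `≤ 1 - c`;
induct on `J₀`: `U^{(J+1)(r+1)} = (μ S + ρ^J) U^{r+1} = (μ U^{r+1} + ρ^J ν) S + ρ^{J+1}`. -/
theorem bitL_of_ovl {U : Al M} (hU : IsProb U) {r : ℕ} {c : ℝ} (h : Ovl (U ^ r) (U ^ (r + 1)) c)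
    (J₀ : ℕ) : BitL U (J₀ * (r + 1)) ((1 - c) ^ J₀) := by
  obtain ⟨ν, h0, h1, h2, h3⟩ := h
  have h4 : BitL U (r + 1) (1 - c) := by
    refine ⟨ν, (1 / 2 : ℝ) • ((U ^ r - ν) * U + (U ^ (r + 1) - ν)), h0,
      ((h1.mul hU.1).add h2).smul (by norm_num), ?_, ?_⟩
    · rw [Bit_S, sub_mul, ← pow_succ, mul_add, mul_smul_comm, mul_smul_comm, mul_one]
      module
    · rw [mass_smul, mass_add, mass_mul, mass_sub, mass_sub, (hU.pow _).2, (hU.pow _).2, hU.2]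
      linarith
  induction J₀ with
  | zero => exact ⟨0, 1, NN.zero, NN.one, by simp, by simp [mass_one]⟩
  | succ J ih =>
    rw [add_one_mul, pow_succ]
    exact ih.mul hU h4
theorem bitR_of_ovl {U : Al M} (hU : IsProb U) {r : ℕ} {c : ℝ} (h : Ovl (U ^ r) (U ^ (r + 1)) c)
    (J₀ : ℕ) : BitR U (J₀ * (r + 1)) ((1 - c) ^ J₀) := by
  obtain ⟨ν, h0, h1, h2, h3⟩ := h
  have h4 : BitR U (r + 1) (1 - c) := by
    refine ⟨ν, (1 / 2 : ℝ) • (U * (U ^ r - ν) + (U ^ (r + 1) - ν)), h0,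
      ((hU.1.mul h1).add h2).smul (by norm_num), ?_, ?_⟩
    · rw [Bit_S, mul_sub, ← pow_succ', add_mul, smul_mul_assoc, smul_mul_assoc, one_mul]
      module
    · rw [mass_smul, mass_add, mass_mul, mass_sub, mass_sub, (hU.pow _).2, (hU.pow _).2, hU.2]
      linarith
  induction J₀ with
  | zero => exact ⟨0, 1, NN.zero, NN.one, by simp, by simp [mass_one]⟩
  | succ J ih =>
    rw [add_one_mul, pow_succ]
    exact ih.mul hU h4
theorem BitL.pow {U : Al M} (hU : IsProb U) {l : ℕ} {η : ℝ} (h : BitL U l η) (t : ℕ) :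
    ∃ μ J : Al M, NN μ ∧ mass μ ≤ 1 ∧ NN J ∧ U ^ (t * l) = μ * Bq (1 / 2) U ^ t + J ∧
      mass J ≤ t * η := by
  obtain ⟨μ, J, h0, h1, h2, h3⟩ := h
  have h4 : mass μ ≤ 1 := by
    have := (hU.pow l).2
    rw [h2, mass_add, mass_mul, (Bit_prob hU).2] at this
    linarith [h1.mass_nonneg]
  induction t with
  | zero => exact ⟨1, 0, NN.one, mass_one.le, NN.zero, by simp, by simp [mass_zero]⟩
  | succ t ih =>
    obtain ⟨μ', J', h0', h4', h1', h2', h3'⟩ := ih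
    refine ⟨μ' * μ, μ' * J * Bq (1 / 2) U ^ t + J' * U ^ l, h0'.mul h0, ?_,
      ((h0'.mul h1).mul ((Bit_prob hU).1.pow t)).add (h1'.mul (hU.1.pow l)), ?_, ?_⟩
    · rw [mass_mul]
      exact mul_le_one₀ h4' h0.mass_nonneg h4
    · rw [add_one_mul, pow_add, h2', add_mul, mul_assoc, ((Bit_comm U l).pow_left t).eq, pow_succ']
      nth_rewrite 1 [h2]
      noncomm_ring
    · rw [mass_add, mass_mul, mass_mul, mass_mul, ((Bit_prob hU).pow t).2, (hU.pow l).2]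
      push_cast
      nlinarith [h1.mass_nonneg]
theorem BitR.pow {U : Al M} (hU : IsProb U) {l : ℕ} {η : ℝ} (h : BitR U l η) (t : ℕ) :
    ∃ μ J : Al M, NN μ ∧ mass μ ≤ 1 ∧ NN J ∧ U ^ (t * l) = Bq (1 / 2) U ^ t * μ + J ∧
      mass J ≤ t * η := by
  obtain ⟨μ, J, h0, h1, h2, h3⟩ := h
  have h4 : mass μ ≤ 1 := by
    have := (hU.pow l).2
    rw [h2, mass_add, mass_mul, (Bit_prob hU).2] at this
    linarith [h1.mass_nonneg]
  induction t with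
  | zero => exact ⟨1, 0, NN.one, mass_one.le, NN.zero, by simp, by simp [mass_zero]⟩
  | succ t ih =>
    obtain ⟨μ', J', h0', h4', h1', h2', h3'⟩ := ih
    refine ⟨μ * μ', Bq (1 / 2) U ^ t * J * μ' + U ^ l * J', h0.mul h0', ?_,
      ((((Bit_prob hU).1.pow t).mul h1).mul h0').add ((hU.1.pow l).mul h1'), ?_, ?_⟩
    · rw [mass_mul]
      exact mul_le_one₀ h4 h0'.mass_nonneg h4'
    · rw [add_one_mul, add_comm (t * l), pow_add, h2', mul_add, ← mul_assoc,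
        ← ((Bit_comm U l).pow_left t).eq, pow_succ]
      nth_rewrite 1 [h2]
      noncomm_ring
    · rw [mass_add, mass_mul, mass_mul, mass_mul, ((Bit_prob hU).pow t).2, (hU.pow l).2]
      push_cast
      nlinarith [h1.mass_nonneg]
theorem BitL.shift {U : Al M} (hU : IsProb U) {l : ℕ} {η : ℝ} (h : BitL U l η) {t N : ℕ}
    (hN : t * l ≤ N) (j : ℕ) :
    l1 (U ^ (N + j) - U ^ N) ≤ j * (2 / √((t : ℝ) + 1) + 2 * (t * η)) := by
  obtain ⟨μ, J, h0, h1, h2, h3, h4⟩ := h.pow hU t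
  have h5 : l1 (U ^ (t * l) * (U - 1)) ≤ 2 / √((t : ℝ) + 1) + 2 * (t * η) := by
    have a1 := Bq_pow_smooth (θ := 1 / 2) (by norm_num) (by norm_num) hU t
    have e : 1 / √(((t : ℝ) + 1) * (1 / 2) * (1 - 1 / 2)) = 2 / √((t : ℝ) + 1) := by
      rw [show ((t : ℝ) + 1) * (1 / 2) * (1 - 1 / 2) = (t + 1) * (1 / 2) ^ 2 by ring,
        Real.sqrt_mul' _ (by positivity), Real.sqrt_sq (by norm_num)]
      field_simp
    have a2 := l1_mul_le μ (Bq (1 / 2) U ^ t * (U - 1))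
    have a3 := l1_mul_le J (U - 1)
    have a4 := l1_sub_le U 1
    rw [hU.l1_eq, IsProb.one.l1_eq] at a4
    rw [h0.l1_eq] at a2
    rw [h2.l1_eq] at a3
    rw [e] at a1
    rw [h3, add_mul, mul_assoc]
    refine (l1_add_le _ _).trans (add_le_add ?_ ?_)
    · exact a2.trans ((mul_le_of_le_one_left (l1_nonneg _) h1).trans a1)
    · nlinarith [h2.mass_nonneg]
  have h6 : ∀ n, t * l ≤ n → l1 (U ^ (n + 1) - U ^ n) ≤ 2 / √((t : ℝ) + 1) + 2 * (t * η) := by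
    intro n hn
    obtain ⟨d, rfl⟩ := Nat.exists_eq_add_of_le hn
    have e : U ^ (t * l + d + 1) - U ^ (t * l + d) = 1 * (U ^ (t * l) * (U - 1)) * U ^ d := by
      rw [one_mul, mul_sub, sub_mul, ← pow_succ, mul_one, ← pow_add, ← pow_add, add_right_comm]
    rw [e]
    exact (l1_mul_mul_le IsProb.one (hU.pow d) _).trans h5
  induction j with
  | zero => simp [l1_zero]
  | succ j ih =>
    have := l1_triangle (U ^ (N + j + 1)) (U ^ (N + j)) (U ^ N)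
    have := h6 (N + j) (by omega)
    rw [← add_assoc]
    push_cast
    linarith
/-- `ν = μ U + (J + J U)/2`, `Y = (J U - J)/2` -/
theorem BitL.nu {U : Al M} (hU : IsProb U) {l : ℕ} {η : ℝ} (h : BitL U l η) :
    ∃ ν Y : Al M, IsProb ν ∧ mass Y = 0 ∧ Dom Y ν ∧ l1 Y ≤ η ∧
      U ^ (l + 1) = (1 / 2 : ℝ) • ((ν - Y) * U) + (1 / 2 : ℝ) • (ν + Y) := by
  obtain ⟨μ, J, h0, h1, h2, h3⟩ := h
  have h4 := (hU.pow l).2
  rw [h2, mass_add, mass_mul, (Bit_prob hU).2] at h4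
  have h5 : Dom ((1 / 2 : ℝ) • (J * U - J)) ((1 / 2 : ℝ) • (J * U + J)) := by
    have := ((h1.mul hU.1).dom.sub h1.dom).smul (1 / 2)
    rwa [abs_of_nonneg (by norm_num)] at this
  refine ⟨μ * U + (1 / 2 : ℝ) • (J * U + J), (1 / 2 : ℝ) • (J * U - J),
    ⟨(h0.mul hU.1).add h5.nn, ?_⟩, ?_, h5.mono ?_, h5.l1_le.trans ?_, ?_⟩
  · rw [mass_add, mass_smul, mass_add, mass_mul, mass_mul, hU.2]
    linarith
  · rw [mass_smul, mass_sub, mass_mul, hU.2]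
    ring
  · rw [add_sub_cancel_right]
    exact h0.mul hU.1
  · rw [mass_smul, mass_add, mass_mul, hU.2]
    linarith
  · have e : μ * U + (1 / 2 : ℝ) • (J * U + J) - (1 / 2 : ℝ) • (J * U - J) = μ * U + J := by module
    rw [e, pow_succ, h2, Bit_S]
    simp only [mul_add, add_mul, mul_smul_comm, smul_mul_assoc, mul_one]
    module
/-- `J₀ = 5·2^J`, `(1-2^{-J})^{J₀} ≤ e^{-5} ≤ 1/60`, `t = 15` -/
theorem ovl_boost {U : Al M} (hU : IsProb U) {r J : ℕ}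
    (h : Ovl (U ^ r) (U ^ (r + 1)) ((1 / 2) ^ J)) :
    l1 (U ^ (75 * 2 ^ J * (r + 1) + 1) - U ^ (75 * 2 ^ J * (r + 1))) ≤ 1 := by
  have h1 := (bitL_of_ovl hU h (5 * 2 ^ J)).shift hU (t := 15) (N := 75 * 2 ^ J * (r + 1))
    (le_of_eq (by ring)) 1
  have h2 : (1 - (1 / 2 : ℝ) ^ J) ^ (5 * 2 ^ J) ≤ 1 / 60 := by
    have a1 : (1 - (1 / 2 : ℝ) ^ J) ^ (5 * 2 ^ J) ≤ Real.exp (-(1 / 2 : ℝ) ^ J) ^ (5 * 2 ^ J) :=
      pow_le_pow_left₀ (sub_nonneg.2 (pow_le_one₀ (by norm_num) (by norm_num)))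
        (Real.one_sub_le_exp_neg _) _
    have a2 : ((5 * 2 ^ J : ℕ) : ℝ) * -(1 / 2 : ℝ) ^ J = -((5 : ℕ) * 1) := by
      push_cast
      rw [one_div, inv_pow]
      field_simp
    rw [← Real.exp_nat_mul, a2, Real.exp_neg, Real.exp_nat_mul] at a1
    refine a1.trans ?_
    rw [one_div]
    refine inv_anti₀ (by norm_num) (le_trans ?_
      (pow_le_pow_left₀ (by norm_num) Real.exp_one_gt_d9.le 5))
    norm_num
  have h3 : √(((15 : ℕ) : ℝ) + 1) = 4 := by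
    rw [show ((15 : ℕ) : ℝ) + 1 = 4 ^ 2 by norm_num, Real.sqrt_sq (by norm_num)]
  rw [h3] at h1
  push_cast at h1
  linarith

end Crest.Agent.R300L
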