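import Crest.Agent.R300L.Piece
import Crest.Agent.R300L.Bit

/-!
# Slipping one period: the base overlap `2^{-O(1/q³)}`
-/

set_option autoImplicit false
open Finset

noncomputable section
namespace Crest.Agent.R300L

variable {M : Type} [Monoid M]

lemma Chain_pcs_succ (B a : Al M) (T α β m : ℕ) :
    pcs B a T α β (m + 1) = B ^ α * a * (B ^ T * a) ^ m * B ^ β := by
  rw [pcs, pr_succ', if_pos rfl, pr_eq_pow (a := B ^ T * a) fun j hj _ => by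
    rw [if_neg (by omega)]]

lemma pcs_mul (B a : Al M) {T α β α' β' n n' : ℕ} (hn : 1 ≤ n) (hn' : 1 ≤ n') (h : β + α' = T) :
    pcs B a T α β n * pcs B a T α' β' n' = pcs B a T α β' (n + n') := by
  obtain ⟨m, rfl⟩ : ∃ m, n = m + 1 := ⟨n - 1, by omega⟩
  obtain ⟨m', rfl⟩ : ∃ m, n' = m + 1 := ⟨n' - 1, by omega⟩
  rw [show m + 1 + (m' + 1) = (m + 1 + m') + 1 by ring, Chain_pcs_succ, Chain_pcs_succ,
    Chain_pcs_succ, pow_add, pow_succ, ← h, pow_add]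
  simp only [mul_assoc]
lemma pow_eq_pcs (B a : Al M) (P : ℕ) {r : ℕ} (hr : 1 ≤ r) :
    (B ^ P * a * B ^ (P + 1)) ^ r = pcs B a (2 * P + 1) P (P + 1) r := by
  have h1 : B ^ P * a * B ^ (P + 1) = pcs B a (2 * P + 1) P (P + 1) 1 := by
    rw [Chain_pcs_succ, pow_zero, mul_one]
  induction r, hr using Nat.le_induction with
  | base => rw [pow_one, h1]
  | succ r hr ih => rw [pow_succ, ih, h1, pcs_mul B a hr le_rfl (by omega)]
lemma isProb_pcs {B a : Al M} (hB : IsProb B) (ha : IsProb a) (T α β n : ℕ) :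
    IsProb (pcs B a T α β n) := by
  exact (IsProb.pr fun j _ _ => (hB.pow _).mul ha).mul (hB.pow _)

/-- abstract chain.  First half (`i < H`): pieces `(P+is, P+1-(i+1)s)` against `(P-is, P+1+(i+1)s)`;
middle: `(P+Hs, P+1+Hs, n)` against `(P-Hs, P+1-Hs, n+1)`; second half (`j < H`, `i = H-j`):
`(P-is, P+1+(i-1)s)` against `(P+is, P+1-(i-1)s)`.  `Ovl.mul`, `pcs_mul`. -/
theorem chain_abs {B a : Al M} (P H s n : ℕ) (hn : 1 ≤ n) (hHs : H * s ≤ P)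
    (hp : ∀ α β α' β', P ≤ α + H * s → α ≤ P + H * s → P ≤ α' + H * s → α' ≤ P + H * s →
      P + 1 ≤ β + H * s → β ≤ P + 1 + H * s → P + 1 ≤ β' + H * s → β' ≤ P + 1 + H * s →
      α' + β' = α + β + 2 * s →
      Ovl (pcs B a (2 * P + 1) α β n) (pcs B a (2 * P + 1) α' β' n) (1 / 2))
    (hm : Ovl (pcs B a (2 * P + 1) (P + H * s) (P + 1 + H * s) n)
      (pcs B a (2 * P + 1) (P - H * s) (P + 1 - H * s) (n + 1)) (1 / 2)) :
    Ovl ((B ^ P * a * B ^ (P + 1)) ^ ((2 * H + 1) * n))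
      ((B ^ P * a * B ^ (P + 1)) ^ ((2 * H + 1) * n + 1)) ((1 / 2) ^ (2 * H + 1)) := by
  have key : ∀ k i, i + k = H →
      Ovl (pcs B a (2 * P + 1) (P + i * s) (P + 1 + i * s) ((2 * k + 1) * n))
        (pcs B a (2 * P + 1) (P - i * s) (P + 1 - i * s) ((2 * k + 1) * n + 1))
        ((1 / 2) ^ (2 * k + 1)) := by
    intro k
    induction k with
    | zero =>
      intro i hi
      obtain rfl : i = H := by omega
      simpa using hm
    | succ k ih =>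
      intro i hi
      have h0 := ih (i + 1) (by omega)
      have h1 : i * s + s ≤ H * s := by
        rw [← Nat.succ_mul]
        exact Nat.mul_le_mul_right s (by omega)
      rw [Nat.succ_mul i s] at h0
      generalize i * s = u at *
      generalize H * s = v at *
      have h2 := hp (P + u) (P + 1 - (u + s)) (P - u) (P + 1 + (u + s)) (by omega) (by omega)
        (by omega) (by omega) (by omega) (by omega) (by omega) (by omega) (by omega)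
      have h3 := hp (P - (u + s)) (P + 1 + u) (P + (u + s)) (P + 1 - u) (by omega) (by omega)
        (by omega) (by omega) (by omega) (by omega) (by omega) (by omega) (by omega)
      have h4 := (h2.mul (by positivity) (by positivity) h0).mul (by positivity) (by positivity) h3
      have h5 : 1 ≤ (2 * k + 1) * n := Nat.mul_pos (by omega) hn
      rw [pcs_mul B a hn h5 (by omega), pcs_mul B a (by omega) hn (by omega),
        pcs_mul B a hn (by omega) (by omega), pcs_mul B a (by omega) hn (by omega)] at h4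
      convert h4 using 2 <;> ring
  have h := key H 0 (by omega)
  have h5 : 1 ≤ (2 * H + 1) * n := Nat.mul_pos (by omega) hn
  rw [pow_eq_pcs B a P h5, pow_eq_pcs B a P (by omega)]
  simpa using h

/-- comparison of two pieces through their mark-free references -/
lemma Chain_cmp {q : ℝ} (hq : 0 < q) (hq2 : q ≤ 1 / 2) {μ o : Al M} (hμ : IsProb μ)
    (ho : IsProb o) (hdom : Dom (o - μ) ((2 / q) • μ)) {T α β n α' β' n' t₀ : ℕ} (hn1 : 1 ≤ n)
    (hn1' : 1 ≤ n') (hn : ((n : ℝ) + 1) * 10 ^ 13 ≤ q ^ 4 * T)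
    (hn' : ((n' : ℝ) + 1) * 10 ^ 13 ≤ q ^ 4 * T)
    (h : (T ≤ 5 * α ∧ α ≤ T ∧ T ≤ 5 * β ∧ β ≤ T) ∧ T ≤ 5 * α' ∧ α' ≤ T ∧ T ≤ 5 * β' ∧ β' ≤ T)
    (ht : t₀ ≤ α + (n - 1) * T + β) (ht' : t₀ ≤ α' + (n' - 1) * T + β') {A : ℝ}
    (hA : A ^ 2 ≤ (t₀ + 1) * (1 - q ^ 2) * (1 - (1 - q ^ 2)))
    (hD : |(n : ℝ) - n'| + |((α + (n - 1) * T + β : ℕ) : ℝ) - (α' + (n' - 1) * T + β' : ℕ)| ≤ A / 2) :
    Ovl (pcs (Bq (1 - q ^ 2) μ) (Bq (1 - q) o) T α β n)
      (pcs (Bq (1 - q ^ 2) μ) (Bq (1 - q) o) T α' β' n') (1 / 2) := by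
  obtain ⟨⟨a1, a2, a3, a4⟩, b1, b2, b3, b4⟩ := h
  have hq1 : 0 < q ^ 2 := by positivity
  have hq3 : q ^ 2 < 1 := by nlinarith
  have hB := hμ.bq (θ := 1 - q ^ 2) (by linarith) (by linarith)
  have ha := ho.bq (θ := 1 - q) (by linarith) (by linarith)
  have h1 := piece hq hq2 hμ ho hdom hn1 hn a1 a2 a3 a4
  have h2 := piece hq hq2 hμ ho hdom hn1' hn' b1 b2 b3 b4
  have h3 := ref_compare (θ := 1 - q ^ 2) (by linarith) (by linarith) (θ' := 1 - q) (by linarith)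
    (by linarith) hμ (n := n) (n' := n') ht ht'
  have h4 : 0 < √(((t₀ : ℝ) + 1) * (1 - q ^ 2) * (1 - (1 - q ^ 2))) :=
    Real.sqrt_pos.2 (mul_pos (mul_pos (by positivity) (by linarith)) (by linarith))
  have h5 := h3.trans ((div_le_iff₀ h4).2 (hD.trans
    (show A / 2 ≤ 1 / 2 * _ by linarith [Real.le_sqrt_of_sq_le hA])))
  rw [l1_sub_comm] at h2
  exact ovl_of_l1 (isProb_pcs hB ha _ _ _ _) (isProb_pcs hB ha _ _ _ _)
    ((l1_triangle _ _ _).trans (by linarith [(l1_triangle _ _ _).trans (add_le_add h5 h2)]))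

/-- the numerical choices -/
lemma Chain_num {q : ℝ} (hq : 0 < q) (hq2 : q ≤ 1 / 2) {P : ℕ} (hP : 10 ^ 16 ≤ q ^ 6 * P) :
    ∃ (H m : ℕ) (A : ℝ), 0 < H ∧ 5 ≤ P ∧ ((m : ℝ) + 3) * 10 ^ 13 ≤ q ^ 4 * (2 * P + 1 : ℕ) ∧
      A ^ 2 ≤ ((m * (2 * P + 1) : ℕ) + 1) * (1 - q ^ 2) * (1 - (1 - q ^ 2)) ∧
      ((2 * P + 1 : ℕ) : ℝ) ≤ H * A ∧ 8 * (H : ℝ) ≤ A ∧ (2 * H + 1) * (m + 1) + 1 ≤ 2 * P + 1 ∧
      ((2 * H + 1 : ℕ) : ℝ) ≤ 3 * 10 ^ 8 / q ^ 3 := by
  have hq1 : q ^ 2 ≤ 1 / 4 := by nlinarith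
  have hq3 : q ^ 3 ≤ 1 / 8 := by nlinarith
  have hq30 : 0 < q ^ 3 := by positivity
  have hP0 : (0 : ℝ) ≤ P := by positivity
  have hq4 : 4 * (q ^ 6 * P) ≤ q ^ 4 * P := by
    have : 0 ≤ q ^ 4 * P := by positivity
    nlinarith
  have hP5 : (5 : ℝ) ≤ P := by
    have h1 : q ^ 4 ≤ 1 := pow_le_one₀ hq.le (by linarith)
    nlinarith
  set T : ℝ := ((2 * P + 1 : ℕ) : ℝ) with hT
  have hT' : T = 2 * P + 1 := by rw [hT]; push_cast; ring
  have hT0 : 0 < T := by linarith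
  have h6 : 2 * 10 ^ 16 ≤ q ^ 6 * T := by
    have : 0 ≤ q ^ 6 := by positivity
    rw [hT']
    nlinarith
  have h4 : 8 * 10 ^ 16 ≤ q ^ 4 * T := by
    have : 0 ≤ q ^ 4 := by positivity
    rw [hT']
    nlinarith
  obtain ⟨m, hm⟩ : ∃ m, ⌊q ^ 4 * T / 10 ^ 13⌋₊ = m + 3 :=
    ⟨_, (Nat.sub_add_cancel (Nat.le_floor (by push_cast; linarith))).symm⟩
  have hm1 : (m : ℝ) + 3 ≤ q ^ 4 * T / 10 ^ 13 := by
    have := Nat.floor_le (show 0 ≤ q ^ 4 * T / 10 ^ 13 by positivity)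
    rw [hm] at this
    exact_mod_cast this
  have hm2 : q ^ 4 * T / 10 ^ 13 < m + 4 := by
    have := Nat.lt_floor_add_one (q ^ 4 * T / 10 ^ 13)
    rw [hm] at this
    push_cast at this
    linarith
  set H := ⌈10 ^ 8 / q ^ 3⌉₊ with hH
  have hH1 : 10 ^ 8 ≤ H * q ^ 3 := (div_le_iff₀ hq30).1 (Nat.le_ceil _)
  have hH2 : H * q ^ 3 ≤ 10 ^ 8 + 1 := by
    have h1 : (H : ℝ) ≤ 10 ^ 8 / q ^ 3 + 1 := (Nat.ceil_lt_add_one (by positivity)).le
    have h2 := mul_le_mul_of_nonneg_right h1 hq30.le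
    rw [add_mul, div_mul_cancel₀ _ hq30.ne'] at h2
    linarith
  have hJ : ((2 * H + 1 : ℕ) : ℝ) * q ^ 3 ≤ 3 * 10 ^ 8 := by
    push_cast
    linarith
  refine ⟨H, m, q ^ 3 * T / 10 ^ 7, Nat.ceil_pos.2 (by positivity), by exact_mod_cast hP5,
    by linarith, ?_, ?_, ?_, ?_, (le_div_iff₀ hq30).2 hJ⟩
  · rw [Nat.cast_mul, ← hT]
    have h1 : q ^ 4 * T / (2 * 10 ^ 13) ≤ m := by linarith
    have h2 : q ^ 4 * T / (2 * 10 ^ 13) * T * (3 / 4) * q ^ 2 ≤ (m * T + 1) * (1 - q ^ 2) * q ^ 2 := by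
      refine mul_le_mul_of_nonneg_right (mul_le_mul ?_ (by linarith) (by norm_num)
        (by positivity)) (by positivity)
      linarith [mul_le_mul_of_nonneg_right h1 hT0.le]
    have h3 : 0 ≤ q ^ 6 * T ^ 2 := by positivity
    rw [sub_sub_cancel]
    refine le_trans ?_ h2
    calc _ = q ^ 6 * T ^ 2 / 10 ^ 14 := by ring
      _ ≤ q ^ 6 * T ^ 2 * (3 / (8 * 10 ^ 13)) := by linarith
      _ = _ := by ring
  · have h1 := mul_le_mul_of_nonneg_right hH1 hT0.le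
    calc T ≤ H * q ^ 3 * T / 10 ^ 7 := by linarith
      _ = _ := by ring
  · refine le_of_mul_le_mul_right ?_ hq30
    calc _ = 8 * (H * q ^ 3) := by ring
      _ ≤ q ^ 6 * T / 10 ^ 7 := by linarith
      _ = _ := by ring
  · have h1 : ((2 * H + 1 : ℕ) : ℝ) * q ^ 3 * (m + 1) ≤ 3 * 10 ^ 8 * (q ^ 4 * T / 10 ^ 13) :=
      mul_le_mul hJ (by linarith) (by positivity) (by positivity)
    have h2 : ((2 * H + 1 : ℕ) : ℝ) * (m + 1) ≤ 3 / 10 ^ 5 * (q * T) := by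
      refine le_of_mul_le_mul_right ?_ hq30
      calc _ = ((2 * H + 1 : ℕ) : ℝ) * q ^ 3 * (m + 1) := by ring
        _ ≤ _ := h1
        _ = _ := by ring
    have h3 : q * T ≤ T := mul_le_of_le_one_left hT0.le (by linarith)
    have h4 : ((2 * H + 1 : ℕ) : ℝ) * (m + 1) + 1 ≤ T := by linarith
    rw [hT] at h4
    exact_mod_cast h4

/-- `T = 2P+1`, `H = ⌈10^8/q³⌉`, `s = T/(4H)`, `n = ⌊q⁴T/10^13⌋ - 2`; each comparison is `piece` twice
and `ref_compare` with `t₀ = (n-1)T ≥ q⁴T²/(2·10^13)`, i.e. cost `≤ 5.2·10^6/(q³T)` per unit of shift;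
shifts `2s ≤ q³T/(2·10^8)` and (middle) `≤ 4H+1`; `ovl_of_l1`. -/
theorem base_ovl {q : ℝ} (hq : 0 < q) (hq2 : q ≤ 1 / 2) {μ o : Al M} (hμ : IsProb μ)
    (ho : IsProb o) (hdom : Dom (o - μ) ((2 / q) • μ)) {P : ℕ} (hP : 10 ^ 16 ≤ q ^ 6 * P) :
    ∃ r J : ℕ, r + 1 ≤ 2 * P + 1 ∧ (J : ℝ) ≤ 3 * 10 ^ 8 / q ^ 3 ∧
      Ovl ((Bq (1 - q ^ 2) μ ^ P * Bq (1 - q) o * Bq (1 - q ^ 2) μ ^ (P + 1)) ^ r)
        ((Bq (1 - q ^ 2) μ ^ P * Bq (1 - q) o * Bq (1 - q ^ 2) μ ^ (P + 1)) ^ (r + 1))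
        ((1 / 2) ^ J) := by
  obtain ⟨H, m, A, hH, hP5, hm, hA, h1, h2, h3, h4⟩ := Chain_num hq hq2 hP
  have hH0 : (0 : ℝ) < H := by exact_mod_cast hH
  obtain ⟨s, hs⟩ : ∃ s, s = (2 * P + 1) / (4 * H) := ⟨_, rfl⟩
  have hs1 : 4 * (H * s) ≤ 2 * P + 1 := by
    rw [← mul_assoc, hs]
    exact Nat.mul_div_le _ _
  have hs2 : 2 * P + 1 < 4 * (H * s) + 4 * H := by
    rw [← mul_assoc, hs]
    exact Nat.lt_mul_div_succ _ (by omega)
  refine ⟨(2 * H + 1) * (m + 1), 2 * H + 1, h3, h4, chain_abs P H s (m + 1) (by omega) (by omega)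
    (fun α β α' β' _ _ _ _ _ _ _ _ he => ?_) ?_⟩
  · refine Chain_cmp hq hq2 hμ ho hdom (by omega) (by omega) (by push_cast at hm ⊢; linarith)
      (by push_cast at hm ⊢; linarith) (by omega) (by simp; omega) (by simp; omega) hA ?_
    rw [show α' + (m + 1 - 1) * (2 * P + 1) + β' = α + (m + 1 - 1) * (2 * P + 1) + β + 2 * s by
      omega, Nat.cast_add _ (2 * s), sub_self, sub_add_cancel_left, abs_neg, abs_zero,
      Nat.abs_cast]
    have h5 : (4 * (H * s) : ℝ) ≤ (2 * P + 1 : ℕ) := by exact_mod_cast hs1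
    have h6 : 4 * (s : ℝ) ≤ A := le_of_mul_le_mul_left (by linarith) hH0
    push_cast
    linarith
  · obtain ⟨d, hd⟩ : ∃ d, 2 * P + 1 = 4 * (H * s) + d := ⟨_, (Nat.add_sub_cancel' hs1).symm⟩
    refine Chain_cmp hq hq2 hμ ho hdom (by omega) (by omega) (by push_cast at hm ⊢; linarith)
      (by push_cast at hm ⊢; linarith) (by omega) (by simp; omega)
      (by rw [Nat.add_sub_cancel, Nat.succ_mul m]; omega) hA ?_
    rw [show P - H * s + (m + 1 + 1 - 1) * (2 * P + 1) + (P + 1 - H * s) =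
      P + H * s + (m + 1 - 1) * (2 * P + 1) + (P + 1 + H * s) + d by
        rw [Nat.add_sub_cancel, Nat.add_sub_cancel, Nat.succ_mul m]; omega,
      Nat.cast_add _ d, Nat.cast_add_one (m + 1), sub_add_cancel_left, sub_add_cancel_left, abs_neg,
      abs_neg, abs_one, Nat.abs_cast]
    have h5 : (1 + d : ℝ) ≤ 4 * H := by exact_mod_cast (show 1 + d ≤ 4 * H by omega)
    linarith

end Crest.Agent.R300L
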