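import Crest.Agent.R300L.ChaosP

/-!
# Window operators
-/

set_option autoImplicit false
open Finset

noncomputable section
namespace Crest.Agent.R300L

variable {M : Type} [Monoid M] {p : ℕ}

lemma Wd_eq_sum (U D : Al M) {K : ℕ} {η : Finset ℕ} (hη : η ⊆ range K) :
    Wd U D K η = ∑ S ∈ η.powerset, ins U D K S := by
  unfold Wd ins
  exact pr_expand_on (fun _ => U) (fun _ => D) K hη
lemma Win_Wd_ind (U D : Al M) {K : ℕ} {η : Finset ℕ} (hη : η ⊆ range K) :
    Wd U D K η = ∑ S ∈ (range K).powerset, (if S ⊆ η then (1 : ℝ) else 0) • ins U D K S := by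
  rw [Wd_eq_sum U D hη]
  have h : η.powerset = (range K).powerset.filter (· ⊆ η) := by
    ext S
    simp only [mem_powerset, mem_filter]
    exact ⟨fun h => ⟨h.trans hη, h⟩, fun h => h.2⟩
  rw [h, sum_filter]
  refine sum_congr rfl fun S _ => ?_
  split_ifs <;> simp

lemma Wd_eq (U D : Al M) {K : ℕ} {η : Finset ℕ} (hη : η ⊆ range K) :
    Wd U D K η = U ^ K + Wop U D K (cu η) := by
  rw [Win_Wd_ind U D hη, Wop, ← ins_empty U D K]
  have h0 : (∅ : Finset ℕ) ∈ (range K).powerset := by simp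
  have h1 : ins U D K ∅ =
      ∑ S ∈ (range K).powerset, (if S = ∅ then (1 : ℝ) else 0) • ins U D K S := by
    rw [sum_eq_single_of_mem ∅ h0]
    · simp
    · intro S _ hS
      simp [hS]
  rw [h1, ← sum_add_distrib]
  refine sum_congr rfl fun S _ => ?_
  rw [← add_smul]
  congr 1
  unfold cu
  by_cases hS : S = ∅
  · subst hS
    simp
  · have hne : S.Nonempty := nonempty_iff_ne_empty.2 hS
    simp [hS, hne]
/-- split the subsets by cardinality `0`, `1`, `≥ 2` -/
lemma Wd_sub (U D : Al M) {K : ℕ} {η η' : Finset ℕ} (hη : η ⊆ range K) (hη' : η' ⊆ range K) :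
    Wd U D K η' - Wd U D K η = Wop U D K (cd η η') + lin U D K η η' := by
  rw [Win_Wd_ind U D hη, Win_Wd_ind U D hη', ← sum_sub_distrib, Wop]
  have hlin : lin U D K η η' = ∑ S ∈ (range K).powerset,
      (if S.card = 1 then (if S ⊆ η' then (1 : ℝ) else 0) - (if S ⊆ η then 1 else 0) else 0) •
        ins U D K S := by
    have h1 : ∀ S ∈ (range K).powerset,
        (if S.card = 1 then (if S ⊆ η' then (1 : ℝ) else 0) - (if S ⊆ η then 1 else 0) else 0) •
          ins U D K S =
        if S.card = 1 then ((if S ⊆ η' then (1 : ℝ) else 0) - (if S ⊆ η then 1 else 0)) •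
          ins U D K S else 0 := by
      intro S _
      split_ifs <;> simp
    rw [sum_congr rfl h1, ← sum_filter, ← powersetCard_eq_filter, powersetCard_one, sum_map, lin]
    refine sum_congr rfl fun j hj => ?_
    simp only [Function.Embedding.coeFn_mk, singleton_subset_iff]
    rw [ins_singleton U D (mem_range.1 hj)]
  rw [hlin, ← sum_add_distrib]
  refine sum_congr rfl fun S _ => ?_
  rw [← sub_smul, ← add_smul]
  congr 1
  unfold cd
  by_cases h2 : 2 ≤ S.card
  · have h1 : S.card ≠ 1 := by omega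
    rw [if_pos h2, if_neg h1, add_zero]
  · by_cases h1 : S.card = 1
    · rw [if_neg h2, if_pos h1, zero_add]
    · have h0 : S = ∅ := card_eq_zero.1 (by omega)
      subst h0
      simp
lemma isProb_Wd {U D : Al M} (hU : IsProb U) (hV : IsProb (U + D)) (K : ℕ) (η : Finset ℕ) :
    IsProb (Wd U D K η) := by
  unfold Wd
  refine IsProb.pr fun j _ _ => ?_
  split_ifs
  · exact hV
  · exact hU
lemma mass_Wop (U : Al M) {D : Al M} (hD : mass D = 0) (K : ℕ) {coef : Finset ℕ → ℝ}
    (h0 : coef ∅ = 0) : mass (Wop U D K coef) = 0 := by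
  unfold Wop
  rw [mass_sum]
  refine sum_eq_zero fun S hS => ?_
  rw [mass_smul]
  rcases S.eq_empty_or_nonempty with rfl | hne
  · rw [h0, zero_mul]
  · rw [mass_ins U hD (mem_powerset.1 hS) hne, mul_zero]
lemma cu_empty (η : Finset ℕ) : cu η ∅ = 0 := by
  simp [cu]
lemma cd_empty (η η' : Finset ℕ) : cd η η' ∅ = 0 := by
  simp [cd]
lemma abs_cu_le (η S : Finset ℕ) : |cu η S| ≤ 1 := by
  unfold cu
  split_ifs <;> simp
lemma abs_cd_le (η η' S : Finset ℕ) : |cd η η' S| ≤ 1 := by
  unfold cd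
  split_ifs <;> simp
lemma Win_sum_pow (K : ℕ) (x : ℝ) :
    ∑ S ∈ (range K).powerset, x ^ S.card = (1 + x) ^ K := by
  have h := Finset.sum_pow_mul_eq_add_pow x 1 (range K)
  simp only [one_pow, mul_one, card_range] at h
  rw [h, add_comm]
lemma Win_pow_le_exp (K : ℕ) {x : ℝ} (hx : 0 ≤ x) : (1 + x) ^ K ≤ Real.exp (K * x) := by
  rw [Real.exp_nat_mul]
  refine pow_le_pow_left₀ (by positivity) ?_ K
  have := Real.add_one_le_exp x
  linarith

/-- `∑_{S ≠ ∅} x^|S| = (1+x)^K - 1 ≤ 2Kx` -/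
lemma sum_nonempty_le {K : ℕ} {x : ℝ} (hx : 0 ≤ x) (h : K * x ≤ 1) {coef : Finset ℕ → ℝ}
    (h0 : coef ∅ = 0) (h1 : ∀ S, |coef S| ≤ 1) :
    ∑ S ∈ (range K).powerset, |coef S| * x ^ S.card ≤ 2 * (K * x) := by
  have hKx : 0 ≤ (K : ℝ) * x := by positivity
  have h2 : ∑ S ∈ (range K).powerset, |coef S| * x ^ S.card ≤
      ∑ S ∈ (range K).powerset, (x ^ S.card - if S = ∅ then 1 else 0) := by
    refine sum_le_sum fun S _ => ?_
    by_cases hS : S = ∅
    · subst hS
      simp [h0]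
    · rw [if_neg hS, sub_zero]
      exact mul_le_of_le_one_left (by positivity) (h1 S)
  rw [sum_sub_distrib, Win_sum_pow, sum_ite_eq' , if_pos (by simp)] at h2
  have h3 := Win_pow_le_exp K hx
  have h4 := Real.abs_exp_sub_one_le (x := K * x) (by rw [abs_of_nonneg hKx]; exact h)
  rw [abs_of_nonneg hKx] at h4
  have h5 := le_abs_self (Real.exp (K * x) - 1)
  linarith
/-- `(1+x)^K - 1 - Kx ≤ (Kx)²` -/
lemma sum_cd_le {K : ℕ} {x : ℝ} (hx : 0 ≤ x) (h : K * x ≤ 1) (η η' : Finset ℕ) :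
    ∑ S ∈ (range K).powerset, |cd η η' S| * x ^ S.card ≤ (K * x) ^ 2 := by
  have hKx : 0 ≤ (K : ℝ) * x := by positivity
  have h2 : ∑ S ∈ (range K).powerset, |cd η η' S| * x ^ S.card ≤
      ∑ S ∈ (range K).powerset,
        (x ^ S.card - (if S = ∅ then 1 else 0) - if S.card = 1 then x else 0) := by
    refine sum_le_sum fun S _ => ?_
    by_cases hS : S = ∅
    · subst hS
      simp [cd_empty]
    · by_cases h1 : S.card = 1
      · have : cd η η' S = 0 := by
          unfold cd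
          rw [if_neg (by omega)]
        rw [this, if_neg hS, if_pos h1, h1]
        simp
      · rw [if_neg hS, if_neg h1, sub_zero, sub_zero]
        exact mul_le_of_le_one_left (by positivity) (abs_cd_le η η' S)
  rw [sum_sub_distrib, sum_sub_distrib, Win_sum_pow, sum_ite_eq' , if_pos (by simp),
    ← sum_filter, ← powersetCard_eq_filter, sum_const, card_powersetCard, card_range,
    Nat.choose_one_right, nsmul_eq_mul] at h2
  have h3 := Win_pow_le_exp K hx
  have h4 := Real.abs_exp_sub_one_sub_id_le (x := K * x) (by rw [abs_of_nonneg hKx]; exact h)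
  have h5 := le_abs_self (Real.exp (K * x) - 1 - K * x)
  linarith
lemma Win_sq_le_abs {a : ℝ} (h : |a| ≤ 1) : a ^ 2 ≤ |a| := by
  rw [← sq_abs, sq]
  exact mul_le_of_le_one_left (abs_nonneg a) h

lemma sum_cu_sq_le {K : ℕ} {x : ℝ} (hx : 0 ≤ x) (h : K * x ≤ 1) (η : Finset ℕ) :
    ∑ S ∈ (range K).powerset, cu η S ^ 2 * x ^ S.card ≤ 2 * (K * x) := by
  refine le_trans (sum_le_sum fun S _ => ?_) (sum_nonempty_le hx h (cu_empty η) (abs_cu_le η))
  exact mul_le_mul_of_nonneg_right (Win_sq_le_abs (abs_cu_le η S)) (by positivity)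
lemma sum_cd_sq_le {K : ℕ} {x : ℝ} (hx : 0 ≤ x) (h : K * x ≤ 1) (η η' : Finset ℕ) :
    ∑ S ∈ (range K).powerset, cd η η' S ^ 2 * x ^ S.card ≤ (K * x) ^ 2 := by
  refine le_trans (sum_le_sum fun S _ => ?_) (sum_cd_le hx h η η')
  exact mul_le_mul_of_nonneg_right (Win_sq_le_abs (abs_cd_le η η' S)) (by positivity)
lemma dom_Wop {U D : Al M} (hU : NN U) {ε : ℝ} (hD : Dom D (ε • U)) (K : ℕ)
    (coef : Finset ℕ → ℝ) :
    Dom (Wop U D K coef) ((∑ S ∈ (range K).powerset, |coef S| * ε ^ S.card) • U ^ K) := by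
  unfold Wop
  rw [sum_smul]
  refine Dom.sum fun S hS => ?_
  rw [mul_smul]
  exact (dom_ins hU hD (mem_powerset.1 hS)).smul _
/-- `W_η ≥ (1-ε)^K U^K ≥ U^K/2` -/
lemma pow_le_Wd {U D : Al M} (hU : NN U) {ε : ℝ} (hε : 0 ≤ ε) (hD : Dom D (ε • U)) {K : ℕ}
    (h : K * ε ≤ 1 / 2) (η : Finset ℕ) : NN ((2 : ℝ) • Wd U D K η - U ^ K) := by
  rcases Nat.eq_zero_or_pos K with rfl | hK
  · have : (2 : ℝ) • Wd U D 0 η - U ^ 0 = 1 := by
      unfold Wd
      rw [pr_zero, pow_zero, two_smul, add_sub_cancel_right]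
    rw [this]
    exact NN.one
  have hK1 : (1 : ℝ) ≤ K := by exact_mod_cast hK
  have hε1 : ε ≤ 1 / 2 := le_trans (le_mul_of_one_le_left hε hK1) h
  have hn : NN ((1 - ε) • U) := hU.smul (by linarith)
  have hd : Dom (pr (fun _ => (1 - ε) • U) 0 K) (Wd U D K η) := by
    unfold Wd
    refine Dom.pr fun j _ _ => hn.dom.mono ?_
    split_ifs
    · have : U + D - (1 - ε) • U = ε • U + D := by
        rw [sub_smul, one_smul]
        abel
      rw [this]
      exact hD.nn_add
    · have : U - (1 - ε) • U = ε • U := by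
        rw [sub_smul, one_smul]
        abel
      rw [this]
      exact hU.smul hε
  rw [pr_const, smul_pow] at hd
  have hb : 1 + (K : ℝ) * (-ε) ≤ (1 + -ε) ^ K := one_add_mul_le_pow (by linarith) K
  have hc : 0 ≤ 2 * (1 - ε) ^ K - 1 := by
    rw [sub_eq_add_neg 1 ε]
    linarith
  have he : (2 : ℝ) • Wd U D K η - U ^ K =
      (2 : ℝ) • (Wd U D K η - (1 - ε) ^ K • U ^ K) + (2 * (1 - ε) ^ K - 1) • U ^ K := by
    rw [smul_sub, sub_smul, one_smul, mul_smul]
    abel
  rw [he]
  exact (hd.nn_sub.smul (by norm_num)).add ((hU.pow K).smul hc)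

/-- a superposition of shifted windows as a family indexed by (offset, nonempty subset) -/
lemma win_sum (U D : Al M) (K b N : ℕ) {coef : Finset ℕ → ℝ} (h0 : coef ∅ = 0) (c : ℕ → ℝ)
    (hN : K + b ≤ N) :
    ∑ o ∈ Icc b (N - K - b), c o • (U ^ o * Wop U D K coef * U ^ (N - K - o)) =
      ∑ a ∈ Icc b (N - K - b) ×ˢ (range K).powerset.erase ∅,
        (c a.1 * coef a.2) • ins U D N (a.2.image (· + a.1)) := by
  rw [sum_product]
  refine sum_congr rfl fun o ho => ?_
  have ho' : o + K ≤ N := by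
    have := (mem_Icc.1 ho).2
    omega
  unfold Wop
  rw [mul_sum, sum_mul, smul_sum, sum_erase _ (by simp [h0])]
  refine sum_congr rfl fun S hS => ?_
  rw [mul_smul_comm, smul_mul_assoc, ins_shift U D (mem_powerset.1 hS) ho', mul_smul]
/-- a nonempty shifted set comes from at most `K` offsets -/
lemma win_mult (K : ℕ) (s : Finset ℕ) {a : ℕ × Finset ℕ}
    (ha : a ∈ s ×ˢ (range K).powerset.erase ∅) :
    ((s ×ˢ (range K).powerset.erase ∅).filter
      fun a' => a'.2.image (· + a'.1) = a.2.image (· + a.1)).card ≤ K := by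
  obtain ⟨x, hx⟩ : a.2.Nonempty :=
    nonempty_iff_ne_empty.2 (mem_erase.1 (mem_product.1 ha).2).1
  have key : ∀ a' ∈ (s ×ˢ (range K).powerset.erase ∅).filter
      (fun a' => a'.2.image (· + a'.1) = a.2.image (· + a.1)),
      a'.1 ≤ x + a.1 ∧ x + a.1 - a'.1 < K := by
    intro a' ha'
    obtain ⟨h1, h2⟩ := mem_filter.1 ha'
    have h3 : x + a.1 ∈ a'.2.image (· + a'.1) := by
      rw [h2]
      exact mem_image_of_mem _ hx
    obtain ⟨y, hy, hy'⟩ := mem_image.1 h3
    have h4 := mem_range.1 (mem_powerset.1 (mem_erase.1 (mem_product.1 h1).2).2 hy)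
    omega
  refine le_trans (card_le_card_of_injOn (t := range K) (fun a' => x + a.1 - a'.1) ?_ ?_)
    (card_range K).le
  · intro a' ha'
    exact mem_coe.2 (mem_range.2 (key a' ha').2)
  · intro a' ha' a'' ha'' he
    have h1 := key a' ha'
    have h2 := key a'' ha''
    have h3 : a'.1 = a''.1 := by
      simp only at he
      omega
    have h4 := (mem_filter.1 ha').2.trans (mem_filter.1 ha'').2.symm
    rw [h3] at h4
    exact Prod.ext h3 (image_injective (add_left_injective a''.1) h4)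
/-- Bessel inequality from a single-vector bound (`chaos1`, `win_sum`, `win_mult`) -/
theorem bes_of_single (hp : Even p) (hp2 : 2 ≤ p) {U D : Al M} (hU : IsProb U) (hD0 : mass D = 0)
    {δ : ℝ} (hD : Nb p U D δ) (K b N : ℕ) (hN : K + b ≤ N) {coef : Finset ℕ → ℝ}
    (h0 : coef ∅ = 0) :
    Bes p U (Wop U D K coef) K b N
      (K * ∑ S ∈ (range K).powerset, coef S ^ 2 * (3 * p * δ ^ 2) ^ S.card) := by
  intro c
  rw [win_sum U D K b N h0 c hN]
  have h := chaos1 hp hp2 hU hD0 hD N (Icc b (N - K - b) ×ˢ (range K).powerset.erase ∅)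
    (fun a => a.2.image (· + a.1)) ?_ (fun a => c a.1 * coef a.2) K ?_
  · refine h.mono (le_of_eq ?_)
    congr 1
    rw [sum_product, mul_sum]
    refine sum_congr rfl fun o _ => ?_
    beta_reduce
    rw [sum_erase _ (by simp [h0]), mul_assoc (K : ℝ), sum_mul]
    congr 1
    refine sum_congr rfl fun S _ => ?_
    rw [card_image_of_injective _ (add_left_injective o)]
    ring
  · intro a ha y hy
    obtain ⟨z, hz, rfl⟩ := mem_image.1 hy
    have h1 := mem_range.1 (mem_powerset.1 (mem_erase.1 (mem_product.1 ha).2).2 hz)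
    have h2 := (mem_Icc.1 (mem_product.1 ha).1).2
    exact mem_range.2 (by omega)
  · intro a ha
    exact_mod_cast win_mult K _ ha

/-- expanding the spectators: `nextU = U^P (U^K + E^u) U^P` (`pr_expand_on`-like) -/
lemma ins_next (U D : Al M) (G : PP) {η : Finset ℕ} (η' : Finset ℕ) (hη : η ⊆ range G.K)
    {S : Finset ℕ} (hS : S ⊆ range G.N) :
    ins (nextU U D G.K G.P η) (nextD U D G.K G.P η η') G.N S =
      ∑ R ∈ (range G.N \ S).powerset,
        G.Tb U (fun t => if t then Wop U D G.K (cd η η') else Wop U D G.K (cu η)) (S, R) := by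
  have h := pr_expand_on
    (fun j => if j ∈ S then nextD U D G.K G.P η η' else U ^ G.P * U ^ G.K * U ^ G.P)
    (fun _ => U ^ G.P * Wop U D G.K (cu η) * U ^ G.P) G.N (T := range G.N \ S) sdiff_subset
  refine Eq.trans ?_ (h.trans ?_)
  · unfold ins
    refine pr_congr fun j _ hj => ?_
    by_cases hj' : j ∈ S
    · rw [if_pos hj', if_neg (by simp [hj']), if_pos hj']
    · rw [if_neg hj', if_pos (mem_sdiff.2 ⟨mem_range.2 (by omega), hj'⟩), if_neg hj', nextU,
        Wd_eq U D hη, mul_add, add_mul]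
  · refine sum_congr rfl fun R hR => ?_
    unfold PP.Tb
    refine pr_congr fun j _ _ => ?_
    by_cases hj : j ∈ R
    · have hj' : j ∉ S := (mem_sdiff.1 (mem_powerset.1 hR hj)).2
      simp [hj, hj']
    · by_cases hj' : j ∈ S
      · simp [hj, hj', nextD]
      · simp [hj, hj']
lemma Tb_empty (U : Al M) (E : Bool → Al M) (G : PP) : G.Tb U E (∅, ∅) = U ^ G.n := by
  unfold PP.Tb PP.n PP.M
  rw [pr_eq_pow (a := U ^ (2 * G.P + G.K)), ← pow_mul, mul_comm]
  intro j _ _
  simp only [notMem_empty, if_false]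
  rw [← pow_add, ← pow_add]
  congr 1
  ring

end Crest.Agent.R300L
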