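import Crest.Agent.R300L.BaseD
import Crest.Agent.R300L.Chain
import Crest.Agent.R300L.Win

/-!
# Level one
-/

set_option autoImplicit false
open Finset

noncomputable section
namespace Crest.Agent.R300L

lemma Base_dom {M : Type} {X R : Al M} (h1 : NN (R - X)) (h2 : NN (R + X)) : Dom X R := by
  intro τ
  have a1 := h1 τ
  have a2 := h2 τ
  simp only [MonoidAlgebra.coeff_add, MonoidAlgebra.coeff_sub, Finsupp.add_apply,
    Finsupp.sub_apply] at a1 a2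
  rw [abs_le]
  constructor <;> linarith

/-- `law (1-q) [false, true] = Bq (1-q²) μ` with `μ = (1-q²)⁻¹ • (pq[0] + pq[1] + p²[01])`,
`p = 1-q`; `[0] ≤ ((1-q²)/(pq)) μ ≤ (2/q) μ` -/
lemma exists_mu {q : ℝ} (hq : 0 < q) (hq2 : q ≤ 1 / 2) :
    ∃ μ : Al FB, IsProb μ ∧ law (1 - q) [false, true] = Bq (1 - q ^ 2) μ ∧
      Dom (lt false - μ) ((2 / q) • μ) := by
  have h1 : 0 < 1 - q := by linarith
  have h2 : 0 < 1 + q := by linarith
  have h3 : 1 - q ^ 2 = (1 - q) * (1 + q) := by ring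
  have ha := isProb_lt false
  have hb := isProb_lt true
  have hab := ha.mul hb
  set a := lt false with hadef
  set b := lt true with hbdef
  have hN : NN ((q / (1 + q)) • b + ((1 - q) / (1 + q)) • (a * b)) :=
    (hb.1.smul (by positivity)).add (hab.1.smul (by positivity))
  have hμ : NN ((q / (1 + q)) • a + ((q / (1 + q)) • b + ((1 - q) / (1 + q)) • (a * b))) :=
    (ha.1.smul (by positivity)).add hN
  refine ⟨(q / (1 + q)) • a + ((q / (1 + q)) • b + ((1 - q) / (1 + q)) • (a * b)), ⟨hμ, ?_⟩, ?_,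
    Base_dom ?_ ?_⟩
  · rw [mass_add, mass_add, mass_smul, mass_smul, mass_smul, ha.2, hb.2, hab.2]
    field_simp
    ring
  · rw [law_cons, law_cons, law_nil, mul_one, ← hadef, ← hbdef]
    simp only [Bq, add_mul, mul_add, smul_mul_smul_comm, one_mul, mul_one]
    match_scalars <;> field_simp <;> ring
  · have e : (2 / q) • ((q / (1 + q)) • a + ((q / (1 + q)) • b + ((1 - q) / (1 + q)) • (a * b))) -
        (a - ((q / (1 + q)) • a + ((q / (1 + q)) • b + ((1 - q) / (1 + q)) • (a * b)))) =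
        (1 / (1 + q)) • a + (2 / q + 1) • ((q / (1 + q)) • b + ((1 - q) / (1 + q)) • (a * b)) := by
      match_scalars <;> field_simp <;> ring
    rw [e]
    exact (ha.1.smul (by positivity)).add (hN.smul (by positivity))
  · have e : (2 / q) • ((q / (1 + q)) • a + ((q / (1 + q)) • b + ((1 - q) / (1 + q)) • (a * b))) +
        (a - ((q / (1 + q)) • a + ((q / (1 + q)) • b + ((1 - q) / (1 + q)) • (a * b)))) =
        a + (2 / q - 1) •
          ((q / (1 + q)) • a + ((q / (1 + q)) • b + ((1 - q) / (1 + q)) • (a * b))) := by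
      module
    rw [e]
    refine ha.1.add (hμ.smul ?_)
    rw [sub_nonneg, le_div_iff₀ hq]
    linarith

lemma Base_exp {q : ℝ} (hq : 0 < q) : (10 : ℝ) ^ 26 ≤ q ^ 9 * Real.exp (10 ^ 9 / q ^ 3) := by
  have h := Real.pow_div_factorial_le_exp (10 ^ 9 / q ^ 3 : ℝ) (by positivity) 3
  have e : q ^ 9 * ((10 ^ 9 / q ^ 3 : ℝ) ^ 3 / ((3 : ℕ).factorial : ℝ)) = 10 ^ 27 / 6 := by
    simp only [Nat.factorial]
    field_simp
    norm_num
  have := mul_le_mul_of_nonneg_left h (show 0 ≤ q ^ 9 by positivity)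
  rw [e] at this
  linarith

/-- `P = w⁴`, `b = w⁵`, `u = (01)^P 0 (01)^{P+1}`, `v = (01)^{P+1} 0 (01)^P`, `U = law u`, `D` from
`baseD`; `bes_of_single` + `sum_cu_sq_le`/`sum_cd_sq_le` (`δ² = 1.6·10⁶ p q⁻⁹ w⁻⁶`); overlap from
`base_ovl`, `ovl_boost` (`2^J ≤ exp(3·10⁸/q³)`).  `hw` gives `w ≥ K^10 · 10^{20} q^{-20}` etc.
(`x^n/n! ≤ exp x`). -/
theorem base {q : ℝ} (hq : 0 < q) (hq2 : q ≤ 1 / 2) {p k w : ℕ} (hp : Even p) (hp2 : 2 ≤ p)
    (hk : 300 ≤ k) (hpk : p ≤ k) (hw : ((k : ℝ) ^ 4) ^ 10 * Real.exp (10 ^ 9 / q ^ 3) ≤ w)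
    (η η' : Finset ℕ) :
    ∃ (u v : List Bool) (D : Al FB), u ≠ v ∧ u.length = v.length ∧ u.length ≤ 4 * w ^ 5 ∧
      l1 (law (1 - q) v - (law (1 - q) u + D)) ≤ 16 * Real.exp (-(q ^ 2 * (w : ℝ) ^ 4 / 4)) ∧
      Lvl p k (w ^ 5) η η' (law (1 - q) u) D (1 / (4 * ((k : ℝ) ^ 4) ^ 15 * (w : ℝ) ^ 5))
        (1 / (((k : ℝ) ^ 4) ^ 5 * (w : ℝ) ^ 5)) := by
  obtain ⟨μ, hμ, hlaw, hdom⟩ := exists_mu hq hq2
  set K : ℝ := (k : ℝ) ^ 4 with hK
  set E := Real.exp (10 ^ 9 / q ^ 3) with hE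
  have hk' : (300 : ℝ) ≤ k := by exact_mod_cast hk
  have hk1 : (1 : ℝ) ≤ k := by linarith
  have hkK : (k : ℝ) * 300 ≤ K := by
    have h1 : (k : ℝ) ^ 2 ≤ K := pow_le_pow_right₀ hk1 (by norm_num)
    nlinarith
  have hK1 : (1 : ℝ) ≤ K := by linarith
  have hK0 : (0 : ℝ) < K := by linarith
  have hE1 : 1 ≤ E := Real.one_le_exp (by positivity)
  have hKK : ∀ {a b : ℕ}, a ≤ b → K ^ a ≤ K ^ b := fun h => pow_le_pow_right₀ hK1 h
  have hK10 : K ≤ K ^ 10 := by simpa using hKK (show 1 ≤ 10 by norm_num)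
  have hKE : K * E ≤ w := (mul_le_mul_of_nonneg_right hK10 (by linarith)).trans hw
  have hKw : K ≤ w := (le_mul_of_one_le_right hK0.le hE1).trans hKE
  have hw1 : (1 : ℝ) ≤ w := hK1.trans hKw
  have hw0 : (0 : ℝ) < w := by linarith
  have hww : ∀ {a b : ℕ}, a ≤ b → (w : ℝ) ^ a ≤ (w : ℝ) ^ b := fun h => pow_le_pow_right₀ hw1 h
  have hqq : ∀ {a b : ℕ}, a ≤ b → q ^ b ≤ q ^ a := fun h =>
    pow_le_pow_of_le_one hq.le (by linarith) h
  have hA : K ^ 10 * 10 ^ 26 ≤ q ^ 9 * w := by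
    calc K ^ 10 * 10 ^ 26 ≤ K ^ 10 * (q ^ 9 * E) :=
          mul_le_mul_of_nonneg_left (Base_exp hq) (by positivity)
      _ = q ^ 9 * (K ^ 10 * E) := by ring
      _ ≤ _ := mul_le_mul_of_nonneg_left hw (by positivity)
  have hwn : 300 ≤ w := by exact_mod_cast (by linarith : (300 : ℝ) ≤ w)
  have hkw : k ^ 4 ≤ w := (Nat.cast_le (α := ℝ)).1 (by rw [Nat.cast_pow]; exact hKw)
  have hw5 : w ≤ w ^ 5 := Nat.le_self_pow (by norm_num) w
  have hw4 : w ≤ w ^ 4 := Nat.le_self_pow (by norm_num) w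
  have hcast : ((w ^ 4 : ℕ) : ℝ) = (w : ℝ) ^ 4 := by push_cast; rfl
  have hsq : √((w : ℝ) ^ 4) = (w : ℝ) ^ 2 := by
    rw [show (w : ℝ) ^ 4 = ((w : ℝ) ^ 2) ^ 2 by ring, Real.sqrt_sq (by positivity)]
  obtain ⟨D, hD0, hDd, hDn, hDl⟩ := baseD hp hp2 hq hq2 hμ (isProb_lt false) hdom
    (P := w ^ 4) (by omega)
  obtain ⟨r, J, hr, hJ, hov⟩ := base_ovl hq hq2 hμ (isProb_lt false) hdom (P := w ^ 4) (by
    rw [hcast]
    have h1 : q ^ 9 * w ≤ q ^ 6 * (w : ℝ) ^ 4 :=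
      mul_le_mul (hqq (by norm_num)) (by simpa using hww (show 1 ≤ 4 by norm_num)) hw0.le
        (by positivity)
    have h2 : (1 : ℝ) ≤ K ^ 10 := hK1.trans hK10
    linarith)
  rw [hcast, hsq] at hDd hDn
  rw [hcast] at hDl
  have hu : ∀ a b : ℕ, law (1 - q) ((List.replicate a [false, true]).flatten ++ [false] ++
      (List.replicate b [false, true]).flatten) =
      Bq (1 - q ^ 2) μ ^ a * Bq (1 - q) (lt false) * Bq (1 - q ^ 2) μ ^ b := by
    intro a b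
    rw [law_append, law_append, law_rep, law_rep, hlaw, law_cons, law_nil, mul_one]
  have hU : IsProb (Bq (1 - q ^ 2) μ ^ (w ^ 4) * Bq (1 - q) (lt false) *
      Bq (1 - q ^ 2) μ ^ (w ^ 4 + 1)) := by
    rw [← hu]
    exact isProb_law (by linarith) (by linarith) _
  set x : ℝ := 3 * p * √(1600000 * p / (q ^ 9 * ((w : ℝ) ^ 4 * (w : ℝ) ^ 2))) ^ 2 with hxdef
  have hx0 : 0 ≤ x := by positivity
  have hx : x ≤ 1 / (2 * K ^ 9 * (w : ℝ) ^ 5) := by
    rw [hxdef, Real.sq_sqrt (by positivity), ← mul_div_assoc,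
      div_le_div_iff₀ (by positivity) (by positivity)]
    have h1 : (p : ℝ) ≤ k := by exact_mod_cast hpk
    have h2 : (p : ℝ) ^ 2 ≤ K :=
      (pow_le_pow_left₀ (Nat.cast_nonneg p) h1 2).trans (pow_le_pow_right₀ hk1 (by norm_num))
    calc 3 * (p : ℝ) * (1600000 * p) * (2 * K ^ 9 * (w : ℝ) ^ 5)
        = (p : ℝ) ^ 2 * (9600000 * K ^ 9 * (w : ℝ) ^ 5) := by ring
      _ ≤ K * (10 ^ 26 * K ^ 9 * (w : ℝ) ^ 5) := by gcongr; norm_num
      _ = K ^ 10 * 10 ^ 26 * (w : ℝ) ^ 5 := by ring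
      _ ≤ q ^ 9 * w * (w : ℝ) ^ 5 := mul_le_mul_of_nonneg_right hA (by positivity)
      _ = _ := by ring
  have hcK : ((k ^ 4 : ℕ) : ℝ) = K := by push_cast; rfl
  have hw51 : (1 : ℝ) ≤ (w : ℝ) ^ 5 := one_le_pow₀ hw1
  have hKx : K * x ≤ 1 / (2 * K ^ 8 * (w : ℝ) ^ 5) := by
    refine (mul_le_mul_of_nonneg_left hx hK0.le).trans_eq ?_
    field_simp
  have hKx1 : ((k ^ 4 : ℕ) : ℝ) * x ≤ 1 := by
    rw [hcK]
    refine hKx.trans ?_
    rw [div_le_one (by positivity)]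
    have : (1 : ℝ) ≤ K ^ 8 := one_le_pow₀ hK1
    nlinarith
  have hbu : ∀ N, k ^ 4 + w ^ 5 ≤ N → Bes p _ (Wop _ D (k ^ 4) (cu η)) (k ^ 4) (w ^ 5) N
      (1 / (K ^ 5 * (w : ℝ) ^ 5)) := fun N hN => by
    refine (bes_of_single hp hp2 hU hD0 hDn (k ^ 4) (w ^ 5) N hN (cu_empty η)).mono ?_
    refine (mul_le_mul_of_nonneg_left (sum_cu_sq_le hx0 hKx1 η) (Nat.cast_nonneg _)).trans ?_
    rw [hcK]
    calc K * (2 * (K * x)) ≤ K * (2 * (1 / (2 * K ^ 8 * (w : ℝ) ^ 5))) := by gcongr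
      _ = 1 / (K ^ 7 * (w : ℝ) ^ 5) := by field_simp
      _ ≤ _ := by gcongr; norm_num
  have hbd : ∀ N, k ^ 4 + w ^ 5 ≤ N → Bes p _ (Wop _ D (k ^ 4) (cd η η')) (k ^ 4) (w ^ 5) N
      (1 / (4 * K ^ 15 * (w : ℝ) ^ 5)) := fun N hN => by
    refine (bes_of_single hp hp2 hU hD0 hDn (k ^ 4) (w ^ 5) N hN (cd_empty η η')).mono ?_
    refine (mul_le_mul_of_nonneg_left (sum_cd_sq_le hx0 hKx1 η η') (Nat.cast_nonneg _)).trans ?_
    rw [hcK]
    calc K * (K * x) ^ 2 ≤ K * (1 / (2 * K ^ 8 * (w : ℝ) ^ 5)) ^ 2 := by gcongr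
      _ = 1 / (4 * K ^ 15 * (w : ℝ) ^ 10) := by field_simp; norm_num
      _ ≤ _ := by gcongr; norm_num
  refine ⟨(List.replicate (w ^ 4) [false, true]).flatten ++ [false] ++
      (List.replicate (w ^ 4 + 1) [false, true]).flatten,
    (List.replicate (w ^ 4 + 1) [false, true]).flatten ++ [false] ++
      (List.replicate (w ^ 4) [false, true]).flatten, D, ?_, ?_, ?_, ?_, ?_⟩
  · intro h
    conv at h => rhs; rw [List.replicate_succ', List.flatten_append]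
    rw [List.replicate_succ] at h
    simp only [List.append_assoc] at h
    simpa using List.append_cancel_left h
  · simp
    omega
  · have : w ^ 5 = w ^ 4 * w := pow_succ w 4
    simp
    nlinarith
  · rw [hu, hu]
    exact hDl
  · rw [hu]
    refine ⟨hU, hD0, hDd.mono_smul hU.1 ?_, ⟨_, ?_, ovl_boost hU hov⟩, hbu _ (by omega),
      hbu _ (by omega), hbd _ (by omega), hbd _ (by omega)⟩
    · rw [div_le_div_iff₀ (by positivity) (by positivity)]
      have h1 : q ^ 9 * w ≤ q ^ 4 * (w : ℝ) ^ 2 :=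
        mul_le_mul (hqq (by norm_num)) (by simpa using hww (show 1 ≤ 2 by norm_num)) hw0.le
          (by positivity)
      have h2 : K ^ 2 ≤ K ^ 10 := hKK (by norm_num)
      have h3 : (0 : ℝ) ≤ K ^ 2 := by positivity
      linarith
    · have h1 : ((2 ^ J : ℕ) : ℝ) ≤ E := by
        push_cast
        calc (2 : ℝ) ^ J ≤ Real.exp 1 ^ J :=
              pow_le_pow_left₀ (by norm_num) (by linarith [Real.add_one_le_exp 1]) J
          _ = Real.exp J := by rw [← Real.exp_nat_mul, mul_one]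
          _ ≤ E := Real.exp_le_exp.2 (hJ.trans (by gcongr; norm_num))
      have h2 : k * 300 * 2 ^ J ≤ w := by
        have : (k : ℝ) * 300 * ((2 ^ J : ℕ) : ℝ) ≤ w :=
          (mul_le_mul hkK h1 (Nat.cast_nonneg _) hK0.le).trans hKE
        exact_mod_cast this
      have h3 : k * (75 * 2 ^ J * (r + 1)) ≤ w ^ 5 := by
        calc k * (75 * 2 ^ J * (r + 1)) ≤ k * (75 * 2 ^ J * (4 * w ^ 4)) := by gcongr; omega
          _ = k * 300 * 2 ^ J * w ^ 4 := by ring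
          _ ≤ w * w ^ 4 := Nat.mul_le_mul_right _ h2
          _ = w ^ 5 := by ring
      have h4 : k ≤ k ^ 4 := Nat.le_self_pow (by norm_num) k
      have h5 : 3 * w ≤ w ^ 5 := by
        calc 3 * w ≤ w ^ 4 * w := Nat.mul_le_mul_right _ (by omega)
          _ = w ^ 5 := by ring
      rw [mul_add, mul_one]
      omega

end Crest.Agent.R300L
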