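import Crest.Agent.R300L.Bin

/-!
# Binomial weights: congruence classes, mode, pointwise tails, Chernoff bounds
-/

set_option autoImplicit false
open Finset

noncomputable section
namespace Crest.Agent.R300L

variable {θ : ℝ}

lemma bin2_classes (S : Finset ℕ) (f : ℕ → ℝ) (c r : ℕ) {M : ℕ} (hM : 1 ≤ M) :
    ∑ i ∈ range M, ∑ s ∈ S.filter (fun s => s + (c + i) ≡ r [MOD M]), f s = ∑ s ∈ S, f s := by
  simp only [sum_filter]
  rw [sum_comm]
  refine sum_congr rfl fun s _ => ?_
  have h0 : s + (c + (r + (M - (s + c) % M)) % M) ≡ r [MOD M] := by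
    have h1 : s + (c + (r + (M - (s + c) % M)) % M) ≡ s + (c + (r + (M - (s + c) % M))) [MOD M] :=
      ((Nat.mod_modEq _ _).add_left c).add_left s
    have h2 : s + (c + (r + (M - (s + c) % M))) = r + M * ((s + c) / M + 1) := by
      have := Nat.mod_add_div (s + c) M
      have := Nat.mod_lt (s + c) hM
      rw [Nat.mul_add]
      omega
    rw [h2] at h1
    exact h1.trans (Nat.add_mul_mod_self_left r M _)
  rw [sum_eq_single ((r + (M - (s + c) % M)) % M), if_pos h0]
  · intro i hi hne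
    refine if_neg fun h => hne ?_
    have := ((h.trans h0.symm).add_left_cancel' s).add_left_cancel' c
    exact this.eq_of_lt_of_lt (mem_range.1 hi) (Nat.mod_lt _ hM)
  · intro h
    exact absurd (mem_range.2 (Nat.mod_lt _ hM)) h

lemma bin2_step (θ : ℝ) (t c r M : ℕ) :
    ∑ s ∈ (range (t + 1)).filter (fun s => s + (c + 1) ≡ r [MOD M]), bin θ t s -
      ∑ s ∈ (range (t + 1)).filter (fun s => s + c ≡ r [MOD M]), bin θ t s =
      ∑ s ∈ (range (t + 2)).filter (fun s => s + c ≡ r [MOD M]), dbin θ t s := by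
  simp only [sum_filter]
  have h1 : ∑ s ∈ range (t + 2), (if s + c ≡ r [MOD M] then dbin θ t s else 0) =
      ∑ s ∈ range (t + 2), (if s + c ≡ r [MOD M] then (if s = 0 then 0 else bin θ t (s - 1)) else 0) -
        ∑ s ∈ range (t + 2), (if s + c ≡ r [MOD M] then bin θ t s else 0) := by
    rw [← sum_sub_distrib]
    refine sum_congr rfl fun s _ => ?_
    unfold dbin
    split_ifs <;> simp
  rw [h1, sum_range_succ' _ (t + 1), sum_range_succ _ (t + 1), bin_eq_zero θ (Nat.lt_succ_self t)]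
  simp only [Nat.add_eq_zero_iff, one_ne_zero, and_false, if_false, Nat.add_sub_cancel, if_true,
    ite_self, add_zero]
  congr 1
  refine sum_congr rfl fun s _ => ?_
  rw [show s + (c + 1) = s + 1 + c by ring]

/-- With `a c = P(s + c ≡ r)`: `|a (c+1) - a c| ≤ ∑_{s + c + 1 ≡ r} |dbin s|`-type bounds give
`max a - min a ≤ ∑ |dbin|` over one period, and `∑_{c<M} a c = 1`. -/
lemma bin_mod (h0 : 0 < θ) (h1 : θ < 1) (t c r : ℕ) {M : ℕ} (hM : 1 ≤ M) :
    ∑ s ∈ (range (t + 1)).filter (fun s => s + c ≡ r [MOD M]), bin θ t s ≤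
      1 / (M : ℝ) + 1 / √(((t : ℝ) + 1) * θ * (1 - θ)) := by
  set a : ℕ → ℝ := fun i => ∑ s ∈ (range (t + 1)).filter (fun s => s + (c + i) ≡ r [MOD M]), bin θ t s
    with ha
  set δ : ℕ → ℝ := fun i =>
    ∑ s ∈ (range (t + 2)).filter (fun s => s + (c + i) ≡ r [MOD M]), |dbin θ t s| with hδ
  have h2 : ∀ i, a i - a (i + 1) ≤ δ i := by
    intro i
    have h3 := bin2_step θ t (c + i) r M
    have h4 := abs_sum_le_sum_abs (dbin θ t)
      ((range (t + 2)).filter (fun s => s + (c + i) ≡ r [MOD M]))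
    rw [← h3] at h4
    have h5 := neg_abs_le (∑ s ∈ (range (t + 1)).filter (fun s => s + (c + i + 1) ≡ r [MOD M]),
      bin θ t s - ∑ s ∈ (range (t + 1)).filter (fun s => s + (c + i) ≡ r [MOD M]), bin θ t s)
    simp only [ha, hδ, ← add_assoc c i 1]
    linarith
  have h3 : ∀ j, a 0 - a j ≤ ∑ i ∈ range j, δ i := by
    intro j
    induction j with
    | zero => simp
    | succ j ih => rw [sum_range_succ]; linarith [h2 j]
  have h4 : ∑ i ∈ range M, δ i ≤ 1 / √(((t : ℝ) + 1) * θ * (1 - θ)) := by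
    rw [hδ, bin2_classes _ _ c r hM]
    exact dbin_l1 h0 h1 t
  have h5 : ∑ i ∈ range M, a i = 1 := by
    rw [ha, bin2_classes _ _ c r hM, bin_sum]
  set D := 1 / √(((t : ℝ) + 1) * θ * (1 - θ))
  have h6 : ∀ j ∈ range M, a 0 ≤ a j + D := by
    intro j hj
    have : ∑ i ∈ range j, δ i ≤ ∑ i ∈ range M, δ i :=
      sum_le_sum_of_subset_of_nonneg (range_mono (mem_range.1 hj).le)
        fun i _ _ => sum_nonneg fun _ _ => abs_nonneg _
    linarith [h3 j]
  have h7 := sum_le_sum h6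
  rw [sum_add_distrib, h5, sum_const, sum_const, card_range, nsmul_eq_mul, nsmul_eq_mul] at h7
  have hM0 : (0 : ℝ) < M := by exact_mod_cast hM
  have h8 : a 0 ≤ 1 / (M : ℝ) + D := by
    have : 1 / (M : ℝ) + D = (1 + M * D) / M := by field_simp
    rw [this, le_div_iff₀ hM0]
    linarith
  simpa [ha] using h8
/-- monotonicity from the sign in `dbin_eq` -/
lemma bin_anti (h0 : 0 < θ) (h1 : θ < 1) {t s u : ℕ} (hs : θ * t ≤ s) (hu : s ≤ u) :
    bin θ t u ≤ bin θ t s := by
  induction u, hu using Nat.le_induction with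
  | base => exact le_rfl
  | succ u hu ih =>
    refine le_trans ?_ ih
    have h2 := dbin_eq θ t (u + 1)
    have h3 : (0 : ℝ) < ((t : ℝ) + 1) * θ * (1 - θ) := by
      have : 0 < 1 - θ := by linarith
      positivity
    have h4 : (s : ℝ) ≤ u := by exact_mod_cast hu
    have h5 : 0 ≤ bin θ (t + 1) (u + 1) * (((u + 1 : ℕ) : ℝ) - θ * (t + 1)) :=
      mul_nonneg (bin_nonneg h0.le h1.le _ _) (by push_cast; linarith)
    rw [← h2] at h5
    have h6 := nonneg_of_mul_nonneg_left h5 h3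
    simp only [dbin, Nat.add_eq_zero_iff, one_ne_zero, and_false, if_false, Nat.add_sub_cancel] at h6
    linarith
lemma bin_monot (h0 : 0 < θ) (h1 : θ < 1) {t s u : ℕ} (hs : (s : ℝ) ≤ θ * (t + 1)) (hu : u ≤ s) :
    bin θ t u ≤ bin θ t s := by
  induction s, hu using Nat.le_induction with
  | base => exact le_rfl
  | succ s hu ih =>
    refine le_trans (ih (by push_cast at hs; linarith)) ?_
    have h2 := dbin_eq θ t (s + 1)
    have h3 : (0 : ℝ) < ((t : ℝ) + 1) * θ * (1 - θ) := by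
      have : 0 < 1 - θ := by linarith
      positivity
    have h5 : bin θ (t + 1) (s + 1) * (((s + 1 : ℕ) : ℝ) - θ * (t + 1)) ≤ 0 :=
      mul_nonpos_of_nonneg_of_nonpos (bin_nonneg h0.le h1.le _ _) (by linarith)
    rw [← h2] at h5
    have h6 := nonpos_of_mul_nonpos_left h5 h3
    simp only [dbin, Nat.add_eq_zero_iff, one_ne_zero, and_false, if_false, Nat.add_sub_cancel] at h6
    linarith
/-- `S` is the mode of `Bin(J, S/J)`; Chebyshev puts mass `≥ 3/4` on the `≤ 2√J+1` integers within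
`√J` of `S` (cases `S = 0`, `S = J` are trivial: the value is `1`) -/
lemma bin_mode {J S : ℕ} (h : S ≤ J) : 1 / (4 * √((J : ℝ) + 1)) ≤ bin ((S : ℝ) / J) J S := by
  have hJ1 : 1 ≤ √((J : ℝ) + 1) := Real.one_le_sqrt.2 (by linarith [Nat.cast_nonneg (α := ℝ) J])
  have triv : 1 / (4 * √((J : ℝ) + 1)) ≤ 1 := by
    rw [div_le_one (by positivity)]; linarith
  rcases Nat.eq_zero_or_pos S with rfl | hS
  · simpa [bin] using triv
  have hJ : (0 : ℝ) < J := by exact_mod_cast lt_of_lt_of_le hS h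
  rcases h.eq_or_lt with rfl | hSJ
  · rw [div_self hJ.ne']
    simpa [bin] using triv
  set θ : ℝ := (S : ℝ) / J with hθ
  have h0 : 0 < θ := div_pos (by exact_mod_cast hS) hJ
  have h1 : θ < 1 := by rw [hθ, div_lt_one hJ]; exact_mod_cast hSJ
  have hm : θ * J = S := by rw [hθ]; field_simp
  have hmode : ∀ s, bin θ J s ≤ bin θ J S := by
    intro s
    rcases le_total S s with c | c
    · exact bin_anti h0 h1 hm.le c
    · exact bin_monot h0 h1 (by linarith) c
  have hd : 0 < √(J : ℝ) := Real.sqrt_pos.2 hJ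
  have h2 := bin_cheb h0.le h1.le J hd
  have h3 : (J : ℝ) * θ * (1 - θ) / √(J : ℝ) ^ 2 ≤ 1 / 4 := by
    rw [Real.sq_sqrt hJ.le, div_le_iff₀ hJ]
    nlinarith [mul_nonneg hJ.le (sq_nonneg (θ - 1 / 2))]
  have h4 := sum_filter_add_sum_filter_not (range (J + 1))
    (fun s : ℕ => √(J : ℝ) ≤ |(s : ℝ) - θ * J|) (bin θ J)
  rw [bin_sum] at h4
  set m := ⌊√(J : ℝ)⌋₊ with hm'
  have h5 : ((range (J + 1)).filter fun s : ℕ => ¬ √(J : ℝ) ≤ |(s : ℝ) - θ * J|) ⊆
      Ico (S - m) (S + m + 1) := by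
    intro s hs
    have h6 := lt_of_not_ge (mem_filter.1 hs).2
    rw [hm, abs_lt] at h6
    have h7 : √(J : ℝ) < m + 1 := Nat.lt_floor_add_one _
    have h8 : s < S + m + 1 := by
      have : (s : ℝ) < S + m + 1 := by linarith [h6.2]
      exact_mod_cast this
    have h9 : S < s + m + 1 := by
      have : (S : ℝ) < s + m + 1 := by linarith [h6.1]
      exact_mod_cast this
    rw [mem_Ico]
    omega
  have h6 := sum_le_card_nsmul ((range (J + 1)).filter fun s : ℕ => ¬ √(J : ℝ) ≤ |(s : ℝ) - θ * J|)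
    (bin θ J) (bin θ J S) fun s _ => hmode s
  rw [nsmul_eq_mul] at h6
  have h7 : (((range (J + 1)).filter fun s : ℕ => ¬ √(J : ℝ) ≤ |(s : ℝ) - θ * J|).card : ℝ) ≤
      3 * √((J : ℝ) + 1) := by
    have a1 := card_le_card h5
    rw [Nat.card_Ico] at a1
    have a2 : ((range (J + 1)).filter fun s : ℕ => ¬ √(J : ℝ) ≤ |(s : ℝ) - θ * J|).card ≤
      2 * m + 1 := by omega
    have a3 : (m : ℝ) ≤ √(J : ℝ) := Nat.floor_le hd.le
    have a4 : √(J : ℝ) ≤ √((J : ℝ) + 1) := Real.sqrt_le_sqrt (by linarith)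
    have a5 : (((range (J + 1)).filter fun s : ℕ => ¬ √(J : ℝ) ≤ |(s : ℝ) - θ * J|).card : ℝ) ≤
      2 * m + 1 := by exact_mod_cast a2
    linarith
  have h8 := mul_le_mul_of_nonneg_right h7 (bin_nonneg h0.le h1.le J S)
  rw [div_le_iff₀ (by positivity)]
  nlinarith
/-- the `⌊d/2⌋+1 ≥ d/2` integers between `s` and the mean nearest to `s` have larger weight and lie
at distance `≥ d/2` from the mean -/
lemma bin_tail_pt (h0 : 0 < θ) (h1 : θ < 1) (t s : ℕ) {d : ℝ} (hd : 0 < d)
    (h : d ≤ |(s : ℝ) - θ * t|) : bin θ t s ≤ 8 * (t * θ * (1 - θ)) / d ^ 3 := by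
  have h1' : 0 < 1 - θ := by linarith
  rcases lt_or_ge t s with hts | hts
  · rw [bin_eq_zero θ hts]; positivity
  set m := ⌊d / 2⌋₊ with hm
  have hm1 : (m : ℝ) ≤ d / 2 := Nat.floor_le (by positivity)
  have hm2 : d / 2 < m + 1 := Nat.lt_floor_add_one _
  have hθt : 0 ≤ θ * t := by positivity
  have hθt' : θ * t ≤ t := by nlinarith [Nat.cast_nonneg (α := ℝ) t]
  obtain ⟨T, hT1, hT2, hT3⟩ : ∃ T : Finset ℕ, T.card = m + 1 ∧
      T ⊆ (range (t + 1)).filter (fun u : ℕ => d / 2 ≤ |(u : ℝ) - θ * t|) ∧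
      ∀ u ∈ T, bin θ t s ≤ bin θ t u := by
    rcases le_abs.1 h with c | c
    · have hms : m ≤ s := by
        have : (m : ℝ) ≤ s := by linarith
        exact_mod_cast this
      have aux : ∀ u ∈ Ico (s - m) (s + 1), (s : ℝ) - m ≤ u := by
        intro u hu
        have : s - m ≤ u := (mem_Ico.1 hu).1
        have h3 : ((s - m : ℕ) : ℝ) ≤ u := by exact_mod_cast this
        rwa [Nat.cast_sub hms] at h3
      refine ⟨Ico (s - m) (s + 1), by rw [Nat.card_Ico]; omega, fun u hu => ?_, fun u hu => ?_⟩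
      · have := aux u hu
        refine mem_filter.2 ⟨mem_range.2 (by have := (mem_Ico.1 hu).2; omega), ?_⟩
        exact le_abs.2 (Or.inl (by linarith))
      · have := aux u hu
        exact bin_anti h0 h1 (by linarith) (by have := (mem_Ico.1 hu).2; omega)
    · have aux : ∀ u ∈ Ico s (s + m + 1), (u : ℝ) ≤ s + m := by
        intro u hu
        have : u ≤ s + m := by have := (mem_Ico.1 hu).2; omega
        exact_mod_cast this
      refine ⟨Ico s (s + m + 1), by rw [Nat.card_Ico]; omega, fun u hu => ?_, fun u hu => ?_⟩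
      · have := aux u hu
        refine mem_filter.2 ⟨mem_range.2 ?_, ?_⟩
        · have : (u : ℝ) < t + 1 := by linarith
          exact_mod_cast this
        · exact le_abs.2 (Or.inr (by linarith))
      · have := aux u hu
        exact bin_monot h0 h1 (by linarith) (mem_Ico.1 hu).1
  have h2 := bin_cheb h0.le h1.le t (half_pos hd)
  have h3 := card_nsmul_le_sum T (bin θ t) (bin θ t s) hT3
  rw [hT1, nsmul_eq_mul] at h3
  have h4 := sum_le_sum_of_subset_of_nonneg (f := bin θ t) hT2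
    fun u _ _ => bin_nonneg h0.le h1.le t u
  have h5 : d / 2 * bin θ t s ≤ t * θ * (1 - θ) / (d / 2) ^ 2 := by
    have := mul_le_mul_of_nonneg_right hm2.le (bin_nonneg h0.le h1.le t s)
    push_cast at h3
    linarith
  rw [le_div_iff₀ (by positivity)] at h5 ⊢
  nlinarith
/-- Chernoff with `3^{-|ξ|}`: `#{4|ξ| < J} ≤ 3^{J/4} (4/3)^J ≤ (9/5)^J` (compare fourth powers);
symmetry `ξ ↦ range J \ ξ` -/
lemma card_atyp (J : ℕ) :
    (((range J).powerset.filter fun ξ => ¬(J ≤ 4 * ξ.card ∧ 4 * ξ.card ≤ 3 * J)).card : ℝ) ≤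
      2 * (9 / 5) ^ J := by
  have aux : ∀ k : ℕ, 4 * k ≤ J → (1 : ℝ) ≤ (27 / 20) ^ J * (1 / 3) ^ k := by
    intro k hk
    have h1 : ((27 : ℝ) / 20) ^ (4 * k) ≤ (27 / 20) ^ J := pow_le_pow_right₀ (by norm_num) hk
    have h2 : (1 : ℝ) ≤ (27 / 20) ^ (4 * k) * (1 / 3) ^ k := by
      rw [pow_mul, ← mul_pow]
      exact one_le_pow₀ (by norm_num)
    exact h2.trans (mul_le_mul_of_nonneg_right h1 (by positivity))
  have e1 := sum_pow_mul_eq_add_pow (1 / 3 : ℝ) 1 (range J)
  have e2 := sum_pow_mul_eq_add_pow (1 : ℝ) (1 / 3) (range J)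
  rw [card_range] at e1 e2
  rw [card_eq_sum_ones, Nat.cast_sum, sum_filter]
  calc _ ≤ ∑ ξ ∈ (range J).powerset, ((27 / 20 : ℝ) ^ J * ((1 / 3) ^ ξ.card * 1 ^ (J - ξ.card)) +
        (27 / 20 : ℝ) ^ J * (1 ^ ξ.card * (1 / 3) ^ (J - ξ.card))) := by
        refine sum_le_sum fun ξ hξ => ?_
        have hc : ξ.card ≤ J := by simpa using card_le_card (mem_powerset.1 hξ)
        rw [one_pow, one_pow, mul_one, one_mul, Nat.cast_one]
        have p1 : (0 : ℝ) ≤ (27 / 20) ^ J * (1 / 3) ^ ξ.card := by positivity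
        have p2 : (0 : ℝ) ≤ (27 / 20) ^ J * (1 / 3) ^ (J - ξ.card) := by positivity
        split_ifs with hx
        · linarith
        · rcases not_and_or.1 hx with c | c
          · linarith [aux ξ.card (by omega)]
          · linarith [aux (J - ξ.card) (by omega)]
    _ = 2 * (9 / 5) ^ J := by
        rw [sum_add_distrib, ← mul_sum, ← mul_sum, e1, e2, ← mul_pow, ← mul_pow]
        norm_num
        ring
/-- Chernoff for the number `e = (P - s) + (P - s')` of empty outputs (`E 2^{-e} = (1-q²/2)^{2P}`,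
`E 2^e = (1+q²)^{2P}` by `bin_mgf`); here `2P+1-(s+s'+2) = e - 1`. -/
lemma bin_pair_atyp {q : ℝ} (hq : 0 < q) (hq2 : q ≤ 1 / 2) (P : ℕ) :
    ∑ s ∈ range (P + 1), ∑ s' ∈ range (P + 1),
      (if q ^ 2 * (2 * P + 1) / 2 ≤ (2 * P + 1 : ℝ) - (s + s' + 2) ∧
          (2 * P + 1 : ℝ) - (s + s' + 2) ≤ 2 * q ^ 2 * (2 * P + 1) then 0
        else bin (1 - q ^ 2) P s * bin (1 - q ^ 2) P s') ≤ 4 * Real.exp (-(q ^ 2 * P / 4)) := by
  set θ := 1 - q ^ 2 with hθ
  have hq0 : 0 < q ^ 2 := by positivity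
  have hq1 : q ^ 2 ≤ 1 / 4 := by nlinarith
  have h0 : 0 ≤ θ := by linarith
  have h1 : θ ≤ 1 := by linarith
  set L := Real.log 2 with hL
  have hL1 : 0.69 < L := by have := Real.log_two_gt_d9; linarith
  have hL2 : L < 0.7 := by have := Real.log_two_lt_d9; linarith
  have e2 : ∀ k : ℕ, Real.exp (k * L) = 2 ^ k := fun k => by
    rw [Real.exp_nat_mul, hL, Real.exp_log (by norm_num)]
  have eu : ∀ s : ℕ, Real.exp (L * (s - P)) = 2 ^ s / 2 ^ P := fun s => by
    rw [← e2, ← e2, ← Real.exp_sub]; congr 1; ring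
  have ed : ∀ s : ℕ, Real.exp (L * (P - s)) = 2 ^ P * (1 / 2) ^ s := fun s => by
    rw [one_div, inv_pow, ← div_eq_mul_inv, ← e2, ← e2, ← Real.exp_sub]; congr 1; ring
  have mu : ∑ s ∈ range (P + 1), bin θ P s * Real.exp (L * (s - P)) ≤
      Real.exp (-(q ^ 2 * P / 2)) := by
    simp only [eu, ← mul_div_assoc]
    rw [← sum_div, bin_mgf, ← div_pow]
    have : Real.exp (-(q ^ 2 * P / 2)) = Real.exp (-(q ^ 2 / 2)) ^ P := by
      rw [← Real.exp_nat_mul]; congr 1; ring
    rw [this]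
    refine pow_le_pow_left₀ (by linarith) ?_ P
    linarith [Real.add_one_le_exp (-(q ^ 2 / 2))]
  have md : ∑ s ∈ range (P + 1), bin θ P s * Real.exp (L * (P - s)) ≤ Real.exp (q ^ 2 * P) := by
    simp only [ed, mul_left_comm _ ((2 : ℝ) ^ P)]
    rw [← mul_sum, bin_mgf, ← mul_pow]
    have : Real.exp (q ^ 2 * P) = Real.exp (q ^ 2) ^ P := by
      rw [← Real.exp_nat_mul]; congr 1; ring
    rw [this]
    refine pow_le_pow_left₀ (by linarith) ?_ P
    linarith [Real.add_one_le_exp (q ^ 2)]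
  set a : ℝ := 1 + q ^ 2 * (2 * P + 1) / 2 with ha
  set a' : ℝ := 1 + 2 * q ^ 2 * (2 * P + 1) with ha'
  have hu0 : 0 ≤ ∑ s ∈ range (P + 1), bin θ P s * Real.exp (L * (s - P)) :=
    sum_nonneg fun s _ => mul_nonneg (bin_nonneg h0 h1 _ _) (Real.exp_pos _).le
  have hd0 : 0 ≤ ∑ s ∈ range (P + 1), bin θ P s * Real.exp (L * (P - s)) :=
    sum_nonneg fun s _ => mul_nonneg (bin_nonneg h0 h1 _ _) (Real.exp_pos _).le
  have hqP : 0 ≤ q ^ 2 * P := by positivity
  calc _ ≤ ∑ s ∈ range (P + 1), ∑ s' ∈ range (P + 1),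
        (Real.exp (L * a) * ((bin θ P s * Real.exp (L * (s - P))) *
            (bin θ P s' * Real.exp (L * (s' - P)))) +
          Real.exp (-(L * a')) * ((bin θ P s * Real.exp (L * (P - s))) *
            (bin θ P s' * Real.exp (L * (P - s'))))) := by
        refine sum_le_sum fun s _ => sum_le_sum fun s' _ => ?_
        have hb : 0 ≤ bin θ P s * bin θ P s' :=
          mul_nonneg (bin_nonneg h0 h1 _ _) (bin_nonneg h0 h1 _ _)
        have f1 : Real.exp (L * a) * ((bin θ P s * Real.exp (L * (s - P))) *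
            (bin θ P s' * Real.exp (L * (s' - P)))) =
            bin θ P s * bin θ P s' * Real.exp (L * (a - (2 * P - s - s'))) := by
          have : L * (a - (2 * P - s - s')) = L * a + L * (s - P) + L * (s' - P) := by ring
          rw [this, Real.exp_add, Real.exp_add]; ring
        have f2 : Real.exp (-(L * a')) * ((bin θ P s * Real.exp (L * (P - s))) *
            (bin θ P s' * Real.exp (L * (P - s')))) =
            bin θ P s * bin θ P s' * Real.exp (L * ((2 * P - s - s') - a')) := by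
          have : L * ((2 * P - s - s') - a') = -(L * a') + L * (P - s) + L * (P - s') := by ring
          rw [this, Real.exp_add, Real.exp_add]; ring
        rw [f1, f2]
        have p1 := mul_nonneg hb (Real.exp_pos (L * (a - (2 * P - s - s')))).le
        have p2 := mul_nonneg hb (Real.exp_pos (L * ((2 * P - s - s') - a'))).le
        split_ifs with hx
        · linarith
        · rcases not_and_or.1 hx with c | c
          · have : 1 ≤ Real.exp (L * (a - (2 * P - s - s'))) :=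
              Real.one_le_exp (mul_nonneg (by linarith) (by rw [ha]; linarith [lt_of_not_ge c]))
            nlinarith
          · have : 1 ≤ Real.exp (L * ((2 * P - s - s') - a')) :=
              Real.one_le_exp (mul_nonneg (by linarith) (by rw [ha']; linarith [lt_of_not_ge c]))
            nlinarith
    _ = Real.exp (L * a) * (∑ s ∈ range (P + 1), bin θ P s * Real.exp (L * (s - P))) ^ 2 +
        Real.exp (-(L * a')) * (∑ s ∈ range (P + 1), bin θ P s * Real.exp (L * (P - s))) ^ 2 := by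
        simp only [sum_add_distrib, ← mul_sum, ← sum_mul]
        ring
    _ ≤ Real.exp (L * a) * Real.exp (-(q ^ 2 * P / 2)) ^ 2 +
        Real.exp (-(L * a')) * Real.exp (q ^ 2 * P) ^ 2 := by
        gcongr
    _ ≤ Real.exp 1 * Real.exp (-(q ^ 2 * P / 4)) + Real.exp (-(q ^ 2 * P / 4)) := by
        rw [← Real.exp_nat_mul, ← Real.exp_nat_mul, ← Real.exp_add, ← Real.exp_add, ← Real.exp_add]
        refine add_le_add (Real.exp_le_exp.2 ?_) (Real.exp_le_exp.2 ?_)
        · rw [ha]; push_cast; nlinarith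
        · rw [ha']; push_cast; nlinarith
    _ ≤ _ := by
        have := Real.exp_one_lt_d9
        nlinarith [Real.exp_pos (-(q ^ 2 * P / 4))]

end Crest.Agent.R300L
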