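import Crest.Agent.R300L.ChaosP
import Crest.Agent.R300L.Bin2

/-!
# The base pair: `U = B^P a B^{P+1}`, `V = B^{P+1} a B^P`
`B = Bq θ μ`, `θ = 1 - q²`, `a = Bq (1-q) o`, `Y = o - μ`, `T = 2P+1`.
-/

set_option autoImplicit false
open Finset

noncomputable section
namespace Crest.Agent.R300L

/-- coefficient of `μ^j Y μ^{N-1-j}` in `B^P (μY - Yμ) B^P` -/
def cf (θ : ℝ) (P N j : ℕ) : ℝ :=
  dbin θ P j * bin θ P (N - 1 - j) - bin θ P j * dbin θ P (N - 1 - j)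

lemma BaseD_bin_mul (θ : ℝ) (P x y : ℕ) :
    bin θ P x * bin θ P y =
      (P.choose x : ℝ) * P.choose y * (θ ^ (x + y) * (1 - θ) ^ (2 * P - (x + y))) := by
  unfold bin
  by_cases hx : P < x
  · simp [Nat.choose_eq_zero_of_lt hx]
  by_cases hy : P < y
  · simp [Nat.choose_eq_zero_of_lt hy]
  have : 2 * P - (x + y) = (P - x) + (P - y) := by omega
  rw [this, pow_add, pow_add]
  ring

lemma BaseD_cf_eq (θ : ℝ) (P N j : ℕ) :
    cf θ P N j = (if j = 0 then 0 else bin θ P (j - 1)) * bin θ P (N - 1 - j) -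
      bin θ P j * (if N - 1 - j = 0 then 0 else bin θ P (N - 1 - j - 1)) := by
  unfold cf dbin
  ring

lemma BaseD_cf_form {P N j : ℕ} (hN : 2 ≤ N) (hNT : N ≤ 2 * P + 1) (hj : j < N) :
    ∃ κ : ℝ, ∀ θ : ℝ, cf θ P N j = κ * (θ ^ (N - 2) * (1 - θ) ^ (2 * P + 1 - N + 1)) := by
  refine ⟨(if j = 0 then 0 else (P.choose (j - 1) : ℝ) * P.choose (N - 1 - j)) -
    (if N - 1 - j = 0 then 0 else (P.choose j : ℝ) * P.choose (N - 1 - j - 1)), fun θ => ?_⟩
  rw [BaseD_cf_eq, sub_mul]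
  congr 1
  · split_ifs with h
    · simp
    · rw [BaseD_bin_mul, show j - 1 + (N - 1 - j) = N - 2 by omega,
        show 2 * P - (N - 2) = 2 * P + 1 - N + 1 by omega]
  · split_ifs with h
    · simp
    · rw [BaseD_bin_mul, show j + (N - 1 - j - 1) = N - 2 by omega,
        show 2 * P - (N - 2) = 2 * P + 1 - N + 1 by omega]

/-- tilting: `cf θ P N j = κ θ^{N-2} (1-θ)^{2P+2-N}`, `bin θ T N = C θ^N (1-θ)^{T-N}` -/
lemma cf_tilt (θ θ' : ℝ) {P N j : ℕ} (hN : 2 ≤ N) (hNT : N ≤ 2 * P + 1) (hj : j < N) :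
    cf θ P N j * bin θ' (2 * P + 1) N * (θ ^ 2 * (1 - θ')) =
      cf θ' P N j * bin θ (2 * P + 1) N * (θ' ^ 2 * (1 - θ)) := by
  obtain ⟨κ, hκ⟩ := BaseD_cf_form hN hNT hj
  obtain ⟨n, rfl⟩ : ∃ n, N = n + 2 := ⟨N - 2, by omega⟩
  rw [hκ θ, hκ θ']
  unfold bin
  simp only [Nat.add_sub_cancel, pow_succ]
  ring

lemma BaseD_dbin_zero (θ : ℝ) {P s : ℕ} (h : P + 2 ≤ s) : dbin θ P s = 0 := by
  unfold dbin
  rw [if_neg (by omega), bin_eq_zero θ (by omega), bin_eq_zero θ (by omega), sub_zero]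

lemma BaseD_sum_le {f : ℕ → ℝ} (h0 : ∀ s, 0 ≤ f s) {K : ℕ} (hz : ∀ s, K ≤ s → f s = 0) (N : ℕ) :
    ∑ j ∈ range N, f j ≤ ∑ j ∈ range K, f j := by
  have h1 : ∑ j ∈ range N, f j ≤ ∑ j ∈ range (max N K), f j :=
    sum_le_sum_of_subset_of_nonneg (range_subset_range.2 (le_max_left _ _)) fun s _ _ => h0 s
  have h2 : ∑ j ∈ range K, f j = ∑ j ∈ range (max N K), f j :=
    sum_subset (range_subset_range.2 (le_max_right _ _)) fun s _ hs =>
      hz s (by simpa using hs)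
  linarith

lemma BaseD_cf_raw {θ : ℝ} (h0 : 0 < θ) (h1 : θ < 1) (P N : ℕ) :
    ∑ j ∈ range N, |cf θ P N j| ≤ 2 * (1 / (((P : ℝ) + 1) * θ * (1 - θ))) ∧
    ∑ j ∈ range N, cf θ P N j ^ 2 ≤ 4 * (1 / (((P : ℝ) + 1) * θ * (1 - θ))) ^ 2 *
      (1 / √(((P : ℝ) + 2) * θ * (1 - θ))) := by
  have h1' : 0 < 1 - θ := by linarith
  set v : ℝ := ((P : ℝ) + 1) * θ * (1 - θ) with hv
  have hv0 : 0 < v := by positivity
  set m : ℝ := 1 / √v with hm
  have hm0 : 0 ≤ m := by positivity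
  have hm2 : m * m = 1 / v := by
    rw [hm, div_mul_div_comm, Real.mul_self_sqrt hv0.le, one_mul]
  have hb : ∀ s, |bin θ P s| ≤ m := fun s => by
    rw [abs_of_nonneg (bin_nonneg h0.le h1.le P s)]
    exact bin_le h0 h1 P s
  have hA : ∑ j ∈ range N, |dbin θ P j| ≤ m :=
    (BaseD_sum_le (f := fun j => |dbin θ P j|) (fun _ => abs_nonneg _)
      (fun s hs => by rw [BaseD_dbin_zero θ hs, abs_zero]) N).trans (dbin_l1 h0 h1 P)
  have hA' : ∑ j ∈ range N, |dbin θ P (N - 1 - j)| ≤ m := by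
    rw [sum_range_reflect (fun j => |dbin θ P j|) N]
    exact hA
  have hS : ∑ j ∈ range N, dbin θ P j ^ 2 ≤ 1 / √(((P : ℝ) + 2) * θ * (1 - θ)) / v :=
    (BaseD_sum_le (f := fun j => dbin θ P j ^ 2) (fun _ => sq_nonneg _)
      (fun s hs => by rw [BaseD_dbin_zero θ hs]; ring) N).trans (dbin_sq h0 h1 P)
  have hS' : ∑ j ∈ range N, dbin θ P (N - 1 - j) ^ 2 ≤
      1 / √(((P : ℝ) + 2) * θ * (1 - θ)) / v := by
    rw [sum_range_reflect (fun j => dbin θ P j ^ 2) N]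
    exact hS
  have hpt : ∀ j, |cf θ P N j| ≤ m * |dbin θ P j| + m * |dbin θ P (N - 1 - j)| := by
    intro j
    unfold cf
    refine (abs_sub _ _).trans ?_
    rw [abs_mul, abs_mul]
    have e1 := mul_le_mul_of_nonneg_left (hb (N - 1 - j)) (abs_nonneg (dbin θ P j))
    have e2 := mul_le_mul_of_nonneg_right (hb j) (abs_nonneg (dbin θ P (N - 1 - j)))
    linarith
  constructor
  · calc _ ≤ ∑ j ∈ range N, (m * |dbin θ P j| + m * |dbin θ P (N - 1 - j)|) :=
          sum_le_sum fun j _ => hpt j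
      _ = m * ∑ j ∈ range N, |dbin θ P j| + m * ∑ j ∈ range N, |dbin θ P (N - 1 - j)| := by
          rw [sum_add_distrib, mul_sum, mul_sum]
      _ ≤ m * m + m * m :=
          add_le_add (mul_le_mul_of_nonneg_left hA hm0) (mul_le_mul_of_nonneg_left hA' hm0)
      _ = _ := by rw [hm2]; ring
  · calc _ ≤ ∑ j ∈ range N, (2 * (m * m) * dbin θ P j ^ 2 +
            2 * (m * m) * dbin θ P (N - 1 - j) ^ 2) := by
          refine sum_le_sum fun j _ => ?_
          have e1 := hpt j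
          have e2 : cf θ P N j ^ 2 ≤ (m * |dbin θ P j| + m * |dbin θ P (N - 1 - j)|) ^ 2 := by
            rw [← sq_abs]
            exact pow_le_pow_left₀ (abs_nonneg _) e1 2
          rw [← sq_abs (dbin θ P j), ← sq_abs (dbin θ P (N - 1 - j))]
          nlinarith [sq_nonneg (m * |dbin θ P j| - m * |dbin θ P (N - 1 - j)|)]
      _ = 2 * (m * m) * ∑ j ∈ range N, dbin θ P j ^ 2 +
            2 * (m * m) * ∑ j ∈ range N, dbin θ P (N - 1 - j) ^ 2 := by
          rw [sum_add_distrib, mul_sum, mul_sum]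
      _ ≤ 2 * (m * m) * (1 / √(((P : ℝ) + 2) * θ * (1 - θ)) / v) +
            2 * (m * m) * (1 / √(((P : ℝ) + 2) * θ * (1 - θ)) / v) :=
          add_le_add (mul_le_mul_of_nonneg_left hS (by positivity))
            (mul_le_mul_of_nonneg_left hS' (by positivity))
      _ = _ := by rw [hm2]; ring

lemma BaseD_bin_pos {θ : ℝ} (h0 : 0 < θ) (h1 : θ < 1) {t s : ℕ} (h : s ≤ t) : 0 < bin θ t s := by
  unfold bin
  have : (0 : ℝ) < t.choose s := by exact_mod_cast Nat.choose_pos h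
  have : 0 < 1 - θ := by linarith
  positivity

lemma BaseD_typ {q : ℝ} (hq : 0 < q) (hq2 : q ≤ 1 / 2) {P N : ℕ} (hP : 2 ≤ P)
    (h1 : q ^ 2 * (2 * P + 1) / 2 ≤ (2 * P + 1 : ℝ) - N)
    (h2 : (2 * P + 1 : ℝ) - N ≤ 2 * q ^ 2 * (2 * P + 1)) : 2 ≤ N ∧ N < 2 * P + 1 := by
  have hP' : (2 : ℝ) ≤ P := by exact_mod_cast hP
  have hq4 : q ^ 2 ≤ 1 / 4 := by nlinarith
  constructor
  · have : (2 : ℝ) ≤ N := by nlinarith
    exact_mod_cast this
  · have h3 : 0 < q ^ 2 * (2 * P + 1) / 2 := by positivity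
    have : (N : ℝ) < 2 * P + 1 := by linarith
    exact_mod_cast this

/-- for typical `N` use `θ' = N/T` (`q²/2 ≤ 1-θ' ≤ 2q² ≤ 1/2`), `bin_mode`, `bin_le`, `dbin_l1`,
`dbin_sq`:  `∑|cf θ'| ≤ 8/(q²P)`, `∑ cf θ'² ≤ 128/(q⁵ P² √P)`, `1/bin θ' T N ≤ 8√P`, tilt factor `≤ 4` -/
lemma cf_bounds {q : ℝ} (hq : 0 < q) (hq2 : q ≤ 1 / 2) {P N : ℕ} (hP : 2 ≤ P)
    (h1 : q ^ 2 * (2 * P + 1) / 2 ≤ (2 * P + 1 : ℝ) - N)
    (h2 : (2 * P + 1 : ℝ) - N ≤ 2 * q ^ 2 * (2 * P + 1)) :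
    ∑ j ∈ range N, |cf (1 - q ^ 2) P N j| ≤ 256 / (q ^ 2 * √(P : ℝ)) * bin (1 - q ^ 2) (2 * P + 1) N ∧
    ∑ j ∈ range N, cf (1 - q ^ 2) P N j ^ 2 ≤
      131072 / (q ^ 5 * (P * √(P : ℝ))) * bin (1 - q ^ 2) (2 * P + 1) N ^ 2 := by
  obtain ⟨hN2, hNT⟩ := BaseD_typ hq hq2 hP h1 h2
  have hP' : (2 : ℝ) ≤ P := by exact_mod_cast hP
  have hq4 : q ^ 2 ≤ 1 / 4 := by nlinarith
  have hq0 : 0 < q ^ 2 := by positivity
  have hT : (0 : ℝ) < 2 * P + 1 := by positivity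
  set θ' : ℝ := (N : ℝ) / ((2 * P + 1 : ℕ) : ℝ) with hθ'
  have hθe : θ' = (N : ℝ) / (2 * P + 1) := by rw [hθ']; push_cast; rfl
  have e0 : 1 - θ' = ((2 * P + 1 : ℝ) - N) / (2 * P + 1) := by
    rw [hθe]; field_simp
  have e1 : q ^ 2 / 2 ≤ 1 - θ' := by
    rw [e0, le_div_iff₀ hT]; linarith
  have e2 : 1 - θ' ≤ 2 * q ^ 2 := by
    rw [e0, div_le_iff₀ hT]; linarith
  have h0' : 1 / 2 ≤ θ' := by linarith
  have h1' : θ' < 1 := by linarith
  have hsP : 0 < √(P : ℝ) := Real.sqrt_pos.2 (by linarith)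
  have hsq : √(P : ℝ) * √(P : ℝ) = P := Real.mul_self_sqrt (by linarith)
  -- the mode
  have hmode : 1 / (8 * √(P : ℝ)) ≤ bin θ' (2 * P + 1) N := by
    refine le_trans ?_ (bin_mode hNT.le)
    refine one_div_le_one_div_of_le (by positivity) ?_
    have : √(((2 * P + 1 : ℕ) : ℝ) + 1) ≤ 2 * √(P : ℝ) := by
      rw [Real.sqrt_le_left (by positivity)]
      push_cast
      nlinarith
    linarith
  set β : ℝ := bin (1 - q ^ 2) (2 * P + 1) N with hβ
  have hβ0 : 0 ≤ β := bin_nonneg (by linarith) (by linarith) _ _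
  -- pointwise comparison
  have hpt : ∀ j ∈ range N,
      |cf (1 - q ^ 2) P N j| ≤ 32 * √(P : ℝ) * β * |cf θ' P N j| := by
    intro j hj
    have ht := cf_tilt (1 - q ^ 2) θ' hN2 hNT.le (mem_range.1 hj)
    have ht' := congrArg abs ht
    have hb' : 0 < bin θ' (2 * P + 1) N := lt_of_lt_of_le (by positivity) hmode
    have hw : 0 ≤ (1 - q ^ 2) ^ 2 * (1 - θ') := mul_nonneg (sq_nonneg _) (by linarith)
    have hw' : 0 ≤ θ' ^ 2 * (1 - (1 - q ^ 2)) := mul_nonneg (sq_nonneg _) (by linarith)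
    rw [abs_mul (_ * _), abs_mul (_ * _), abs_of_nonneg hw, abs_of_nonneg hw', abs_mul, abs_mul,
      abs_of_pos hb', abs_of_nonneg hβ0] at ht'
    have f1 : q ^ 2 / 4 ≤ (1 - q ^ 2) ^ 2 * (1 - θ') := by
      have : (1 / 2 : ℝ) ≤ (1 - q ^ 2) ^ 2 := by nlinarith
      nlinarith
    have f2 : θ' ^ 2 * (1 - (1 - q ^ 2)) ≤ q ^ 2 := by
      have : θ' ^ 2 ≤ 1 := by nlinarith
      nlinarith
    have f3 : |cf (1 - q ^ 2) P N j| * (1 / (8 * √(P : ℝ))) * (q ^ 2 / 4) ≤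
        |cf θ' P N j| * β * q ^ 2 := by
      calc _ ≤ |cf (1 - q ^ 2) P N j| * bin θ' (2 * P + 1) N * ((1 - q ^ 2) ^ 2 * (1 - θ')) := by
            gcongr
        _ = _ := ht'
        _ ≤ _ := by gcongr
    have f4 : |cf (1 - q ^ 2) P N j| =
        |cf (1 - q ^ 2) P N j| * (1 / (8 * √(P : ℝ))) * (q ^ 2 / 4) * (32 * √(P : ℝ) / q ^ 2) := by
      field_simp
      ring
    rw [f4]
    calc _ ≤ |cf θ' P N j| * β * q ^ 2 * (32 * √(P : ℝ) / q ^ 2) := by gcongr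
      _ = _ := by field_simp
  obtain ⟨r1, r2⟩ := BaseD_cf_raw (θ := θ') (by linarith) h1' P N
  have g0 : q ^ 2 / 4 ≤ θ' * (1 - θ') := by nlinarith
  have g1 : 1 / (((P : ℝ) + 1) * θ' * (1 - θ')) ≤ 4 / (q ^ 2 * P) := by
    rw [div_le_div_iff₀ (by nlinarith) (by positivity)]
    nlinarith
  have g2 : 1 / √(((P : ℝ) + 2) * θ' * (1 - θ')) ≤ 2 / (q * √(P : ℝ)) := by
    have : q * √(P : ℝ) / 2 ≤ √(((P : ℝ) + 2) * θ' * (1 - θ')) := by
      refine Real.le_sqrt_of_sq_le ?_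
      have : (q * √(P : ℝ) / 2) ^ 2 = q ^ 2 / 4 * P := by
        rw [div_pow, mul_pow, Real.sq_sqrt (by linarith)]; ring
      rw [this]
      nlinarith
    refine (one_div_le_one_div_of_le (by positivity) this).trans (le_of_eq ?_)
    field_simp
  have g3 : 0 ≤ 1 / (((P : ℝ) + 1) * θ' * (1 - θ')) := by
    have : 0 < 1 - θ' := by linarith
    have : 0 < θ' := by linarith
    positivity
  constructor
  · calc _ ≤ ∑ j ∈ range N, 32 * √(P : ℝ) * β * |cf θ' P N j| := sum_le_sum hpt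
      _ = 32 * √(P : ℝ) * β * ∑ j ∈ range N, |cf θ' P N j| := by rw [mul_sum]
      _ ≤ 32 * √(P : ℝ) * β * (2 * (4 / (q ^ 2 * P))) := by
          refine mul_le_mul_of_nonneg_left (r1.trans ?_) (by positivity)
          linarith
      _ = _ := by
          set s := √(P : ℝ) with hs
          rw [← hsq]
          field_simp
          ring
  · calc _ ≤ ∑ j ∈ range N, (32 * √(P : ℝ) * β) ^ 2 * cf θ' P N j ^ 2 := by
          refine sum_le_sum fun j hj => ?_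
          rw [← sq_abs, ← sq_abs (cf θ' P N j), ← mul_pow]
          exact pow_le_pow_left₀ (abs_nonneg _) (hpt j hj) 2
      _ = (32 * √(P : ℝ) * β) ^ 2 * ∑ j ∈ range N, cf θ' P N j ^ 2 := by rw [mul_sum]
      _ ≤ (32 * √(P : ℝ) * β) ^ 2 * (4 * (4 / (q ^ 2 * P)) ^ 2 * (2 / (q * √(P : ℝ)))) := by
          refine mul_le_mul_of_nonneg_left (r2.trans ?_) (by positivity)
          gcongr
      _ = _ := by
          set s := √(P : ℝ) with hs
          rw [← hsq]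
          field_simp
          ring

variable {M : Type} [Monoid M] {p : ℕ}

lemma BaseD_tri {A : Type} [AddCommMonoid A] (P : ℕ) (g : ℕ → ℕ → A)
    (h1 : ∀ s b, P < s → g s b = 0) (h2 : ∀ s b, P < b → g s b = 0) :
    ∑ s ∈ range (2 * P + 1), ∑ b ∈ range (2 * P + 1 - s), g s b =
      ∑ s ∈ range (P + 1), ∑ b ∈ range (P + 1), g s b := by
  rw [← sum_subset (s₁ := range (P + 1)) (s₂ := range (2 * P + 1))
    (range_subset_range.2 (by omega))]
  · refine sum_congr rfl fun s hs => ?_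
    have := mem_range.1 hs
    refine (sum_subset (range_subset_range.2 (by omega)) fun b _ hb => h2 s b ?_).symm
    simp only [mem_range] at hb
    omega
  · intro s _ hs
    simp only [mem_range] at hs
    exact sum_eq_zero fun b _ => h1 s b (by omega)

/-- regrouping by the total number `N = s + s' + 2` of letters, for any weight `χ N` -/
lemma regroup (θ : ℝ) (μ Y : Al M) (P : ℕ) (χ : ℕ → ℝ) :
    ∑ s ∈ range (P + 1), ∑ s' ∈ range (P + 1), (χ (s + s' + 2) * (bin θ P s * bin θ P s')) •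
        (μ ^ s * (μ * Y - Y * μ) * μ ^ s') =
      ∑ N ∈ range (2 * P + 3), ∑ j ∈ range N, (χ N * cf θ P N j) • ins μ Y N {j} := by
  set f1 : ℕ → ℕ → Al M := fun a b =>
    (χ (a + b + 1) * ((if a = 0 then 0 else bin θ P (a - 1)) * bin θ P b)) • (μ ^ a * Y * μ ^ b)
    with hf1
  set f2 : ℕ → ℕ → Al M := fun a b =>
    (χ (a + b + 1) * (bin θ P a * (if b = 0 then 0 else bin θ P (b - 1)))) • (μ ^ a * Y * μ ^ b)
    with hf2
  have hR : ∑ N ∈ range (2 * P + 3), ∑ j ∈ range N, (χ N * cf θ P N j) • ins μ Y N {j} =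
      ∑ m ∈ range (2 * P + 2), ∑ j ∈ range (m + 1), f1 j (m - j) -
        ∑ m ∈ range (2 * P + 2), ∑ j ∈ range (m + 1), f2 j (m - j) := by
    rw [sum_range_succ', sum_range_zero, add_zero, ← sum_sub_distrib]
    refine sum_congr rfl fun m _ => ?_
    rw [← sum_sub_distrib]
    refine sum_congr rfl fun j hj => ?_
    have hj' := mem_range.1 hj
    rw [ins_singleton _ _ hj', BaseD_cf_eq, hf1, hf2]
    simp only [Nat.add_sub_cancel]
    rw [show j + (m - j) + 1 = m + 1 by omega, ← sub_smul, mul_sub]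
  have hA : ∑ m ∈ range (2 * P + 2), ∑ j ∈ range (m + 1), f1 j (m - j) =
      ∑ s ∈ range (P + 1), ∑ b ∈ range (P + 1), f1 (s + 1) b := by
    rw [sum_range_diag_flip, sum_range_succ']
    have z : ∑ k ∈ range (2 * P + 2 - 0), f1 0 k = 0 := sum_eq_zero fun k _ => by simp [hf1]
    rw [z, add_zero, ← BaseD_tri P (fun s b => f1 (s + 1) b)]
    · refine sum_congr rfl fun s _ => ?_
      rw [show 2 * P + 2 - (s + 1) = 2 * P + 1 - s by omega]
    · intro s b hs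
      simp [hf1, bin_eq_zero θ hs]
    · intro s b hb
      simp [hf1, bin_eq_zero θ hb]
  have hB : ∑ m ∈ range (2 * P + 2), ∑ j ∈ range (m + 1), f2 j (m - j) =
      ∑ s ∈ range (P + 1), ∑ b ∈ range (P + 1), f2 s (b + 1) := by
    rw [sum_range_diag_flip, sum_range_succ]
    have z : ∑ k ∈ range (2 * P + 2 - (2 * P + 1)), f2 (2 * P + 1) k = 0 := by
      rw [show 2 * P + 2 - (2 * P + 1) = 1 by omega]
      simp [hf2]
    rw [z, add_zero, ← BaseD_tri P (fun s b => f2 s (b + 1))]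
    · refine sum_congr rfl fun s hs => ?_
      have := mem_range.1 hs
      rw [show 2 * P + 2 - s = 2 * P + 1 - s + 1 by omega, sum_range_succ']
      simp [hf2]
    · intro s b hs
      simp [hf2, bin_eq_zero θ hs]
    · intro s b hb
      simp [hf2, bin_eq_zero θ hb]
  rw [hR, hA, hB, ← sum_sub_distrib]
  refine sum_congr rfl fun s _ => ?_
  rw [← sum_sub_distrib]
  refine sum_congr rfl fun b _ => ?_
  simp only [hf1, hf2, Nat.add_sub_cancel, Nat.add_eq_zero_iff, one_ne_zero, and_false, if_false]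
  rw [show s + 1 + b + 1 = s + b + 2 by omega, show s + (b + 1) + 1 = s + b + 2 by omega,
    ← smul_sub]
  congr 1
  rw [pow_succ μ s, pow_succ' μ b]
  noncomm_ring

lemma BaseD_diff (θ θ₂ : ℝ) (μ o : Al M) (P : ℕ) :
    Bq θ μ ^ (P + 1) * Bq θ₂ o * Bq θ μ ^ P - Bq θ μ ^ P * Bq θ₂ o * Bq θ μ ^ (P + 1) =
      (θ * θ₂) • ∑ s ∈ range (P + 1), ∑ s' ∈ range (P + 1), (bin θ P s * bin θ P s') •
        (μ ^ s * (μ * (o - μ) - (o - μ) * μ) * μ ^ s') := by
  have h1 : Bq θ μ * Bq θ₂ o - Bq θ₂ o * Bq θ μ = (θ * θ₂) • (μ * (o - μ) - (o - μ) * μ) := by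
    unfold Bq
    simp only [add_mul, mul_add, smul_mul_assoc, mul_smul_comm, one_mul, mul_one, mul_sub, sub_mul,
      smul_sub, smul_smul, smul_add]
    module
  have h2 : Bq θ μ ^ (P + 1) * Bq θ₂ o * Bq θ μ ^ P - Bq θ μ ^ P * Bq θ₂ o * Bq θ μ ^ (P + 1) =
      Bq θ μ ^ P * (Bq θ μ * Bq θ₂ o - Bq θ₂ o * Bq θ μ) * Bq θ μ ^ P := by
    nth_rewrite 2 [pow_succ']
    rw [pow_succ]
    noncomm_ring
  rw [h2, h1, mul_smul_comm, smul_mul_assoc, Bq_pow, sum_mul, sum_mul]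
  congr 1
  refine sum_congr rfl fun s _ => ?_
  rw [mul_sum]
  refine sum_congr rfl fun s' _ => ?_
  rw [smul_mul_assoc, smul_mul_assoc, mul_smul_comm, smul_smul]

lemma BaseD_ref {q θ : ℝ} (hq : 0 < q) (hq1 : q ≤ 1) (h0 : 0 ≤ θ) (h1 : θ ≤ 1) {μ o : Al M}
    (hμ : IsProb μ) (ho : IsProb o) (P : ℕ) :
    NN ((1 / q) • (Bq θ μ ^ P * Bq (1 - q) o * Bq θ μ ^ (P + 1)) - Bq θ μ ^ (2 * P + 1)) := by
  have hB := (hμ.bq h0 h1).1
  have e : (1 / q) • (Bq θ μ ^ P * Bq (1 - q) o * Bq θ μ ^ (P + 1)) - Bq θ μ ^ (2 * P + 1) =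
      ((1 - q) / q) • (Bq θ μ ^ P * o * Bq θ μ ^ (P + 1)) := by
    have e1 : Bq θ μ ^ (2 * P + 1) = Bq θ μ ^ P * Bq θ μ ^ (P + 1) := by
      rw [← pow_add]; congr 1; omega
    have e2 : Bq (1 - q) o = q • (1 : Al M) + (1 - q) • o := by
      unfold Bq; rw [sub_sub_cancel]
    rw [e1, e2, mul_add, add_mul, mul_smul_comm, mul_smul_comm, smul_mul_assoc, smul_mul_assoc,
      mul_one, smul_add, smul_smul, smul_smul, one_div_mul_cancel hq.ne', one_smul,
      add_sub_cancel_left]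
    congr 1
    ring
  rw [e]
  exact (((hB.pow _).mul ho.1).mul (hB.pow _)).smul (div_nonneg (by linarith) hq.le)

/-- `V - U = (1-q) θ • B^P (μY - Yμ) B^P`; `D` = the typical part (`χ` = indicator of typical `N`).
Per `N`: `chaos1` with singletons, `Nb.of_dom`, then `Nb.mix_const` over `N ∈ range (T+1)` with
weights `bin θ T N` (`Bq_pow`), and `Nb.ref_mono` (`U ≥ q B^T`).  Error: `bin_pair_atyp`,
`l1 (μY - Yμ) ≤ 4`. -/
theorem baseD (hp : Even p) (hp2 : 2 ≤ p) {q : ℝ} (hq : 0 < q) (hq2 : q ≤ 1 / 2) {μ o : Al M}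
    (hμ : IsProb μ) (ho : IsProb o) (hdom : Dom (o - μ) ((2 / q) • μ)) {P : ℕ} (hP : 2 ≤ P) :
    ∃ D : Al M, mass D = 0 ∧
      Dom D ((512 / (q ^ 4 * √(P : ℝ))) •
        (Bq (1 - q ^ 2) μ ^ P * Bq (1 - q) o * Bq (1 - q ^ 2) μ ^ (P + 1))) ∧
      Nb p (Bq (1 - q ^ 2) μ ^ P * Bq (1 - q) o * Bq (1 - q ^ 2) μ ^ (P + 1)) D
        (√(1600000 * p / (q ^ 9 * (P * √(P : ℝ))))) ∧
      l1 (Bq (1 - q ^ 2) μ ^ (P + 1) * Bq (1 - q) o * Bq (1 - q ^ 2) μ ^ P -
        (Bq (1 - q ^ 2) μ ^ P * Bq (1 - q) o * Bq (1 - q ^ 2) μ ^ (P + 1) + D)) ≤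
        16 * Real.exp (-(q ^ 2 * P / 4)) := by
  classical
  have hp1 : 1 ≤ p := by omega
  have hP' : (2 : ℝ) ≤ P := by exact_mod_cast hP
  have hsP : 0 < √(P : ℝ) := Real.sqrt_pos.2 (by linarith)
  have hq4 : q ^ 2 ≤ 1 / 4 := by nlinarith
  have hq0 : 0 < q ^ 2 := by positivity
  set θ : ℝ := 1 - q ^ 2 with hθ
  have hθ0 : 0 < θ := by linarith
  have hθ1 : θ < 1 := by linarith
  set Y := o - μ with hY
  have hY0 : mass Y = 0 := by rw [hY, mass_sub, ho.2, hμ.2, sub_self]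
  set typ : ℕ → Prop := fun N => q ^ 2 * (2 * P + 1) / 2 ≤ (2 * P + 1 : ℝ) - N ∧
    (2 * P + 1 : ℝ) - N ≤ 2 * q ^ 2 * (2 * P + 1) with htyp
  set χ : ℕ → ℝ := fun N => if typ N then 1 else 0 with hχ
  set U := Bq θ μ ^ P * Bq (1 - q) o * Bq θ μ ^ (P + 1) with hU
  have hBp : IsProb (Bq θ μ) := hμ.bq hθ0.le hθ1.le
  have hUp : IsProb U := ((hBp.pow _).mul (ho.bq (by linarith) (by linarith))).mul (hBp.pow _)
  have href := BaseD_ref hq (by linarith) hθ0.le hθ1.le hμ ho P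
  have hc0 : 0 ≤ θ * (1 - q) := mul_nonneg hθ0.le (by linarith)
  have hc1 : θ * (1 - q) ≤ 1 := mul_le_one₀ hθ1.le (by linarith) (by linarith)
  -- the typical part, regrouped
  set X : ℕ → Al M := fun N =>
    ∑ j ∈ range N, (χ N * cf θ P N j / bin θ (2 * P + 1) N) • ins μ Y N {j} with hX
  have hD : ∑ N ∈ range (2 * P + 3), ∑ j ∈ range N, (χ N * cf θ P N j) • ins μ Y N {j} =
      ∑ N ∈ range (2 * P + 1 + 1), bin θ (2 * P + 1) N • X N := by
    rw [sum_range_succ]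
    have z : χ (2 * P + 2) = 0 := by
      rw [hχ]
      refine if_neg fun h => ?_
      have := (BaseD_typ hq hq2 hP h.1 h.2).2
      omega
    rw [z]
    simp only [zero_mul, zero_smul, sum_const_zero, add_zero]
    refine sum_congr rfl fun N hN => ?_
    have hb := BaseD_bin_pos hθ0 hθ1 (show N ≤ 2 * P + 1 by have := mem_range.1 hN; omega)
    rw [hX, smul_sum]
    refine sum_congr rfl fun j _ => ?_
    rw [smul_smul, mul_div_cancel₀ _ hb.ne']
  have hsub : ∀ N, ∀ j ∈ range N, ({j} : Finset ℕ) ⊆ range N := fun N j hj =>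
    singleton_subset_iff.2 hj
  have hc : ∀ N ∈ range (2 * P + 1 + 1),
      ∑ j ∈ range N, |χ N * cf θ P N j / bin θ (2 * P + 1) N| ≤ 256 / (q ^ 2 * √(P : ℝ)) ∧
      ∑ j ∈ range N, (χ N * cf θ P N j / bin θ (2 * P + 1) N) ^ 2 ≤
        131072 / (q ^ 5 * (P * √(P : ℝ))) := by
    intro N hN
    have hb := BaseD_bin_pos hθ0 hθ1 (show N ≤ 2 * P + 1 by have := mem_range.1 hN; omega)
    by_cases h : typ N
    · obtain ⟨r1, r2⟩ := cf_bounds hq hq2 hP h.1 h.2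
      have e : χ N = 1 := if_pos h
      simp only [e, one_mul, abs_div, abs_of_pos hb, div_pow]
      rw [← sum_div, ← sum_div, div_le_iff₀ hb, div_le_iff₀ (by positivity)]
      exact ⟨r1, r2⟩
    · have e : χ N = 0 := if_neg h
      simp only [e, zero_mul, zero_div, abs_zero, sum_const_zero, ne_eq, OfNat.ofNat_ne_zero,
        not_false_eq_true, zero_pow]
      constructor <;> positivity
  refine ⟨(θ * (1 - q)) • ∑ N ∈ range (2 * P + 1 + 1), bin θ (2 * P + 1) N • X N, ?_, ?_, ?_, ?_⟩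
  · rw [mass_smul, mass_sum, sum_eq_zero, mul_zero]
    intro N _
    rw [mass_smul, hX, mass_sum, sum_eq_zero, mul_zero]
    intro j hj
    rw [mass_smul, mass_ins μ hY0 (hsub N j hj) (singleton_nonempty j), mul_zero]
  · have h1 : ∀ N ∈ range (2 * P + 1 + 1), Dom (bin θ (2 * P + 1) N • X N)
        ((512 / (q ^ 3 * √(P : ℝ))) • (bin θ (2 * P + 1) N • μ ^ N)) := by
      intro N hN
      have hb := bin_nonneg hθ0.le hθ1.le (2 * P + 1) N
      have h2 : Dom (X N) (∑ j ∈ range N,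
          |χ N * cf θ P N j / bin θ (2 * P + 1) N| • ((2 / q) • μ ^ N)) := by
        refine Dom.sum fun j hj => Dom.smul ?_ _
        have := dom_ins hμ.1 hdom (hsub N j hj)
        rwa [card_singleton, pow_one] at this
      rw [← sum_smul, smul_smul] at h2
      have h3 := (h2.mono_smul (hμ.1.pow N) (b := 512 / (q ^ 3 * √(P : ℝ))) (by
        calc _ ≤ 256 / (q ^ 2 * √(P : ℝ)) * (2 / q) :=
              mul_le_mul_of_nonneg_right (hc N hN).1 (by positivity)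
          _ = _ := by field_simp; norm_num)).smul (bin θ (2 * P + 1) N)
      rwa [abs_of_nonneg hb, smul_comm] at h3
    have h4 := Dom.sum h1
    rw [← smul_sum, ← Bq_pow] at h4
    have h5 := (h4.smul (θ * (1 - q)))
    rw [smul_smul] at h5
    have h6 := h5.mono_smul (hBp.1.pow _) (b := 512 / (q ^ 3 * √(P : ℝ))) (by
      rw [abs_of_nonneg hc0]
      exact mul_le_of_le_one_left (by positivity) hc1)
    refine h6.mono ?_
    have e : (512 / (q ^ 4 * √(P : ℝ))) • U - (512 / (q ^ 3 * √(P : ℝ))) • Bq θ μ ^ (2 * P + 1) =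
        (512 / (q ^ 3 * √(P : ℝ))) • ((1 / q) • U - Bq θ μ ^ (2 * P + 1)) := by
      rw [smul_sub, smul_smul]
      congr 2
      field_simp
    rw [e]
    exact href.smul (by positivity)
  · have hδ : Nb p μ Y (2 / q) := Nb.of_dom hμ.1 hμ.2.le (by positivity) hdom
    set β : ℝ := √(1572864 * p / (q ^ 7 * (P * √(P : ℝ)))) with hβ
    have h1 : ∀ N ∈ range (2 * P + 1 + 1), Nb p (μ ^ N) (X N) β := by
      intro N hN
      have h2 := chaos1 hp hp2 hμ hY0 hδ N (range N) (fun j => {j}) (hsub N)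
        (fun j => χ N * cf θ P N j / bin θ (2 * P + 1) N) 1 (fun i _ => by
          have : ((range N).filter fun i' => ({i'} : Finset ℕ) = {i}).card ≤ 1 := by
            refine card_le_one.2 fun a ha b hb => ?_
            have h1 := singleton_injective (mem_filter.1 ha).2
            have h2 := singleton_injective (mem_filter.1 hb).2
            rw [h1, h2]
          exact_mod_cast this)
      refine h2.mono (Real.sqrt_le_sqrt ?_)
      simp only [card_singleton, pow_one, one_mul]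
      rw [← sum_mul]
      calc _ ≤ 131072 / (q ^ 5 * (P * √(P : ℝ))) * (3 * p * (2 / q) ^ 2) :=
            mul_le_mul_of_nonneg_right (hc N hN).2 (by positivity)
        _ = _ := by field_simp; norm_num
    have h3 := Nb.mix_const hp1 (range (2 * P + 1 + 1)) (fun N => bin θ (2 * P + 1) N)
      (fun N => μ ^ N) X (Real.sqrt_nonneg _) (fun N _ => bin_nonneg hθ0.le hθ1.le _ _)
      (bin_sum θ _).le (fun N _ => hμ.1.pow N) h1
    rw [← Bq_pow] at h3
    have h4 := Nb.ref_mono hp1 (hBp.1.pow _) hUp.1 (C := 1 / q)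
      (by rw [le_div_iff₀ hq]; linarith) href (h3.smul (θ * (1 - q)))
    refine h4.mono ?_
    rw [abs_of_nonneg hc0]
    have hβ0 : 0 ≤ β := Real.sqrt_nonneg _
    calc _ ≤ 1 / q * β := by
          refine mul_le_mul_of_nonneg_left (mul_le_of_le_one_left hβ0 hc1) (by positivity)
      _ ≤ _ := by
          refine Real.le_sqrt_of_sq_le ?_
          rw [mul_pow, hβ, Real.sq_sqrt (by positivity)]
          calc _ = 1572864 * p / (q ^ 9 * (P * √(P : ℝ))) := by field_simp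
            _ ≤ _ := by gcongr; norm_num
  · rw [← hD, ← regroup θ μ Y P χ, ← sub_sub, hU, BaseD_diff, ← hY, ← smul_sub, ← sum_sub_distrib,
      l1_smul, abs_of_nonneg hc0]
    have hZ : ∀ s s' : ℕ, l1 (μ ^ s * (μ * Y - Y * μ) * μ ^ s') ≤ 4 := by
      intro s s'
      refine (l1_mul_mul_le (hμ.pow s) (hμ.pow s') _).trans ?_
      have e : μ * Y - Y * μ = μ * o - o * μ := by rw [hY]; noncomm_ring
      have := l1_sub_le (μ * o) (o * μ)
      rw [(hμ.mul ho).l1_eq, (ho.mul hμ).l1_eq] at this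
      rw [e]
      linarith
    have h1 := bin_pair_atyp hq hq2 P
    refine (mul_le_of_le_one_left (l1_nonneg _) hc1).trans ?_
    refine (l1_sum_le _ _).trans (le_trans ?_ (show 4 * _ ≤ _ by linarith [h1] :
      4 * (∑ s ∈ range (P + 1), ∑ s' ∈ range (P + 1),
        (if q ^ 2 * (2 * P + 1) / 2 ≤ (2 * P + 1 : ℝ) - (s + s' + 2) ∧
          (2 * P + 1 : ℝ) - (s + s' + 2) ≤ 2 * q ^ 2 * (2 * P + 1) then 0
        else bin (1 - q ^ 2) P s * bin (1 - q ^ 2) P s')) ≤ _))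
    rw [mul_sum]
    refine sum_le_sum fun s _ => ?_
    rw [← sum_sub_distrib, mul_sum]
    refine (l1_sum_le _ _).trans (sum_le_sum fun s' _ => ?_)
    rw [← sub_smul, l1_smul]
    have hb : 0 ≤ bin θ P s * bin θ P s' :=
      mul_nonneg (bin_nonneg hθ0.le hθ1.le _ _) (bin_nonneg hθ0.le hθ1.le _ _)
    have ht : typ (s + s' + 2) ↔ (q ^ 2 * (2 * P + 1) / 2 ≤ (2 * P + 1 : ℝ) - (s + s' + 2) ∧
        (2 * P + 1 : ℝ) - (s + s' + 2) ≤ 2 * q ^ 2 * (2 * P + 1)) := by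
      rw [htyp]
      push_cast
      rfl
    by_cases h : typ (s + s' + 2)
    · have e : χ (s + s' + 2) = 1 := if_pos h
      rw [if_pos (ht.1 h), e]
      simp
    · have e : χ (s + s' + 2) = 0 := if_neg h
      rw [if_neg (fun h' => h (ht.2 h')), e, zero_mul, sub_zero, abs_of_nonneg hb, mul_comm]
      exact mul_le_mul_of_nonneg_right (hZ s s') hb

end Crest.Agent.R300L
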