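import Crest.Agent.R300L.Alg

/-!
# Binomial weights: moments, the difference identity, smoothing
-/

set_option autoImplicit false
open Finset

noncomputable section
namespace Crest.Agent.R300L

variable {θ : ℝ}

lemma bin_nonneg (h0 : 0 ≤ θ) (h1 : θ ≤ 1) (t s : ℕ) : 0 ≤ bin θ t s := by
  unfold bin
  have : 0 ≤ 1 - θ := by linarith
  positivity
lemma bin_eq_zero (θ : ℝ) {t s : ℕ} (h : t < s) : bin θ t s = 0 := by
  simp [bin, Nat.choose_eq_zero_of_lt h]
/-- generating function (`add_pow`) -/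
lemma bin_mgf (θ x : ℝ) (t : ℕ) : ∑ s ∈ range (t + 1), bin θ t s * x ^ s = (1 - θ + θ * x) ^ t := by
  rw [add_comm (1 - θ), add_pow]
  refine sum_congr rfl fun s _ => ?_
  rw [bin, mul_pow]; ring
lemma bin_sum (θ : ℝ) (t : ℕ) : ∑ s ∈ range (t + 1), bin θ t s = 1 := by
  simpa using bin_mgf θ 1 t
/-- Pascal recursion -/
lemma bin_succ (θ : ℝ) (t s : ℕ) :
    bin θ (t + 1) s = θ * (if s = 0 then 0 else bin θ t (s - 1)) + (1 - θ) * bin θ t s := by
  cases s with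
  | zero => simp [bin, pow_succ, mul_comm]
  | succ s =>
    simp only [bin, Nat.succ_ne_zero, if_false, Nat.add_sub_cancel, Nat.choose_succ_succ',
      Nat.add_sub_add_right]
    push_cast
    rcases Nat.lt_or_ge t (s + 1) with h | h
    · rw [Nat.choose_eq_zero_of_lt h]; push_cast; ring
    · obtain ⟨d, rfl⟩ := Nat.exists_eq_add_of_le h
      rw [show s + 1 + d - s = d + 1 by omega, show s + 1 + d - (s + 1) = d by omega]
      ring
lemma Bin_step (θ : ℝ) (t : ℕ) (f : ℕ → ℝ) :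
    ∑ s ∈ range (t + 2), bin θ (t + 1) s * f s =
      θ * ∑ s ∈ range (t + 1), bin θ t s * f (s + 1) +
        (1 - θ) * ∑ s ∈ range (t + 1), bin θ t s * f s := by
  have e : ∑ s ∈ range (t + 2), bin θ (t + 1) s * f s =
      θ * ∑ s ∈ range (t + 2), (if s = 0 then 0 else bin θ t (s - 1)) * f s +
        (1 - θ) * ∑ s ∈ range (t + 2), bin θ t s * f s := by
    rw [mul_sum, mul_sum, ← sum_add_distrib]
    exact sum_congr rfl fun s _ => by rw [bin_succ]; ring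
  rw [e, sum_range_succ' _ (t + 1), sum_range_succ (fun s => bin θ t s * f s) (t + 1),
    bin_eq_zero θ (Nat.lt_succ_self t)]
  simp
lemma Bin_mean (θ : ℝ) (t : ℕ) : ∑ s ∈ range (t + 1), bin θ t s * (s : ℝ) = θ * t := by
  induction t with
  | zero => simp
  | succ t ih =>
    rw [Bin_step θ t (fun s => (s : ℝ))]
    push_cast
    simp only [mul_add, sum_add_distrib, mul_one, ih, bin_sum]
    ring
lemma Bin_sq (θ : ℝ) (t : ℕ) :
    ∑ s ∈ range (t + 1), bin θ t s * (s : ℝ) ^ 2 = t * θ * (1 - θ) + (θ * t) ^ 2 := by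
  induction t with
  | zero => simp
  | succ t ih =>
    rw [Bin_step θ t (fun s => (s : ℝ) ^ 2)]
    have e : ∑ s ∈ range (t + 1), bin θ t s * ((s + 1 : ℕ) : ℝ) ^ 2 =
        ∑ s ∈ range (t + 1), bin θ t s * (s : ℝ) ^ 2 +
          2 * ∑ s ∈ range (t + 1), bin θ t s * (s : ℝ) + ∑ s ∈ range (t + 1), bin θ t s := by
      rw [mul_sum, ← sum_add_distrib, ← sum_add_distrib]
      exact sum_congr rfl fun s _ => by push_cast; ring
    rw [e, ih, Bin_mean, bin_sum]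
    push_cast
    ring
/-- variance (induction on `t` with `bin_succ`, or `bernsteinPolynomial.variance`) -/
lemma bin_var (θ : ℝ) (t : ℕ) :
    ∑ s ∈ range (t + 1), bin θ t s * ((s : ℝ) - θ * t) ^ 2 = t * θ * (1 - θ) := by
  have h1 := Bin_mean θ t
  have h2 := Bin_sq θ t
  have h0 := bin_sum θ t
  have e : ∑ s ∈ range (t + 1), bin θ t s * ((s : ℝ) - θ * t) ^ 2 =
      ∑ s ∈ range (t + 1), bin θ t s * (s : ℝ) ^ 2 -
        2 * (θ * t) * ∑ s ∈ range (t + 1), bin θ t s * (s : ℝ) +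
        (θ * t) ^ 2 * ∑ s ∈ range (t + 1), bin θ t s := by
    rw [mul_sum, mul_sum, ← sum_sub_distrib, ← sum_add_distrib]
    exact sum_congr rfl fun s _ => by ring
  rw [e, h0, h1, h2]; ring
lemma bin_cheb (h0 : 0 ≤ θ) (h1 : θ ≤ 1) (t : ℕ) {d : ℝ} (hd : 0 < d) :
    ∑ s ∈ (range (t + 1)).filter (fun s : ℕ => d ≤ |(s : ℝ) - θ * t|), bin θ t s ≤
      t * θ * (1 - θ) / d ^ 2 := by
  rw [le_div_iff₀ (by positivity), sum_mul, ← bin_var θ t]
  refine le_trans (sum_le_sum fun s hs => ?_) (sum_le_sum_of_subset_of_nonneg (filter_subset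
    (fun s : ℕ => d ≤ |(s : ℝ) - θ * t|) _)
    fun s _ _ => mul_nonneg (bin_nonneg h0 h1 t s) (sq_nonneg _))
  refine mul_le_mul_of_nonneg_left ?_ (bin_nonneg h0 h1 t s)
  rw [← sq_abs ((s : ℝ) - θ * t)]
  exact pow_le_pow_left₀ hd.le (mem_filter.1 hs).2 2
/-- the difference identity (`Nat.succ_mul_choose_eq`, `Nat.choose_mul_succ_eq`) -/
lemma dbin_eq (θ : ℝ) (t s : ℕ) :
    dbin θ t s * (((t : ℝ) + 1) * θ * (1 - θ)) = bin θ (t + 1) s * ((s : ℝ) - θ * (t + 1)) := by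
  have h1 : (if s = 0 then 0 else bin θ t (s - 1)) * (((t : ℝ) + 1) * θ) =
      bin θ (t + 1) s * s := by
    cases s with
    | zero => simp
    | succ s =>
      have h : ((t : ℝ) + 1) * t.choose s = (t + 1).choose (s + 1) * ((s : ℝ) + 1) := by
        exact_mod_cast Nat.add_one_mul_choose_eq t s
      simp only [bin, Nat.succ_ne_zero, if_false, Nat.add_sub_cancel, Nat.add_sub_add_right]
      push_cast
      linear_combination (θ ^ (s + 1) * (1 - θ) ^ (t - s)) * h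
  have h2 : bin θ t s * (((t : ℝ) + 1) * (1 - θ)) = bin θ (t + 1) s * (t + 1 - s) := by
    rcases Nat.lt_or_ge t s with h | h
    · rw [bin_eq_zero θ h]
      rcases Nat.lt_or_ge (t + 1) s with h' | h'
      · rw [bin_eq_zero θ h']; simp
      · have : s = t + 1 := by omega
        subst this; simp
    · obtain ⟨d, rfl⟩ := Nat.exists_eq_add_of_le h
      have h := Nat.choose_mul_succ_eq (s + d) s
      rw [show s + d + 1 - s = d + 1 by omega] at h
      have h' : ((s + d).choose s : ℝ) * ((s : ℝ) + d + 1) =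
          (s + d + 1).choose s * ((d : ℝ) + 1) := by exact_mod_cast h
      simp only [bin]
      rw [show s + d + 1 - s = d + 1 by omega, show s + d - s = d by omega]
      push_cast
      linear_combination (θ ^ s * (1 - θ) ^ (d + 1)) * h'
  unfold dbin
  linear_combination (1 - θ) * h1 - θ * h2
/-- Cauchy–Schwarz with `dbin_eq`, `bin_var`, `bin_sum` at `t+1` -/
lemma dbin_l1 (h0 : 0 < θ) (h1 : θ < 1) (t : ℕ) :
    ∑ s ∈ range (t + 2), |dbin θ t s| ≤ 1 / √(((t : ℝ) + 1) * θ * (1 - θ)) := by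
  set V : ℝ := ((t : ℝ) + 1) * θ * (1 - θ) with hV
  have hV0 : 0 < V := by
    have : 0 < 1 - θ := by linarith
    positivity
  have hb := bin_nonneg h0.le h1.le (t + 1)
  have h2 : (∑ s ∈ range (t + 2), |dbin θ t s|) * V =
      ∑ s ∈ range (t + 2), bin θ (t + 1) s * |(s : ℝ) - θ * (t + 1)| := by
    rw [sum_mul]
    refine sum_congr rfl fun s _ => ?_
    rw [← abs_of_pos hV0, ← abs_mul, hV, dbin_eq, abs_mul, abs_of_nonneg (hb s)]
  have h3 : (∑ s ∈ range (t + 2), bin θ (t + 1) s * |(s : ℝ) - θ * (t + 1)|) ^ 2 ≤ V := by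
    have h4 := sum_sq_le_sum_mul_sum_of_sq_le_mul (range (t + 2))
      (r := fun s => bin θ (t + 1) s * |(s : ℝ) - θ * (t + 1)|) (f := fun s => bin θ (t + 1) s)
      (g := fun s => bin θ (t + 1) s * ((s : ℝ) - θ * (t + 1)) ^ 2) (fun s _ => hb s)
      (fun s _ => mul_nonneg (hb s) (sq_nonneg _)) (fun s _ => le_of_eq (by rw [mul_pow, sq_abs]; ring))
    have h5 := bin_var θ (t + 1)
    have h6 := bin_sum θ (t + 1)
    push_cast at h5
    rw [h5, h6, one_mul] at h4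
    exact h4
  have h7 := Real.le_sqrt_of_sq_le h3
  rw [← h2] at h7
  have h8 : 0 < √V := Real.sqrt_pos.2 hV0
  rw [le_div_iff₀ h8]
  refine le_of_mul_le_mul_right ?_ h8
  rw [mul_assoc, Real.mul_self_sqrt hV0.le, one_mul]
  exact h7
/-- `bin s = -∑_{u ≤ s} dbin u` -/
lemma bin_le (h0 : 0 < θ) (h1 : θ < 1) (t s : ℕ) :
    bin θ t s ≤ 1 / √(((t : ℝ) + 1) * θ * (1 - θ)) := by
  rcases Nat.lt_or_ge t s with h | h
  · rw [bin_eq_zero θ h]; positivity
  have e : ∀ u, bin θ t u = -∑ i ∈ range (u + 1), dbin θ t i := by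
    intro u
    induction u with
    | zero => simp [dbin]
    | succ u ih => rw [sum_range_succ, neg_add, ← ih]; simp [dbin]
  rw [e]
  refine (neg_le_abs _).trans ((abs_sum_le_sum_abs _ _).trans (le_trans ?_ (dbin_l1 h0 h1 t)))
  exact sum_le_sum_of_subset_of_nonneg (range_subset_range.2 (by omega)) fun _ _ _ => abs_nonneg _
lemma dbin_sq (h0 : 0 < θ) (h1 : θ < 1) (t : ℕ) :
    ∑ s ∈ range (t + 2), dbin θ t s ^ 2 ≤
      1 / √(((t : ℝ) + 2) * θ * (1 - θ)) / (((t : ℝ) + 1) * θ * (1 - θ)) := by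
  set V : ℝ := ((t : ℝ) + 1) * θ * (1 - θ) with hV
  have hV0 : 0 < V := by
    have : 0 < 1 - θ := by linarith
    positivity
  set C : ℝ := 1 / √(((t : ℝ) + 2) * θ * (1 - θ)) with hC
  have hb := bin_nonneg h0.le h1.le (t + 1)
  have hle : ∀ s, bin θ (t + 1) s ≤ C := fun s => by
    have := bin_le h0 h1 (t + 1) s
    push_cast at this
    rwa [add_assoc, one_add_one_eq_two] at this
  have h5 := bin_var θ (t + 1)
  push_cast at h5
  rw [le_div_iff₀ hV0]
  refine le_of_mul_le_mul_right ?_ hV0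
  calc (∑ s ∈ range (t + 2), dbin θ t s ^ 2) * V * V =
        ∑ s ∈ range (t + 2), bin θ (t + 1) s * (bin θ (t + 1) s * ((s : ℝ) - θ * (t + 1)) ^ 2) := by
        rw [sum_mul, sum_mul]
        refine sum_congr rfl fun s _ => ?_
        rw [mul_assoc, ← sq, ← mul_pow, hV, dbin_eq]; ring
    _ ≤ ∑ s ∈ range (t + 2), C * (bin θ (t + 1) s * ((s : ℝ) - θ * (t + 1)) ^ 2) :=
        sum_le_sum fun s _ => mul_le_mul_of_nonneg_right (hle s) (mul_nonneg (hb s) (sq_nonneg _))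
    _ = C * V := by rw [← mul_sum, h5]

variable {M : Type} [Monoid M]

lemma Bq_pow (θ : ℝ) (μ : Al M) (t : ℕ) :
    Bq θ μ ^ t = ∑ s ∈ range (t + 1), bin θ t s • μ ^ s := by
  rw [Bq, add_comm, Commute.add_pow ((Commute.one_right μ).smul_left θ |>.smul_right (1 - θ))]
  refine sum_congr rfl fun s _ => ?_
  rw [smul_pow, smul_pow, one_pow, smul_mul_smul_comm, mul_one, ← nsmul_eq_mul', ← Nat.cast_smul_eq_nsmul ℝ,
    smul_smul, bin, mul_assoc]
lemma commute_Bq (θ : ℝ) {μ X : Al M} (h : Commute μ X) : Commute (Bq θ μ) X := by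
  exact ((Commute.one_left X).smul_left _).add_left (h.smul_left _)
/-- `Bq^t (μ - 1) = ∑ dbin s • μ^s` -/
lemma Bq_pow_smooth (h0 : 0 < θ) (h1 : θ < 1) {μ : Al M} (hμ : IsProb μ) (t : ℕ) :
    l1 (Bq θ μ ^ t * (μ - 1)) ≤ 1 / √(((t : ℝ) + 1) * θ * (1 - θ)) := by
  have e : Bq θ μ ^ t * (μ - 1) = ∑ s ∈ range (t + 2), dbin θ t s • μ ^ s := by
    simp only [dbin, sub_smul, sum_sub_distrib]
    rw [sum_range_succ' _ (t + 1), sum_range_succ (fun s => bin θ t s • μ ^ s) (t + 1),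
      bin_eq_zero θ (Nat.lt_succ_self t), Bq_pow, mul_sub, mul_one, sum_mul]
    simp [pow_succ]
  rw [e]
  refine (l1_sum_le _ _).trans (le_trans (le_of_eq ?_) (dbin_l1 h0 h1 t))
  exact sum_congr rfl fun s _ => by rw [l1_smul, (hμ.pow s).l1_eq, mul_one]
lemma Bin_tele (X : ℕ → Al M) (i₀ : ℕ) {δ : ℝ} (h : ∀ i, i₀ ≤ i → l1 (X (i + 1) - X i) ≤ δ)
    {i j : ℕ} (hi : i₀ ≤ i) (hj : i₀ ≤ j) : l1 (X i - X j) ≤ |(i : ℝ) - j| * δ := by
  have key : ∀ a d : ℕ, i₀ ≤ a → l1 (X (a + d) - X a) ≤ d * δ := by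
    intro a d ha
    induction d with
    | zero => simp [l1_zero]
    | succ d ih =>
      have h2 := l1_triangle (X (a + d + 1)) (X (a + d)) (X a)
      have h3 := h (a + d) (by omega)
      rw [← add_assoc]
      push_cast
      linarith
  rcases le_total i j with hij | hij
  · obtain ⟨d, rfl⟩ := Nat.exists_eq_add_of_le hij
    rw [l1_sub_comm]
    simpa using key i d hi
  · obtain ⟨d, rfl⟩ := Nat.exists_eq_add_of_le hij
    simpa using key j d hj
/-- comparison of mark-free references `a₀^n B^t` (all polynomials in `μ`): telescope one factor at a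
time, `Bq θ' μ - 1 = θ' • (μ - 1)` -/
lemma ref_compare (h0 : 0 < θ) (h1 : θ < 1) {θ' : ℝ} (h0' : 0 ≤ θ') (h1' : θ' ≤ 1) {μ : Al M}
    (hμ : IsProb μ) {t₀ t t' n n' : ℕ} (ht : t₀ ≤ t) (ht' : t₀ ≤ t') :
    l1 (Bq θ' μ ^ n * Bq θ μ ^ t - Bq θ' μ ^ n' * Bq θ μ ^ t') ≤
      (|(n : ℝ) - n'| + |(t : ℝ) - t'|) / √(((t₀ : ℝ) + 1) * θ * (1 - θ)) := by
  set δ : ℝ := 1 / √(((t₀ : ℝ) + 1) * θ * (1 - θ)) with hδ
  have hA := hμ.bq h0' h1'
  have hB := hμ.bq h0.le h1.le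
  have hs : ∀ m u : ℕ, t₀ ≤ u → l1 (Bq θ' μ ^ m * (Bq θ μ ^ u * (μ - 1))) ≤ δ := by
    intro m u hu
    obtain ⟨d, rfl⟩ := Nat.exists_eq_add_of_le' hu
    rw [pow_add, mul_assoc, ← mul_assoc]
    refine (l1_mul_le _ _).trans ?_
    rw [((hA.pow m).mul (hB.pow d)).l1_eq, one_mul]
    exact Bq_pow_smooth h0 h1 hμ t₀
  have hδ0 : 0 ≤ δ := by positivity
  have hq : ∀ x : ℝ, Bq x μ - 1 = x • (μ - 1) := fun x => by
    rw [Bq, smul_sub, sub_smul, one_smul]; abel
  have c1 := Bin_tele (fun m => Bq θ' μ ^ m * Bq θ μ ^ t) 0 (δ := δ) (fun m _ => by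
    have hc : Commute (μ - 1) (Bq θ μ ^ t) :=
      ((commute_Bq θ ((Commute.refl μ).sub_right (Commute.one_right μ))).pow_left t).symm
    have e : Bq θ' μ ^ (m + 1) * Bq θ μ ^ t - Bq θ' μ ^ m * Bq θ μ ^ t =
        θ' • (Bq θ' μ ^ m * (Bq θ μ ^ t * (μ - 1))) := by
      rw [← hc.eq, ← mul_smul_comm, ← smul_mul_assoc, ← hq, sub_mul, mul_sub, one_mul, pow_succ,
        mul_assoc]
    rw [e, l1_smul, abs_of_nonneg h0']
    exact (mul_le_of_le_one_left (l1_nonneg _) h1').trans (hs m t ht)) (Nat.zero_le n) (Nat.zero_le n')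
  have c2 := Bin_tele (fun u => Bq θ' μ ^ n' * Bq θ μ ^ u) t₀ (δ := δ) (fun u hu => by
    have e : Bq θ' μ ^ n' * Bq θ μ ^ (u + 1) - Bq θ' μ ^ n' * Bq θ μ ^ u =
        θ • (Bq θ' μ ^ n' * (Bq θ μ ^ u * (μ - 1))) := by
      rw [← mul_smul_comm, ← mul_smul_comm, ← hq, mul_sub, mul_sub, mul_one, pow_succ]
    rw [e, l1_smul, abs_of_nonneg h0.le]
    exact (mul_le_of_le_one_left (l1_nonneg _) h1.le).trans (hs n' u hu)) ht ht'
  refine (l1_triangle _ (Bq θ' μ ^ n' * Bq θ μ ^ t) _).trans ((add_le_add c1 c2).trans ?_)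
  rw [hδ, ← add_mul, mul_one_div]

end Crest.Agent.R300L
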