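/-!
# Row 300, lower bound (S0454, S0455): blueprint (comments only)

`Al M = ℝ[M]`; `law p w` is the law of the trace of `w`, `law (u ++ v) = law u * law v`.
`Nb p R X β`: `‖X/R‖_{L^p(R)} ≤ β`.  `K = k^4`, `(η, η')` a Prouhet–Tarry–Escott pair in `range K`.

**Level data** (`Lvl p k b η η' U D B Bu`): `U` a law, `D` of mass `0`, `|D| ≤ U/(2K²)` (`V = U + D` is the
idealised law of the second word); `‖U^{r+1} - U^r‖₁ ≤ 1` for some `r` with `K + k(r+1) + 2 ≤ 2b`;
`L^p` Bessel inequalities on `U^{4b}`, `U^{8b}` for the window operators `E^u = W_η - U^K` (constant `Bu`)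
and `E^d` = part of `W_η' - W_η` with `≥ 2` marks (constant `B`).

**Step** (`Step.step`): `U' = U^P W_η U^P`, `D' = U^P E^d U^P`, `P = 256K³b`, `b' = 4K⁵b²`,
`B' = K⁵B²/(4b)`, `Bu' = K⁵B/(4b)`, `p' = p/g`.  The dropped one-mark term has `ℓ¹` norm `O(K⁴2^{-k})`
(`Lin`: vanishing moments + binomial smoothing on both sides).
*Theorem A* (`Geo`, `Parse`, `Atom`, `ThmA`): every `U' = U^P (U^K + E^u) U^P`, so everything is a sum
of terms `Tb κ` (`κ` = positions of d- and u-windows among `N` periods of `M = 2P+K` units).  Parse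
`U^{NM}` into chunks (`4b` or `8b` units, fair coin `ω`, tilted by `h ≤ 4^{|κ|}` to keep windows inside
chunks) and blocks that consume `l` or `l+1` units according to a hidden coin `ξ` (`Bit`).  Given the
observable atom, `ChaosP.chaos_schur` (martingale `L^p` smoothness + Schur test) bounds the norm by
`∑ c² wt · P(hidden positions match mod M)`, and `AC` bounds this probability by `Θ ∏ φ(gaps)`,
`φ(g) ≈ 1/M + √(b/(gM))`.  Spectator u-windows are summed out in `Gam`, `StepNum`; a cluster far from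
both ends gains `Θ φ(b')² ≲ 1/b`.  `Nb.ref_change` passes from the parse reference to `U'^N`.

**Base** (`q ≤ 1/2`): `u = (01)^P 0 (01)^{P+1}`, `v = (01)^{P+1} 0 (01)^P`; `‖D/U‖_p ≲ q^{-9/2} P^{-3/4}`
(`BaseD`); overlap of `U^r`, `U^{r+1}` at least `2^{-O(1/q³)}` by slipping one period in `O(1/q³)`
pieces, each close to a mark-free reference by a second-moment (collision) bound
(`Hid`, `ColRec`, `Piece`, `Chain`).

**Iteration** (`Iter`, `Param`, `Core`): `x = 4K⁵b ↦ x²`, `y = K^{10}B ↦ y²/x`, so after `d` levels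
`β² ≤ x_d^{-(d+1)/4}`, `d ≈ log₂(q³ log n)`; all errors are `2^{-g}`, `g ≈ (log n)²`.
`Link` translates to `successProb`/`traceTV`.
-/
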