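import Crest.Agent.R300L.Nrm

/-!
# One martingale step in `L^p` (`p` even)
-/

set_option autoImplicit false
open Finset

noncomputable section
namespace Crest.Agent.R300L

variable {M : Type} {p : ℕ}

lemma Chaos_pm {ι : Type*} (s : Finset ι) (r z : ι → ℝ) (hr : ∀ i ∈ s, 0 ≤ r i)
    (h1 : ∑ i ∈ s, r i = 1) {n j : ℕ} (hj : j ≤ n) {b : ℝ} (hb : 0 ≤ b)
    (hz : ∑ i ∈ s, r i * |z i| ^ n ≤ b ^ n) : ∑ i ∈ s, r i * |z i| ^ j ≤ b ^ j := by
  rcases Nat.eq_zero_or_pos j with rfl | hj0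
  · simp [h1]
  have hn0 : 0 < n := lt_of_lt_of_le hj0 hj
  have hjr : (0 : ℝ) < j := by exact_mod_cast hj0
  have hq : (1 : ℝ) ≤ (n : ℝ) / j := by
    rw [le_div_iff₀ hjr, one_mul]; exact_mod_cast hj
  have hq0 : (0 : ℝ) < (n : ℝ) / j := by linarith
  have key := Real.rpow_arith_mean_le_arith_mean_rpow s r (fun i => |z i| ^ j) hr h1
    (fun i _ => by positivity) hq
  have e : ∀ x : ℝ, 0 ≤ x → (x ^ j) ^ ((n : ℝ) / j) = x ^ n := by
    intro x hx
    rw [← Real.rpow_natCast x j, ← Real.rpow_mul hx, mul_div_cancel₀ _ hjr.ne', Real.rpow_natCast]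
  simp only [e _ (abs_nonneg _)] at key
  have h2 := key.trans hz
  rw [← e b hb] at h2
  exact (Real.rpow_le_rpow_iff (sum_nonneg fun i hi => mul_nonneg (hr i hi) (by positivity))
    (by positivity) hq0).1 h2

lemma Chaos_taylor {A b : ℝ} (hA : 0 ≤ A) (hb : 0 ≤ b) (n : ℕ) :
    (A + b) ^ (n + 2) ≤ A ^ (n + 2) + (n + 2) * A ^ (n + 1) * b +
      (n + 2) * (n + 1) / 2 * b ^ 2 * (A + b) ^ n := by
  induction n with
  | zero => simp; nlinarith
  | succ n ih =>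
    have h1 : A ^ (n + 1) ≤ (A + b) ^ (n + 1) := pow_le_pow_left₀ hA (by linarith) _
    have h2 := mul_le_mul_of_nonneg_right ih (add_nonneg hA hb)
    have h3 : (n + 2) * b ^ 2 * A ^ (n + 1) ≤ (n + 2) * b ^ 2 * (A + b) ^ (n + 1) :=
      mul_le_mul_of_nonneg_left h1 (by positivity)
    have e : (A ^ (n + 2) + (n + 2) * A ^ (n + 1) * b +
        (n + 2) * (n + 1) / 2 * b ^ 2 * (A + b) ^ n) * (A + b) =
        A ^ (n + 1 + 2) + (n + 1 + 2) * A ^ (n + 1 + 1) * b + (n + 2) * b ^ 2 * A ^ (n + 1) +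
        (n + 2) * (n + 1) / 2 * b ^ 2 * (A + b) ^ (n + 1) := by ring
    rw [e, ← pow_succ] at h2
    push_cast
    nlinarith

lemma Chaos_bern {x y : ℝ} (hx : 0 ≤ x) (hy : 0 ≤ y) (m : ℕ) :
    x ^ (m + 1) + (m + 1) * x ^ m * y ≤ (x + y) ^ (m + 1) := by
  induction m with
  | zero => simp
  | succ m ih =>
    have h2 := mul_le_mul_of_nonneg_right ih (add_nonneg hx hy)
    rw [← pow_succ] at h2
    have e : (x ^ (m + 1) + (m + 1) * x ^ m * y) * (x + y) =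
        x ^ (m + 1 + 1) + (m + 1 + 1) * x ^ (m + 1) * y + (m + 1) * x ^ m * y ^ 2 := by ring
    have h3 : 0 ≤ (m + 1) * x ^ m * y ^ 2 := by positivity
    push_cast
    linarith

lemma Chaos_num {A b : ℝ} (hA : 0 ≤ A) (hb : 0 ≤ b) (m : ℕ) :
    (A + b) ^ (2 * m + 2) - (2 * m + 2) * A ^ (2 * m + 1) * b ≤
      (A ^ 2 + 3 * (2 * m + 2) * b ^ 2) ^ (m + 1) := by
  have hm : (0 : ℝ) ≤ m := Nat.cast_nonneg m
  have hn : (0 : ℝ) < 2 * m + 2 := by linarith
  rcases le_total A ((2 * m + 2) * b) with h | h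
  · have h1 : (A + b) ^ 2 ≤ A ^ 2 + 3 * (2 * m + 2) * b ^ 2 := by
      have := mul_le_mul_of_nonneg_right h hb
      nlinarith [sq_nonneg b]
    have h2 := pow_le_pow_left₀ (by positivity) h1 (m + 1)
    rw [← pow_mul, show 2 * (m + 1) = 2 * m + 2 by ring] at h2
    have h3 : 0 ≤ (2 * m + 2) * A ^ (2 * m + 1) * b := by positivity
    linarith
  · have h1 := Chaos_taylor hA hb (2 * m)
    have h2 := Chaos_bern (x := A ^ 2) (y := 3 * (2 * m + 2) * b ^ 2) (by positivity)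
      (by positivity) m
    have h3 : A + b ≤ A * Real.exp (1 / (2 * m + 2)) := by
      have h4 := Real.add_one_le_exp (1 / (2 * m + 2 : ℝ))
      have h5 : b ≤ A * (1 / (2 * m + 2)) := by
        rw [mul_one_div, le_div_iff₀ hn]; linarith
      nlinarith
    have h4 : (A + b) ^ (2 * m) ≤ 3 * A ^ (2 * m) := by
      refine (pow_le_pow_left₀ (by positivity) h3 _).trans ?_
      rw [mul_pow, ← Real.exp_nat_mul, mul_comm]
      refine mul_le_mul_of_nonneg_right ?_ (by positivity)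
      have h6 : ((2 * m : ℕ) : ℝ) * (1 / (2 * m + 2)) ≤ 1 := by
        rw [mul_one_div, div_le_one hn]; push_cast; linarith
      exact (Real.exp_le_exp.2 h6).trans Real.exp_one_lt_three.le
    rw [← pow_mul, ← pow_mul, show 2 * (m + 1) = 2 * m + 2 by ring] at h2
    push_cast at h1
    have h5 : (2 * m + 2) * (2 * m + 1) / 2 * b ^ 2 * (A + b) ^ (2 * m) ≤
        (2 * m + 2) * (2 * m + 1) / 2 * b ^ 2 * (3 * A ^ (2 * m)) :=
      mul_le_mul_of_nonneg_left h4 (by positivity)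
    have h6 : 0 ≤ (2 * m + 2) * b ^ 2 * A ^ (2 * m) := by positivity
    nlinarith

/-- `E|a+Z|^{2r} ≤ (a² + 3·2r·b²)^r` if `EZ = 0`, `‖Z‖_{2r} ≤ b`.
Expand `(a+z)^{2r}` binomially; the linear term vanishes and `E|Z|^j ≤ b^j` (power means), so the
left side is `≤ (|a|+b)^{2r} - 2r|a|^{2r-1} b`.  If `|a| ≤ 2r b` then `(|a|+b)² ≤ a² + 6r b²`.
Otherwise `(A+b)^n - A^n - nA^{n-1}b ≤ C(n,2) b² (A+b)^{n-2} ≤ C(n,2)·3·b² A^{n-2}`
(`(1+1/n)^n ≤ 3`) and `(A²+λb²)^r ≥ A^{2r} + rλ b² A^{2r-2}` (Bernoulli / `add_pow_le`). -/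
theorem moment_le {ι : Type*} (s : Finset ι) (r z : ι → ℝ) (hr : ∀ i ∈ s, 0 ≤ r i)
    (h1 : ∑ i ∈ s, r i = 1) (h0 : ∑ i ∈ s, r i * z i = 0) (m : ℕ) (hm : 1 ≤ m) (a b : ℝ)
    (hb : 0 ≤ b) (hz : ∑ i ∈ s, r i * |z i| ^ (2 * m) ≤ b ^ (2 * m)) :
    ∑ i ∈ s, r i * |a + z i| ^ (2 * m) ≤ (a ^ 2 + 3 * (2 * m : ℕ) * b ^ 2) ^ m := by
  obtain ⟨m, rfl⟩ : ∃ k, m = k + 1 := ⟨m - 1, by omega⟩
  have hev : Even (2 * (m + 1)) := even_two_mul _
  have e1 : ∑ i ∈ s, r i * |a + z i| ^ (2 * (m + 1)) =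
      ∑ k ∈ range (2 * (m + 1) + 1),
        (∑ i ∈ s, r i * z i ^ k) * a ^ (2 * (m + 1) - k) * ((2 * (m + 1)).choose k : ℝ) := by
    simp only [sum_mul]
    rw [sum_comm]
    refine sum_congr rfl fun i _ => ?_
    rw [hev.pow_abs, add_comm a, add_pow, mul_sum]
    exact sum_congr rfl fun k _ => by ring
  have e2 : ∀ k ∈ range (2 * (m + 1) + 1),
      (∑ i ∈ s, r i * z i ^ k) * a ^ (2 * (m + 1) - k) * ((2 * (m + 1)).choose k : ℝ) ≤
        b ^ k * |a| ^ (2 * (m + 1) - k) * ((2 * (m + 1)).choose k : ℝ) -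
          if k = 1 then (2 * m + 2) * |a| ^ (2 * m + 1) * b else 0 := by
    intro k hk
    split_ifs with h
    · subst h
      simp only [pow_one, h0, zero_mul, Nat.choose_one_right]
      rw [show 2 * (m + 1) - 1 = 2 * m + 1 by omega]
      push_cast
      exact le_of_eq (by ring)
    · rw [sub_zero]
      refine mul_le_mul_of_nonneg_right ?_ (Nat.cast_nonneg _)
      refine (le_abs_self _).trans ?_
      rw [abs_mul, abs_pow]
      refine mul_le_mul_of_nonneg_right ?_ (by positivity)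
      refine (abs_sum_le_sum_abs _ _).trans (le_trans (le_of_eq ?_)
        (Chaos_pm s r z hr h1 (j := k) (by simp at hk; omega) hb hz))
      exact sum_congr rfl fun i hi => by rw [abs_mul, abs_pow, abs_of_nonneg (hr i hi)]
  rw [e1]
  refine (sum_le_sum e2).trans ?_
  rw [sum_sub_distrib, ← add_pow, sum_ite_eq', if_pos (by simp)]
  have h := Chaos_num (abs_nonneg a) hb m
  rw [sq_abs] at h
  rw [add_comm b, show 2 * (m + 1) = 2 * m + 2 by ring]
  push_cast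
  exact h

variable [Monoid M]

omit [Monoid M] in
/-- Minkowski, two functions -/
lemma Chaos_mink2 {ι : Type*} (s : Finset ι) (r g h : ι → ℝ) (hr : ∀ i ∈ s, 0 ≤ r i)
    (hg : ∀ i ∈ s, 0 ≤ g i) (hh : ∀ i ∈ s, 0 ≤ h i) {m : ℕ} (hm : 1 ≤ m) {γ δ : ℝ} (hγ : 0 ≤ γ)
    (hδ : 0 ≤ δ) (h1 : ∑ i ∈ s, r i * g i ^ m ≤ γ ^ m) (h2 : ∑ i ∈ s, r i * h i ^ m ≤ δ ^ m) :
    ∑ i ∈ s, r i * (g i + h i) ^ m ≤ (γ + δ) ^ m := by
  have hm0 : m ≠ 0 := by omega
  have van : ∀ u : ι → ℝ, (∀ i ∈ s, 0 ≤ u i) → ∑ i ∈ s, r i * u i ^ m ≤ 0 ^ m →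
      ∀ i ∈ s, r i = 0 ∨ u i = 0 := by
    intro u hu hs i hi
    rw [zero_pow hm0] at hs
    have hnn : ∀ i ∈ s, 0 ≤ r i * u i ^ m := fun i hi => mul_nonneg (hr i hi) (pow_nonneg (hu i hi) _)
    have := (sum_eq_zero_iff_of_nonneg hnn).1 (le_antisymm hs (sum_nonneg hnn)) i hi
    rcases mul_eq_zero.1 this with h | h
    · exact Or.inl h
    · exact Or.inr (pow_eq_zero_iff hm0 |>.1 h)
  rcases hγ.eq_or_lt with rfl | hγ
  · rw [zero_add]
    refine le_trans (le_of_eq (sum_congr rfl fun i hi => ?_)) h2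
    rcases van g hg h1 i hi with h | h <;> simp [h]
  rcases hδ.eq_or_lt with rfl | hδ
  · rw [add_zero]
    refine le_trans (le_of_eq (sum_congr rfl fun i hi => ?_)) h1
    rcases van h hh h2 i hi with h | h <;> simp [h]
  have hS : 0 < γ + δ := by linarith
  have pt : ∀ i ∈ s, r i * (g i + h i) ^ m ≤ (γ + δ) ^ m * (γ / (γ + δ) / γ ^ m * (r i * g i ^ m) +
      δ / (γ + δ) / δ ^ m * (r i * h i ^ m)) := by
    intro i hi
    have hc := (convexOn_pow (𝕜 := ℝ) m).2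
      (show g i / γ ∈ Set.Ici 0 from div_nonneg (hg i hi) hγ.le)
      (show h i / δ ∈ Set.Ici 0 from div_nonneg (hh i hi) hδ.le)
      (show 0 ≤ γ / (γ + δ) by positivity) (show 0 ≤ δ / (γ + δ) by positivity) (by field_simp)
    simp only [smul_eq_mul] at hc
    have e : γ / (γ + δ) * (g i / γ) + δ / (γ + δ) * (h i / δ) = (g i + h i) / (γ + δ) := by
      field_simp
    rw [e, div_pow, div_le_iff₀ (by positivity), div_pow, div_pow] at hc
    have := mul_le_mul_of_nonneg_left hc (hr i hi)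
    refine this.trans (le_of_eq ?_)
    ring
  refine (sum_le_sum pt).trans ?_
  rw [← mul_sum, sum_add_distrib, ← mul_sum, ← mul_sum]
  have a1 : γ / (γ + δ) / γ ^ m * ∑ i ∈ s, r i * g i ^ m ≤ γ / (γ + δ) := by
    refine (mul_le_mul_of_nonneg_left h1 (by positivity)).trans (le_of_eq ?_)
    field_simp
  have a2 : δ / (γ + δ) / δ ^ m * ∑ i ∈ s, r i * h i ^ m ≤ δ / (γ + δ) := by
    refine (mul_le_mul_of_nonneg_left h2 (by positivity)).trans (le_of_eq ?_)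
    field_simp
  have a3 : γ / (γ + δ) + δ / (γ + δ) = 1 := by field_simp
  exact mul_le_of_le_one_right (by positivity) (by linarith)

omit [Monoid M] in
/-- Minkowski, finite sums -/
lemma Chaos_mink {ι κ : Type*} (s : Finset ι) (r : ι → ℝ) (hr : ∀ i ∈ s, 0 ≤ r i) {m : ℕ}
    (hm : 1 ≤ m) (S : Finset κ) (g : κ → ι → ℝ) (γ : κ → ℝ) (hg : ∀ k ∈ S, ∀ i ∈ s, 0 ≤ g k i)
    (hγ : ∀ k ∈ S, 0 ≤ γ k) (h : ∀ k ∈ S, ∑ i ∈ s, r i * g k i ^ m ≤ γ k ^ m) :
    ∑ i ∈ s, r i * (∑ k ∈ S, g k i) ^ m ≤ (∑ k ∈ S, γ k) ^ m := by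
  classical
  induction S using Finset.induction_on with
  | empty => simp [zero_pow (show m ≠ 0 by omega)]
  | insert a S ha ih =>
    simp only [sum_insert ha]
    exact Chaos_mink2 s r (g a) (fun i => ∑ k ∈ S, g k i) hr (hg a (mem_insert_self _ _))
      (fun i hi => sum_nonneg fun k hk => hg k (mem_insert_of_mem hk) i hi) hm
      (hγ a (mem_insert_self _ _)) (sum_nonneg fun k hk => hγ k (mem_insert_of_mem hk))
      (h a (mem_insert_self _ _))
      (ih (fun k hk => hg k (mem_insert_of_mem hk)) (fun k hk => hγ k (mem_insert_of_mem hk))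
        (fun k hk => h k (mem_insert_of_mem hk)))

lemma Chaos_dens {R X : Al M} {f : M → ℝ} (h : ∀ τ, X.coeff τ = R.coeff τ * f τ) :
    X = ∑ τ ∈ R.coeff.support, (R.coeff τ * f τ) • MonoidAlgebra.single τ (1 : ℝ) := by
  have hs : X.coeff.support ⊆ R.coeff.support := by
    intro τ hτ
    rw [Finsupp.mem_support_iff] at hτ ⊢
    intro h0
    exact hτ (by rw [h, h0, zero_mul])
  conv_lhs => rw [eq_sum_single X]
  rw [sum_subset hs (fun τ _ hτ => by rw [Finsupp.notMem_support_iff.1 hτ, zero_smul])]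
  exact sum_congr rfl fun τ _ => by rw [h]

/-- the step for a fixed value of the future -/
lemma Chaos_fib {T : Type} {m : ℕ} (hm : 1 ≤ m) {R1 : Al M} (hR1 : IsProb R1)
    (s : Finset T) (Y : T → Al M) (w : T → ℝ) (hw : ∀ t ∈ s, 0 ≤ w t)
    (hY0 : ∀ t ∈ s, mass (Y t) = 0) (hB : Bess (2 * m) R1 s Y w) (a : ℝ) (c : T → ℝ) :
    NbP (2 * m) R1 (a • R1 + ∑ t ∈ s, c t • Y t)
      ((a ^ 2 + 3 * (2 * m : ℕ) * ∑ t ∈ s, w t * c t ^ 2) ^ m) := by
  obtain ⟨hb, g, hg, hgp⟩ := hB c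
  have hS : 0 ≤ ∑ t ∈ s, w t * c t ^ 2 := sum_nonneg fun t ht => mul_nonneg (hw t ht) (sq_nonneg _)
  refine ⟨fun σ => a + g σ, fun σ => ?_, ?_⟩
  · rw [MonoidAlgebra.coeff_add, Finsupp.add_apply, hg]
    simp only [MonoidAlgebra.coeff_smul, Finsupp.smul_apply, smul_eq_mul]
    ring
  · have h0 : ∑ σ ∈ R1.coeff.support, R1.coeff σ * g σ = 0 := by
      have hs : (∑ t ∈ s, c t • Y t).coeff.support ⊆ R1.coeff.support := by
        intro τ hτ
        rw [Finsupp.mem_support_iff] at hτ ⊢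
        intro h0
        exact hτ (by rw [hg, h0, zero_mul])
      have h1 := mass_eq_sum _ hs
      rw [mass_sum, sum_eq_zero (fun t ht => by rw [mass_smul, hY0 t ht, mul_zero])] at h1
      rw [h1]
      exact sum_congr rfl fun σ _ => (hg σ).symm
    have := moment_le R1.coeff.support (fun σ => R1.coeff σ) g (fun σ _ => hR1.1 σ) hR1.2 h0 m hm
      a _ hb hgp
    rwa [Real.sq_sqrt hS] at this

/-- The chaos step.  Take densities `f0`, `f t` of `X0`, `X t` w.r.t. `R` and `y t` of `Y t` w.r.t.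
`R1` (Bessel with `c = Pi.single t 1`).  Both sides are mixtures over `(σ, τ) ∈ supp R1 ×ˢ supp R`
of `δ_{στ}` with weights `R1 σ R τ` and densities `f0 τ + ∑ y t σ f t τ` (`NbP.mix`).  For fixed `τ`
apply `moment_le` (`b² = ∑ w t (f t τ)²` by Bessel with `c = f · τ`; on `supp R1` the density given
by Bessel equals `∑ y t σ f t τ`).  Finally Minkowski in `L^{p/2}(R)` (e.g. `Nb.add`/`Nb.sum`-style
convexity, or Jensen with weights proportional to `β0²`, `3p w t β t²`). -/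
theorem chaos_step {T : Type} (hp : Even p) (hp2 : 2 ≤ p) {R1 : Al M} (hR1 : IsProb R1)
    (s : Finset T) (Y : T → Al M) (w : T → ℝ) (hw : ∀ t ∈ s, 0 ≤ w t)
    (hY0 : ∀ t ∈ s, mass (Y t) = 0) (hB : Bess p R1 s Y w) {R : Al M} (hR : NN R) (X0 : Al M)
    (X : T → Al M) (β0 : ℝ) (β : T → ℝ) (h0 : Nb p R X0 β0) (h : ∀ t ∈ s, Nb p R (X t) (β t)) :
    Nb p (R1 * R) (R1 * X0 + ∑ t ∈ s, Y t * X t)
      (√(β0 ^ 2 + 3 * p * ∑ t ∈ s, w t * β t ^ 2)) := by
  classical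
  obtain ⟨m, rfl⟩ := hp.two_dvd
  have hm : 1 ≤ m := by omega
  obtain ⟨hβ0, f0, hf0, hf0p⟩ := h0
  have hex : ∀ t, ∃ g : M → ℝ, t ∈ s → (∀ τ, (X t).coeff τ = R.coeff τ * g τ) ∧
      ex R (fun τ => |g τ| ^ (2 * m)) ≤ β t ^ (2 * m) := by
    intro t
    by_cases ht : t ∈ s
    · obtain ⟨g, hg⟩ := (h t ht).2
      exact ⟨g, fun _ => hg⟩
    · exact ⟨0, fun h => absurd h ht⟩
  choose f hf using hex
  have hS : 0 ≤ ∑ t ∈ s, w t * β t ^ 2 := sum_nonneg fun t ht => mul_nonneg (hw t ht) (sq_nonneg _)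
  refine ⟨Real.sqrt_nonneg _, ?_⟩
  rw [pow_mul, Real.sq_sqrt (by positivity)]
  have key := NbP.mix (p := 2 * m) (by omega) R.coeff.support
    (fun τ => R.coeff τ • (R1 * MonoidAlgebra.single τ (1 : ℝ)))
    (fun τ => R.coeff τ • ((f0 τ • R1 + ∑ t ∈ s, f t τ • Y t) * MonoidAlgebra.single τ (1 : ℝ)))
    (fun τ => R.coeff τ * (f0 τ ^ 2 + 3 * (2 * m : ℕ) * ∑ t ∈ s, w t * f t τ ^ 2) ^ m)
    (fun τ _ => (hR1.1.mul (IsProb.single τ).1).smul (hR τ))
    (fun τ _ => NbP.smul_both (hR τ) (NbP.kern (by omega)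
      (kern_mulRight (IsProb.single τ).1 (IsProb.single τ).2.le) hR1.1
      (Chaos_fib hm hR1 s Y w hw hY0 hB (f0 τ) (fun t => f t τ))))
  have e1 : ∑ τ ∈ R.coeff.support, R.coeff τ • (R1 * MonoidAlgebra.single τ (1 : ℝ)) = R1 * R := by
    conv_rhs => rw [eq_sum_single R]
    rw [mul_sum]
    exact sum_congr rfl fun τ _ => (mul_smul_comm _ _ _).symm
  have e2 : ∑ τ ∈ R.coeff.support, R.coeff τ •
      ((f0 τ • R1 + ∑ t ∈ s, f t τ • Y t) * MonoidAlgebra.single τ (1 : ℝ)) =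
      R1 * X0 + ∑ t ∈ s, Y t * X t := by
    have a0 : R1 * X0 = ∑ τ ∈ R.coeff.support,
        R.coeff τ • (f0 τ • R1 * MonoidAlgebra.single τ (1 : ℝ)) := by
      conv_lhs => rw [Chaos_dens hf0]
      rw [mul_sum]
      exact sum_congr rfl fun τ _ => by rw [mul_smul_comm, smul_mul_assoc, mul_smul]
    have a1 : ∀ t ∈ s, Y t * X t = ∑ τ ∈ R.coeff.support,
        R.coeff τ • (f t τ • Y t * MonoidAlgebra.single τ (1 : ℝ)) := by
      intro t ht
      conv_lhs => rw [Chaos_dens (hf t ht).1]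
      rw [mul_sum]
      exact sum_congr rfl fun τ _ => by rw [mul_smul_comm, smul_mul_assoc, mul_smul]
    rw [a0, sum_congr rfl a1, sum_comm, ← sum_add_distrib]
    refine sum_congr rfl fun τ _ => ?_
    rw [add_mul, smul_add, sum_mul, smul_sum]
  rw [e1, e2] at key
  refine key.mono ?_
  have habs : ∀ x : ℝ, |x| ^ (2 * m) = (x ^ 2) ^ m := fun x => by rw [pow_mul, sq_abs]
  have hc : (0 : ℝ) ≤ 3 * (2 * m : ℕ) := by positivity
  simp only [mul_sum]
  refine Chaos_mink2 R.coeff.support (fun τ => R.coeff τ) (fun τ => f0 τ ^ 2) _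
    (fun τ _ => hR τ) (fun τ _ => sq_nonneg _)
    (fun τ _ => sum_nonneg fun t ht => mul_nonneg hc (mul_nonneg (hw t ht) (sq_nonneg _))) hm
    (sq_nonneg _) (sum_nonneg fun t ht => mul_nonneg hc (mul_nonneg (hw t ht) (sq_nonneg _))) ?_ ?_
  · simp only [ex, habs] at hf0p
    rwa [pow_mul] at hf0p
  · refine Chaos_mink R.coeff.support (fun τ => R.coeff τ) (fun τ _ => hR τ) hm s
      (fun t τ => 3 * (2 * m : ℕ) * (w t * f t τ ^ 2)) _
      (fun t ht τ _ => mul_nonneg hc (mul_nonneg (hw t ht) (sq_nonneg _)))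
      (fun t ht => mul_nonneg hc (mul_nonneg (hw t ht) (sq_nonneg _))) (fun t ht => ?_)
    have h2 := (hf t ht).2
    simp only [ex, habs] at h2
    rw [pow_mul] at h2
    have h3 := mul_le_mul_of_nonneg_left h2
      (pow_nonneg (mul_nonneg hc (hw t ht)) m)
    rw [mul_sum, ← mul_pow, mul_assoc (3 * ((2 * m : ℕ) : ℝ))] at h3
    refine le_trans (le_of_eq (sum_congr rfl fun τ _ => ?_)) h3
    rw [← mul_assoc (3 * ((2 * m : ℕ) : ℝ)), mul_pow]
    ring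

end Crest.Agent.R300L
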