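import Crest.Agent.R300L.Chaos

/-!
# Chaos bounds for products (induction on the number of slots, peeling the first slot)
-/

set_option autoImplicit false
open Finset

noncomputable section
namespace Crest.Agent.R300L

variable {M : Type} [Monoid M] {p : ℕ}

omit [Monoid M] in
theorem chaosP_bess {ν Yj : Al M} {η : ℝ} (h : Nb p ν Yj η) :
    Bess p ν (univ : Finset Unit) (fun _ => Yj) (fun _ => η ^ 2) := fun c => by
  rw [univ_unique, sum_singleton, sum_singleton, ← mul_pow, Real.sqrt_sq_eq_abs, abs_mul,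
    abs_of_nonneg h.nonneg, mul_comm]
  exact h.smul _

theorem chaosP_split {T ι A : Type} [DecidableEq T] [AddCommMonoid A] (I : Finset ι)
    (o : ι → Option T) (Ts : Finset T) (h : ∀ i ∈ I, ∀ t, o i = some t → t ∈ Ts)
    (F : ι → Option T → A) :
    ∑ i ∈ I, F i (o i) = ∑ i ∈ I.filter (fun i => o i = none), F i none +
      ∑ t ∈ Ts, ∑ i ∈ I.filter (fun i => o i = some t), F i (some t) := by
  simp only [sum_filter]
  rw [sum_comm (s := Ts), ← sum_add_distrib]
  refine sum_congr rfl fun i hi => ?_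
  have := h i hi
  cases ho : o i with
  | none => simp
  | some t => simp [this t ho]

/-- the double sum -/
def chaosP_DS {T ι : Type} [DecidableEq T] (p : ℕ) (w : T → ℝ) (z : ι → ℕ → Option T) (x k : ℕ)
    (I : Finset ι) (c : ι → ℝ) : ℝ :=
  ∑ i ∈ I, ∑ i' ∈ I, if ∀ j ∈ Ico x (x + k), z i' j = z i j then
    |c i| * |c i'| * ∏ j ∈ Ico x (x + k), (z i j).elim 1 (fun t => 3 * p * w t) else 0

section DS

variable {T ι : Type} {w : T → ℝ} {z : ι → ℕ → Option T} {x k : ℕ} {I : Finset ι} {c c' : ι → ℝ}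

theorem chaosP_prod_nonneg (hw : ∀ t, 0 ≤ w t) {s : Finset ℕ} {f : ℕ → Option T} :
    0 ≤ ∏ j ∈ s, (f j).elim (1 : ℝ) (fun t => 3 * p * w t) := by
  refine prod_nonneg fun j _ => ?_
  cases f j with
  | none => exact zero_le_one
  | some t => exact mul_nonneg (by positivity) (hw t)

variable [DecidableEq T]

theorem chaosP_DS_nonneg (hw : ∀ t, 0 ≤ w t) : 0 ≤ chaosP_DS p w z x k I c := by
  refine sum_nonneg fun i _ => sum_nonneg fun i' _ => ?_
  split_ifs
  · exact mul_nonneg (by positivity) (chaosP_prod_nonneg hw)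
  · exact le_rfl

theorem chaosP_DS_mono (hw : ∀ t, 0 ≤ w t) (h : ∀ i, |c i| ≤ |c' i|) :
    chaosP_DS p w z x k I c ≤ chaosP_DS p w z x k I c' := by
  refine sum_le_sum fun i _ => sum_le_sum fun i' _ => ?_
  split_ifs
  · exact mul_le_mul_of_nonneg_right (mul_le_mul (h i) (h i') (abs_nonneg _) (abs_nonneg _))
      (chaosP_prod_nonneg hw)
  · exact le_rfl

theorem chaosP_DS_succ {Ts : Finset T} (h : ∀ i ∈ I, ∀ t, z i x = some t → t ∈ Ts) :
    chaosP_DS p w z x (k + 1) I c = chaosP_DS p w z (x + 1) k (I.filter fun i => z i x = none) c +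
      ∑ t ∈ Ts, 3 * p * w t * chaosP_DS p w z (x + 1) k (I.filter fun i => z i x = some t) c := by
  have e : Ico x (x + (k + 1)) = insert x (Ico (x + 1) (x + 1 + k)) := by
    ext j
    simp only [mem_Ico, mem_insert]
    omega
  have hx : x ∉ Ico (x + 1) (x + 1 + k) := by simp
  have key := chaosP_split I (fun i => z i x) Ts h fun i o => o.elim 1 (fun t => 3 * p * w t) *
    ∑ i' ∈ I.filter (fun i' => z i' x = o), if ∀ j ∈ Ico (x + 1) (x + 1 + k), z i' j = z i j then
      |c i| * |c i'| * ∏ j ∈ Ico (x + 1) (x + 1 + k), (z i j).elim 1 (fun t => 3 * p * w t) else 0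
  simp only [Option.elim_none, Option.elim_some, one_mul, ← mul_sum] at key
  refine Eq.trans (sum_congr rfl fun i _ => ?_) key
  rw [sum_filter, mul_sum]
  refine sum_congr rfl fun i' _ => ?_
  simp only [e, forall_mem_insert, prod_insert hx]
  by_cases h1 : z i' x = z i x
  · by_cases h2 : ∀ j ∈ Ico (x + 1) (x + 1 + k), z i' j = z i j
    · rw [if_pos ⟨h1, h2⟩, if_pos h1, if_pos h2]
      ring
    · rw [if_neg fun hh => h2 hh.2, if_pos h1, if_neg h2, mul_zero]
  · rw [if_neg fun hh => h1 hh.1, if_neg h1, mul_zero]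

end DS

/-- Induction on `k` generalizing `x I c` (`pr_succ'`).  Group `I` by the value of `z i x`
(`none` or `some t`, `t ∈ Ts x`) and apply `chaos_step` with `R x`; each group is
`ν * (∑ c i • rest i) + Yj * (∑ (c i * sg i x) • rest i)`, a second `chaos_step` with the one-element
family `Yj` (weight `η²`); the induction hypothesis bounds both sums by the double sum with `|c i|`
(`|c i * sg i x| ≤ |c i|`). -/
theorem chaos_path {T ι : Type} [DecidableEq T] (hp : Even p) (hp2 : 2 ≤ p)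
    (R : ℕ → Al M) (hR : ∀ j, IsProb (R j)) (Ts : ℕ → Finset T) (Y : ℕ → T → Al M) (w : T → ℝ)
    (hw : ∀ t, 0 ≤ w t) (hY0 : ∀ j, ∀ t ∈ Ts j, mass (Y j t) = 0)
    (hB : ∀ j, Bess p (R j) (Ts j) (Y j) w) {ν Yj Q : Al M} (hν : IsProb ν) (hQ : IsProb Q)
    {η : ℝ} (hYj0 : mass Yj = 0) (hYj : Nb p ν Yj η) (z : ι → ℕ → Option T) (sg : ι → ℕ → ℝ)
    (hsg : ∀ i j, |sg i j| ≤ 1) (k x : ℕ) (I : Finset ι) (c : ι → ℝ)
    (hz : ∀ i ∈ I, ∀ j ∈ Ico x (x + k), ∀ t, z i j = some t → t ∈ Ts j) :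
    Nb p (pr (fun j => R j * ν) x k * Q)
      (∑ i ∈ I, c i • (pr (fun j => (z i j).elim (R j) (Y j) * (ν + sg i j • Yj)) x k * Q))
      (√((1 + 3 * p * η ^ 2) ^ k * ∑ i ∈ I, ∑ i' ∈ I,
        if ∀ j ∈ Ico x (x + k), z i' j = z i j then
          |c i| * |c i'| * ∏ j ∈ Ico x (x + k), (z i j).elim 1 (fun t => 3 * p * w t) else 0)) := by
  have hp1 : 1 ≤ p := by omega
  change Nb p _ _ (√(_ * chaosP_DS p w z x k I c))
  induction k generalizing x I c with
  | zero =>
    simp only [pr_zero, one_mul, pow_zero, ← sum_smul]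
    refine ((Nb.self hQ).smul _).mono ?_
    have : chaosP_DS p w z x 0 I c = (∑ i ∈ I, |c i|) ^ 2 := by
      simp [chaosP_DS, sq, sum_mul_sum]
    rw [this, mul_one, Real.sqrt_sq (sum_nonneg fun i _ => abs_nonneg _)]
    exact abs_sum_le_sum_abs _ _
  | succ k ih =>
    have hR' : IsProb (pr (fun j => R j * ν) (x + 1) k * Q) :=
      (IsProb.pr fun j _ _ => (hR j).mul hν).mul hQ
    have hθ : 0 ≤ 1 + 3 * p * η ^ 2 := by positivity
    have hG : ∀ o : Option T, Nb p (ν * (pr (fun j => R j * ν) (x + 1) k * Q))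
        (∑ i ∈ I.filter (fun i => z i x = o), c i • ((ν + sg i x • Yj) *
          (pr (fun j => (z i j).elim (R j) (Y j) * (ν + sg i j • Yj)) (x + 1) k * Q)))
        (√((1 + 3 * p * η ^ 2) ^ (k + 1) *
          chaosP_DS p w z (x + 1) k (I.filter fun i => z i x = o) c)) := fun o => by
      have hz' : ∀ i ∈ I.filter (fun i => z i x = o), ∀ j ∈ Ico (x + 1) (x + 1 + k), ∀ t,
          z i j = some t → t ∈ Ts j := fun i hi j hj =>
        hz i (mem_filter.1 hi).1 j (by rw [mem_Ico] at hj ⊢; omega)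
      have h1 := ih (x + 1) _ c hz'
      have h2 := (ih (x + 1) _ (fun i => c i * sg i x) hz').mono (Real.sqrt_le_sqrt
        (mul_le_mul_of_nonneg_left (chaosP_DS_mono (c' := c) hw fun i => by
          rw [abs_mul]
          exact mul_le_of_le_one_right (abs_nonneg _) (hsg i x)) (pow_nonneg hθ k)))
      have h3 := chaos_step hp hp2 hν univ (fun _ : Unit => Yj) (fun _ => η ^ 2)
        (fun _ _ => sq_nonneg η) (fun _ _ => hYj0) (chaosP_bess hYj) hR'.1 _ _ _ _ h1 fun _ _ => h2
      convert h3 using 1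
      · simp only [univ_unique, sum_singleton, mul_sum, ← sum_add_distrib, add_mul, smul_add,
          mul_smul_comm, smul_mul_assoc, smul_smul]
      · congr 1
        rw [univ_unique, sum_singleton, Real.sq_sqrt (mul_nonneg (pow_nonneg hθ k)
          (chaosP_DS_nonneg hw))]
        ring
    have hx : ∀ i ∈ I, ∀ t, z i x = some t → t ∈ Ts x := fun i hi =>
      hz i hi x (by rw [mem_Ico]; omega)
    have h4 := chaos_step hp hp2 (hR x) (Ts x) (Y x) w (fun t _ => hw t) (hY0 x) (hB x)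
      (hν.mul hR').1 _ _ _ _ (hG none) fun t _ => hG (some t)
    convert h4 using 1
    · rw [pr_succ', mul_assoc, mul_assoc]
    · simp only [pr_succ', mul_assoc, mul_sum, mul_smul_comm]
      exact chaosP_split I (fun i => z i x) (Ts x) hx fun i o => c i • (o.elim (R x) (Y x) *
        ((ν + sg i x • Yj) *
          (pr (fun j => (z i j).elim (R j) (Y j) * (ν + sg i j • Yj)) (x + 1) k * Q)))
    · congr 1
      rw [chaosP_DS_succ hx]
      simp only [Real.sq_sqrt (mul_nonneg (pow_nonneg hθ (k + 1)) (chaosP_DS_nonneg hw))]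
      rw [mul_add, mul_sum, mul_sum]
      congr 1
      exact sum_congr rfl fun t _ => by ring

/-- Schur test: `|c i π i| |c i' π i'| ≤ π i π i' (c i² + c i'²)/2` and symmetry. -/
theorem chaos_schur {T ι : Type} [DecidableEq T] (hp : Even p) (hp2 : 2 ≤ p)
    (R : ℕ → Al M) (hR : ∀ j, IsProb (R j)) (Ts : ℕ → Finset T) (Y : ℕ → T → Al M) (w : T → ℝ)
    (hw : ∀ t, 0 ≤ w t) (hY0 : ∀ j, ∀ t ∈ Ts j, mass (Y j t) = 0)
    (hB : ∀ j, Bess p (R j) (Ts j) (Y j) w) {ν Yj Q : Al M} (hν : IsProb ν) (hQ : IsProb Q)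
    {η : ℝ} (hYj0 : mass Yj = 0) (hYj : Nb p ν Yj η) (z : ι → ℕ → Option T) (sg : ι → ℕ → ℝ)
    (hsg : ∀ i j, |sg i j| ≤ 1) (k x : ℕ) (I : Finset ι) (c π Gb : ι → ℝ)
    (hz : ∀ i ∈ I, ∀ j ∈ Ico x (x + k), ∀ t, z i j = some t → t ∈ Ts j)
    (hπ : ∀ i ∈ I, 0 ≤ π i)
    (hG : ∀ i ∈ I, ∑ i' ∈ I.filter (fun i' => ∀ j ∈ Ico x (x + k), z i' j = z i j), π i' ≤ Gb i) :
    Nb p (pr (fun j => R j * ν) x k * Q)
      (∑ i ∈ I, (c i * π i) •
        (pr (fun j => (z i j).elim (R j) (Y j) * (ν + sg i j • Yj)) x k * Q))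
      (√((1 + 3 * p * η ^ 2) ^ k * ∑ i ∈ I, c i ^ 2 * π i *
        (∏ j ∈ Ico x (x + k), (z i j).elim 1 (fun t => 3 * p * w t)) * Gb i)) := by
  refine (chaos_path hp hp2 R hR Ts Y w hw hY0 hB hν hQ hYj0 hYj z sg hsg k x I
    (fun i => c i * π i) hz).mono (Real.sqrt_le_sqrt (mul_le_mul_of_nonneg_left ?_ (by positivity)))
  set W : ι → ℝ := fun i => ∏ j ∈ Ico x (x + k), (z i j).elim 1 (fun t => 3 * p * w t) with hW
  have hW0 : ∀ i, 0 ≤ W i := fun i => chaosP_prod_nonneg hw
  set a : ι → ι → ℝ := fun i i' =>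
    if ∀ j ∈ Ico x (x + k), z i' j = z i j then c i ^ 2 * π i * W i * π i' else 0 with ha
  calc _ ≤ ∑ i ∈ I, ∑ i' ∈ I, (a i i' + a i' i) / 2 := by
        refine sum_le_sum fun i hi => sum_le_sum fun i' hi' => ?_
        by_cases h : ∀ j ∈ Ico x (x + k), z i' j = z i j
        · have h' : ∀ j ∈ Ico x (x + k), z i j = z i' j := fun j hj => (h j hj).symm
          have hWW : W i' = W i := prod_congr rfl fun j hj => by rw [h j hj]
          simp only [ha, if_pos h, if_pos h', hWW, abs_mul, abs_of_nonneg (hπ i hi),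
            abs_of_nonneg (hπ i' hi')]
          change _ * W i ≤ _
          have h1 : 0 ≤ π i * π i' * W i := mul_nonneg (mul_nonneg (hπ i hi) (hπ i' hi')) (hW0 i)
          have h2 := mul_nonneg h1 (sq_nonneg (|c i| - |c i'|))
          rw [← sq_abs (c i), ← sq_abs (c i')]
          linarith
        · have h' : ¬ ∀ j ∈ Ico x (x + k), z i j = z i' j := fun h' => h fun j hj => (h' j hj).symm
          simp only [ha, if_neg h, if_neg h', add_zero, zero_div, le_refl]
    _ = ∑ i ∈ I, ∑ i' ∈ I, a i i' := by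
        simp only [← sum_div, sum_add_distrib]
        rw [sum_comm (f := fun i i' => a i' i)]
        ring
    _ ≤ _ := by
        refine sum_le_sum fun i hi => ?_
        simp only [ha]
        rw [← sum_filter, ← mul_sum]
        exact mul_le_mul_of_nonneg_left (hG i hi)
          (mul_nonneg (mul_nonneg (sq_nonneg _) (hπ i hi)) (hW0 i))

/-- single-vector chaos: `chaos_schur` with `T = Unit`, `ν = Q = 1`, `Yj = 0`, `η = 0`, `π = 1` -/
theorem chaos1 {ι : Type} (hp : Even p) (hp2 : 2 ≤ p) {U D : Al M} (hU : IsProb U)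
    (hD0 : mass D = 0) {δ : ℝ} (hD : Nb p U D δ) (N : ℕ) (I : Finset ι) (S : ι → Finset ℕ)
    (hS : ∀ i ∈ I, S i ⊆ range N) (c : ι → ℝ) (mult : ℝ)
    (hm : ∀ i ∈ I, ((I.filter fun i' => S i' = S i).card : ℝ) ≤ mult) :
    Nb p (U ^ N) (∑ i ∈ I, c i • ins U D N (S i))
      (√(mult * ∑ i ∈ I, c i ^ 2 * (3 * p * δ ^ 2) ^ (S i).card)) := by
  have h := chaos_schur hp hp2 (fun _ => U) (fun _ => hU) (fun _ => univ) (fun _ (_ : Unit) => D)
    (fun _ => δ ^ 2) (fun _ => sq_nonneg δ) (fun _ _ _ => hD0) (fun _ => chaosP_bess hD)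
    IsProb.one IsProb.one (η := 0) mass_zero (Nb.zero (by omega) _ le_rfl)
    (fun i j => if j ∈ S i then some () else none) (fun _ _ => 0) (fun _ _ => by simp) N 0 I c
    (fun _ => 1) (fun _ => mult) (fun _ _ _ _ _ _ => mem_univ _) (fun _ _ => zero_le_one)
    fun i hi => ?_
  · convert h using 1
    · simp only [mul_one, pr_const]
    · refine sum_congr rfl fun i _ => ?_
      simp only [mul_one, smul_zero, add_zero, ins]
      congr 2
      funext j
      split_ifs <;> rfl
    · congr 1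
      simp only [mul_one, sq (0 : ℝ), mul_zero, add_zero, one_pow, one_mul, mul_sum]
      refine sum_congr rfl fun i hi => ?_
      have : ∏ j ∈ Ico 0 (0 + N), (if j ∈ S i then some () else none).elim (1 : ℝ)
          (fun _ => 3 * p * δ ^ 2) = (3 * p * δ ^ 2) ^ (S i).card := by
        rw [zero_add, ← range_eq_Ico, prod_congr rfl
          (g := fun j => if j ∈ S i then 3 * p * δ ^ 2 else 1) fun j _ => by split_ifs <;> rfl,
          prod_ite_mem, prod_const, inter_eq_right.2 (hS i hi)]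
      rw [this]
      ring
  · rw [sum_const, nsmul_eq_mul, mul_one]
    refine le_trans (Nat.cast_le.2 (card_le_card fun i' hi' => ?_)) (hm i hi)
    obtain ⟨h1, h2⟩ := mem_filter.1 hi'
    refine mem_filter.2 ⟨h1, Finset.ext fun j => ?_⟩
    rw [zero_add, ← range_eq_Ico] at h2
    constructor
    · intro hj
      have := h2 j (hS i' h1 hj)
      by_contra hn
      simp [hj, hn] at this
    · intro hj
      have := h2 j (hS i hi hj)
      by_contra hn
      simp [hj, hn] at this

/-- tensor powers: `(U+X)^m - U^m = ∑_{S ≠ ∅} ins U X m S` -/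
theorem chaos_pow (hp : Even p) (hp2 : 2 ≤ p) {U X : Al M} (hU : IsProb U) (hX0 : mass X = 0)
    {β : ℝ} (hX : Nb p U X β) (m : ℕ) :
    Nb p (U ^ m) ((U + X) ^ m - U ^ m) (√((1 + 3 * p * β ^ 2) ^ m - 1)) := by
  have h0 : (∅ : Finset ℕ) ∈ (range m).powerset := empty_mem_powerset _
  have h := chaos1 hp hp2 hU hX0 hX m ((range m).powerset.erase ∅) id
    (fun S hS => mem_powerset.1 (mem_of_mem_erase hS)) (fun _ => 1) 1 fun S _ => by
      rw [← Nat.cast_one, Nat.cast_le, card_le_one]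
      exact fun a ha b hb => (mem_filter.1 ha).2.trans (mem_filter.1 hb).2.symm
  convert h using 1
  · rw [add_pow_eq_sum_ins, ← add_sum_erase _ _ h0, ins_empty, add_sub_cancel_left]
    simp only [one_smul, id]
  · congr 1
    have := prod_one_add (f := fun _ => 3 * p * β ^ 2) (range m)
    rw [prod_const, card_range, ← add_sum_erase _ _ h0] at this
    simp only [prod_const, card_empty, pow_zero] at this
    simp only [one_pow, one_mul, id, this, add_sub_cancel_left]

end Crest.Agent.R300L
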