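import Crest.Agent.R300L.Bin

/-!
# The renewal inequality for the collision sum
-/

set_option autoImplicit false
open Finset

noncomputable section
namespace Crest.Agent.R300L

lemma Col_eq_ex (w : ℝ) (X X' : Al FB) :
    Col w X X' = ex X (fun τ => X'.coeff τ * w ^ (FreeMonoid.toList τ).count true) := by
  unfold Col ex
  exact sum_congr rfl fun τ _ => by ring
lemma Col_comm (w : ℝ) (X X' : Al FB) : Col w X X' = Col w X' X := by
  classical
  rw [Col_eq_ex, Col_eq_ex, ex_eq_sum X _ (s := X.coeff.support ∪ X'.coeff.support) subset_union_left,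
    ex_eq_sum X' _ (s := X.coeff.support ∪ X'.coeff.support) subset_union_right]
  exact sum_congr rfl fun τ _ => by ring
lemma Col_add_left (w : ℝ) (X Y X' : Al FB) : Col w (X + Y) X' = Col w X X' + Col w Y X' := by
  simp only [Col_eq_ex, ex_add]
lemma Col_sum_left {ι : Type*} (w : ℝ) (s : Finset ι) (X : ι → Al FB) (X' : Al FB) :
    Col w (∑ i ∈ s, X i) X' = ∑ i ∈ s, Col w (X i) X' := by
  simp only [Col_eq_ex, ex_sum]
lemma Col_smul_left (w c : ℝ) (X X' : Al FB) : Col w (c • X) X' = c * Col w X X' := by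
  simp only [Col_eq_ex, ex_smul]
lemma ColRec_lt_pow (a : ℕ) :
    lt false ^ a = MonoidAlgebra.single (FreeMonoid.of false ^ a) (1 : ℝ) := by
  rw [lt, MonoidAlgebra.single_pow, one_pow]
lemma ColRec_toList_pow (a : ℕ) :
    FreeMonoid.toList (FreeMonoid.of false ^ a) = List.replicate a false := by
  induction a with
  | zero => rfl
  | succ a ih => rw [pow_succ', FreeMonoid.toList_of_mul, ih, List.replicate_succ]
lemma ColRec_single (w : ℝ) (σ σ' : FB) [Decidable (σ = σ')] :
    Col w (MonoidAlgebra.single σ 1) (MonoidAlgebra.single σ' 1) =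
      if σ = σ' then w ^ (FreeMonoid.toList σ).count true else 0 := by
  classical
  rw [Col_eq_ex, ex_single, MonoidAlgebra.coeff_single, Finsupp.single_apply]
  by_cases h : σ = σ'
  · subst h; simp
  · rw [if_neg h, if_neg (Ne.symm h)]; simp
lemma ColRec_mark_single (a : ℕ) (τ : FB) :
    lt false ^ a * lt true * MonoidAlgebra.single τ (1 : ℝ) =
      MonoidAlgebra.single (FreeMonoid.of false ^ a * FreeMonoid.of true * τ) (1 : ℝ) := by
  rw [ColRec_lt_pow, lt, MonoidAlgebra.single_mul_single, MonoidAlgebra.single_mul_single]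
  simp
lemma ColRec_word (a a' : ℕ) (l l' : List Bool)
    (h : List.replicate a false ++ true :: l = List.replicate a' false ++ true :: l') :
    a = a' ∧ l = l' := by
  induction a generalizing a' with
  | zero =>
    cases a' with
    | zero => simpa using h
    | succ a' => simp [List.replicate_succ] at h
  | succ a ih =>
    cases a' with
    | zero => simp [List.replicate_succ] at h
    | succ a' =>
      simp only [List.replicate_succ, List.cons_append, List.cons.injEq, true_and] at h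
      obtain ⟨h1, h2⟩ := ih a' h
      exact ⟨by omega, h2⟩
lemma ColRec_add_right (w : ℝ) (X Y X' : Al FB) :
    Col w X' (X + Y) = Col w X' X + Col w X' Y := by
  rw [Col_comm, Col_add_left, Col_comm w X, Col_comm w Y]
lemma ColRec_sum_right {ι : Type*} (w : ℝ) (s : Finset ι) (X : ι → Al FB) (X' : Al FB) :
    Col w X' (∑ i ∈ s, X i) = ∑ i ∈ s, Col w X' (X i) := by
  rw [Col_comm, Col_sum_left]
  exact sum_congr rfl fun i _ => Col_comm _ _ _
lemma ColRec_smul_right (w c : ℝ) (X X' : Al FB) : Col w X' (c • X) = c * Col w X' X := by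
  rw [Col_comm, Col_smul_left, Col_comm]
lemma ColRec_expand_left (w : ℝ) (A X Y : Al FB) :
    Col w (A * X) Y =
      ∑ τ ∈ X.coeff.support, X.coeff τ * Col w (A * MonoidAlgebra.single τ 1) Y := by
  conv_lhs => rw [eq_sum_single X]
  rw [mul_sum, Col_sum_left]
  exact sum_congr rfl fun τ _ => by rw [mul_smul_comm, Col_smul_left]
lemma ColRec_expand (w : ℝ) (A A' X X' : Al FB) :
    Col w (A * X) (A' * X') = ∑ τ ∈ X.coeff.support, ∑ τ' ∈ X'.coeff.support,
      X.coeff τ * X'.coeff τ' *
        Col w (A * MonoidAlgebra.single τ 1) (A' * MonoidAlgebra.single τ' 1) := by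
  rw [ColRec_expand_left]
  refine sum_congr rfl fun τ _ => ?_
  rw [Col_comm, ColRec_expand_left, mul_sum]
  exact sum_congr rfl fun τ' _ => by rw [Col_comm]; ring
lemma ColRec_G (θ : ℝ) (t R : ℕ) :
    Bq θ (lt false) ^ t * lt false ^ R =
      ∑ s ∈ range (t + 1), bin θ t s • lt false ^ (s + R) := by
  rw [Bq_pow, sum_mul]
  exact sum_congr rfl fun s _ => by rw [smul_mul_assoc, pow_add]
lemma Col_pow_pow (w : ℝ) (a a' : ℕ) :
    Col w (lt false ^ a) (lt false ^ a') = if a = a' then 1 else 0 := by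
  classical
  rw [ColRec_lt_pow, ColRec_lt_pow, ColRec_single]
  by_cases h : a = a'
  · subst h
    rw [if_pos rfl, if_pos rfl, ColRec_toList_pow, List.count_replicate]
    simp
  · rw [if_neg h, if_neg]
    intro e
    have := congrArg (fun x => (FreeMonoid.toList x).length) e
    simp only [ColRec_toList_pow, List.length_replicate] at this
    exact h this
lemma Col_pow_mark (w : ℝ) (a a' : ℕ) (X : Al FB) :
    Col w (lt false ^ a) (lt false ^ a' * lt true * X) = 0 := by
  classical
  rw [Col_comm, ColRec_expand_left]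
  refine sum_eq_zero fun τ _ => ?_
  rw [ColRec_mark_single, ColRec_lt_pow, ColRec_single, if_neg, mul_zero]
  intro e
  have := congrArg (fun x => (FreeMonoid.toList x).count true) e
  simp [ColRec_toList_pow, FreeMonoid.toList_mul, FreeMonoid.toList_of, List.count_replicate] at this
lemma Col_mark_mark (w : ℝ) (a a' : ℕ) (X X' : Al FB) :
    Col w (lt false ^ a * lt true * X) (lt false ^ a' * lt true * X') =
      if a = a' then w * Col w X X' else 0 := by
  classical
  have h1 := ColRec_expand w 1 1 X X'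
  simp only [one_mul] at h1
  rw [ColRec_expand, h1]
  have key : ∀ τ τ' : FB, Col w (lt false ^ a * lt true * MonoidAlgebra.single τ 1)
      (lt false ^ a' * lt true * MonoidAlgebra.single τ' 1) =
      if a = a' then w * Col w (MonoidAlgebra.single τ 1) (MonoidAlgebra.single τ' 1) else 0 := by
    intro τ τ'
    rw [ColRec_mark_single, ColRec_mark_single, ColRec_single, ColRec_single]
    have hiff : (FreeMonoid.of false ^ a * FreeMonoid.of true * τ =
        FreeMonoid.of false ^ a' * FreeMonoid.of true * τ') ↔ a = a' ∧ τ = τ' := by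
      constructor
      · intro e
        have := congrArg FreeMonoid.toList e
        simp only [FreeMonoid.toList_mul, FreeMonoid.toList_of, ColRec_toList_pow,
          List.append_assoc, List.singleton_append] at this
        obtain ⟨h1, h2⟩ := ColRec_word _ _ _ _ this
        exact ⟨h1, FreeMonoid.toList.injective h2⟩
      · rintro ⟨rfl, rfl⟩; rfl
    by_cases ha : a = a'
    · by_cases hτ : τ = τ'
      · rw [if_pos (hiff.2 ⟨ha, hτ⟩), if_pos ha, if_pos hτ]
        simp [ColRec_toList_pow, FreeMonoid.toList_mul, FreeMonoid.toList_of,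
          List.count_replicate, pow_succ, mul_comm]
      · rw [if_neg (fun e => hτ (hiff.1 e).2), if_pos ha, if_neg hτ, mul_zero]
    · rw [if_neg (fun e => ha (hiff.1 e).1), if_neg ha]
  simp only [key]
  split_ifs with h
  · simp only [mul_sum]
    exact sum_congr rfl fun τ _ => sum_congr rfl fun τ' _ => by ring
  · simp
lemma Col_G_G (w θ : ℝ) (t R t' R' : ℕ) :
    Col w (Bq θ (lt false) ^ t * lt false ^ R) (Bq θ (lt false) ^ t' * lt false ^ R') =
      kap θ t R t' R' := by
  rw [ColRec_G, ColRec_G, Col_sum_left, kap]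
  refine sum_congr rfl fun s _ => ?_
  rw [Col_smul_left, ColRec_sum_right, mul_sum]
  refine sum_congr rfl fun s' _ => ?_
  rw [ColRec_smul_right, Col_pow_pow]
  split_ifs <;> simp
lemma Col_G_mark (w θ : ℝ) (t R t' R' : ℕ) (X : Al FB) :
    Col w (Bq θ (lt false) ^ t * lt false ^ R)
      (Bq θ (lt false) ^ t' * lt false ^ R' * lt true * X) = 0 := by
  rw [ColRec_G, ColRec_G, Col_sum_left]
  refine sum_eq_zero fun s _ => ?_
  rw [Col_smul_left, sum_mul, sum_mul, ColRec_sum_right, mul_sum]
  refine sum_eq_zero fun s' _ => ?_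
  rw [smul_mul_assoc, smul_mul_assoc, ColRec_smul_right, Col_pow_mark]
  simp
lemma Col_Gmark_Gmark (w θ : ℝ) (t R t' R' : ℕ) (X X' : Al FB) :
    Col w (Bq θ (lt false) ^ t * lt false ^ R * lt true * X)
      (Bq θ (lt false) ^ t' * lt false ^ R' * lt true * X') = kap θ t R t' R' * (w * Col w X X') := by
  rw [ColRec_G, ColRec_G, kap]
  simp only [sum_mul, smul_mul_assoc]
  rw [Col_sum_left]
  refine sum_congr rfl fun s _ => ?_
  rw [Col_smul_left, ColRec_sum_right, mul_sum]
  refine sum_congr rfl fun s' _ => ?_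
  rw [ColRec_smul_right, Col_mark_mark]
  split_ifs
  · ring
  · simp

lemma ColRec_fs_succ (θ : ℝ) (T α β n : ℕ) (ρ : Finset ℕ) (mk : Al FB) {i : ℕ} (hi : i < n) :
    fs θ T α β n ρ mk i = Bq θ (lt false) ^ (if i = 0 then α else T) * (if i ∈ ρ then mk else 1) *
      fs θ T α β n ρ mk (i + 1) := by
  unfold fs
  have e : n - i = (n - (i + 1)) + 1 := by omega
  rw [e, pr_succ', mul_assoc]
lemma ColRec_Ico_filter (ρ : Finset ℕ) {i j : ℕ} (h : i < j) :
    (Ico i j).filter (· ∈ ρ) =
      if i ∈ ρ then insert i ((Ico (i + 1) j).filter (· ∈ ρ)) else (Ico (i + 1) j).filter (· ∈ ρ) := by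
  ext x
  split_ifs with hρ
  · simp only [mem_filter, mem_Ico, mem_insert]
    constructor
    · rintro ⟨⟨h1, h2⟩, h3⟩
      by_cases hx : x = i
      · exact Or.inl hx
      · exact Or.inr ⟨⟨by omega, h2⟩, h3⟩
    · rintro (rfl | ⟨⟨h1, h2⟩, h3⟩)
      · exact ⟨⟨le_rfl, h⟩, hρ⟩
      · exact ⟨⟨by omega, h2⟩, h3⟩
  · simp only [mem_filter, mem_Ico]
    constructor
    · rintro ⟨⟨h1, h2⟩, h3⟩
      have hx : x ≠ i := fun e => hρ (e ▸ h3)
      exact ⟨⟨by omega, h2⟩, h3⟩
    · rintro ⟨⟨h1, h2⟩, h3⟩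
      exact ⟨⟨by omega, h2⟩, h3⟩
lemma ColRec_step (θ : ℝ) (ρ : Finset ℕ) (c t : ℕ) {i j : ℕ} (h : i < j) :
    Bq θ (lt false) ^ c * (if i ∈ ρ then lt false else 1) *
        (Bq θ (lt false) ^ t * lt false ^ ((Ico (i + 1) j).filter (· ∈ ρ)).card) =
      Bq θ (lt false) ^ (c + t) * lt false ^ ((Ico i j).filter (· ∈ ρ)).card := by
  rw [ColRec_Ico_filter ρ h]
  split_ifs with hρ
  · rw [card_insert_of_notMem (by simp), pow_succ', pow_add]
    have hc : Commute (lt false) (Bq θ (lt false) ^ t) :=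
      ((commute_Bq θ (Commute.refl (lt false))).symm).pow_right t
    rw [mul_assoc, ← mul_assoc (lt false), hc.eq]
    simp only [mul_assoc]
  · rw [mul_one, pow_add, mul_assoc]

/-- first-mark decomposition (downward induction on `i`) -/
lemma fs_first (θ : ℝ) (T α β n : ℕ) (ρ : Finset ℕ) {i : ℕ} (hi : i ≤ n) :
    fs θ T α β n ρ (lt false + lt true) i = fs θ T α β n ρ (lt false) i +
      ∑ j ∈ (Ico i n).filter (· ∈ ρ),
        Bq θ (lt false) ^ ((if i = 0 then α else T) + (j - i) * T) *
          lt false ^ ((Ico i j).filter (· ∈ ρ)).card * lt true *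
          fs θ T α β n ρ (lt false + lt true) (j + 1) := by
  obtain ⟨d, hd⟩ : ∃ d, n = i + d := ⟨n - i, by omega⟩
  induction d generalizing i with
  | zero =>
    have : i = n := by omega
    subst this
    simp [fs]
  | succ d ih =>
    have hlt : i < n := by omega
    have ih' := ih (i := i + 1) (by omega) (by omega)
    rw [if_neg (Nat.succ_ne_zero i)] at ih'
    have hsum : Bq θ (lt false) ^ (if i = 0 then α else T) * (if i ∈ ρ then lt false else 1) *
        ∑ j ∈ (Ico (i + 1) n).filter (· ∈ ρ),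
          Bq θ (lt false) ^ (T + (j - (i + 1)) * T) *
            lt false ^ ((Ico (i + 1) j).filter (· ∈ ρ)).card * lt true *
            fs θ T α β n ρ (lt false + lt true) (j + 1) =
        ∑ j ∈ (Ico (i + 1) n).filter (· ∈ ρ),
          Bq θ (lt false) ^ ((if i = 0 then α else T) + (j - i) * T) *
            lt false ^ ((Ico i j).filter (· ∈ ρ)).card * lt true *
            fs θ T α β n ρ (lt false + lt true) (j + 1) := by
      rw [mul_sum]
      refine sum_congr rfl fun j hj => ?_
      have hij : i + 1 ≤ j := (mem_Ico.1 (mem_filter.1 hj).1).1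
      have e : (if i = 0 then α else T) + (j - i) * T =
          (if i = 0 then α else T) + (T + (j - (i + 1)) * T) := by
        obtain ⟨m, rfl⟩ : ∃ m, j = i + 1 + m := ⟨j - (i + 1), by omega⟩
        have e1 : i + 1 + m - i = m + 1 := by omega
        have e2 : i + 1 + m - (i + 1) = m := by omega
        rw [e1, e2]; ring
      rw [e, ← ColRec_step θ ρ _ _ (by omega : i < j)]
      simp only [mul_assoc]
    rw [ColRec_fs_succ θ T α β n ρ _ hlt, ColRec_fs_succ θ T α β n ρ (lt false) hlt,
      ColRec_Ico_filter ρ hlt]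
    by_cases hρ : i ∈ ρ
    · rw [if_pos hρ, if_pos hρ, if_pos hρ, sum_insert (by simp), ← hsum, if_pos hρ]
      have e0 : (Ico i i).filter (· ∈ ρ) = ∅ := by simp
      rw [e0, Nat.sub_self, zero_mul, add_zero, card_empty, pow_zero, mul_one]
      conv_lhs => rw [mul_add, add_mul]
      conv_lhs => enter [1]; rw [ih']
      rw [mul_add]
      abel
    · rw [if_neg hρ, if_neg hρ, if_neg hρ, ← hsum, if_neg hρ]
      conv_lhs => rw [ih']
      rw [mul_add]
/-- the mark-free suffix -/
lemma fs_false (θ : ℝ) (T α β n : ℕ) (ρ : Finset ℕ) {i : ℕ} (hi : i ≤ n) :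
    fs θ T α β n ρ (lt false) i =
      Bq θ (lt false) ^ (if i = n then β else (if i = 0 then α else T) + (n - 1 - i) * T + β) *
        lt false ^ ((Ico i n).filter (· ∈ ρ)).card := by
  obtain ⟨d, hd⟩ : ∃ d, n = i + d := ⟨n - i, by omega⟩
  induction d generalizing i with
  | zero =>
    have : i = n := by omega
    subst this
    simp [fs]
  | succ d ih =>
    have hlt : i < n := by omega
    have ih' := ih (i := i + 1) (by omega) (by omega)
    rw [ColRec_fs_succ θ T α β n ρ _ hlt, ih', ColRec_step θ ρ _ _ hlt, if_neg hlt.ne,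
      if_neg (Nat.succ_ne_zero i)]
    congr 2
    by_cases h : i + 1 = n
    · have e : n - 1 - i = 0 := by omega
      rw [if_pos h, e]; ring
    · have e : n - 1 - i = n - 1 - (i + 1) + 1 := by omega
      rw [if_neg h, e]; ring

lemma ColRec_kap_nonneg {θ : ℝ} (h0 : 0 ≤ θ) (h1 : θ ≤ 1) (t R t' R' : ℕ) :
    0 ≤ kap θ t R t' R' := by
  refine sum_nonneg fun s _ => sum_nonneg fun s' _ => ?_
  split_ifs
  · exact mul_nonneg (bin_nonneg h0 h1 _ _) (bin_nonneg h0 h1 _ _)
  · exact le_rfl
lemma ColRec_marks {θ w : ℝ} (h0 : 0 ≤ θ) (h1 : θ ≤ 1) (hw : 0 ≤ w) {T n : ℕ} (ρ : Finset ℕ)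
    {φ : ℕ → ℝ} (hφ : ∀ g, 0 ≤ φ g)
    (K2 : ∀ c, T ≤ 5 * c → c ≤ T → ∀ a < n, ∀ R ≤ n, ∀ R' : ℕ → ℕ, (∀ a', R' a' ≤ n) →
      ∑ a' ∈ range n, kap θ (c + a * T) R (c + a' * T) (R' a') ≤ φ (a + 1))
    {c : ℕ} (hc : T ≤ 5 * c) (hc' : c ≤ T) {i i' : ℕ} {G : ℕ → Al FB}
    (hG : ∀ j, i ≤ j → j < n → ∀ j' < n, Col w (G j) (G j') ≤ 2 * φ (n - j)) :
    Col w (∑ j ∈ (Ico i n).filter (· ∈ ρ), Bq θ (lt false) ^ (c + (j - i) * T) *
          lt false ^ ((Ico i j).filter (· ∈ ρ)).card * lt true * G j)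
        (∑ j ∈ (Ico i' n).filter (· ∈ ρ), Bq θ (lt false) ^ (c + (j - i') * T) *
          lt false ^ ((Ico i' j).filter (· ∈ ρ)).card * lt true * G j) ≤
      2 * w * ∑ k ∈ Ioo 0 (n + 1 - i), φ k * φ (n + 1 - i - k) := by
  have hterm : ∀ j ∈ (Ico i n).filter (· ∈ ρ),
      Col w (Bq θ (lt false) ^ (c + (j - i) * T) *
          lt false ^ ((Ico i j).filter (· ∈ ρ)).card * lt true * G j)
        (∑ j ∈ (Ico i' n).filter (· ∈ ρ), Bq θ (lt false) ^ (c + (j - i') * T) *
          lt false ^ ((Ico i' j).filter (· ∈ ρ)).card * lt true * G j) ≤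
        2 * w * (φ (j - i + 1) * φ (n - j)) := by
    intro j hj
    obtain ⟨hij, hjn⟩ := mem_Ico.1 (mem_filter.1 hj).1
    rw [ColRec_sum_right]
    have hR : ((Ico i j).filter (· ∈ ρ)).card ≤ n :=
      (card_filter_le _ _).trans (by rw [Nat.card_Ico]; omega)
    have hK := K2 c hc hc' (j - i) (by omega) _ hR
      (fun a' => min n ((Ico i' (i' + a')).filter (· ∈ ρ)).card) (fun a' => min_le_left _ _)
    have hs : ∑ j' ∈ (Ico i' n).filter (· ∈ ρ), kap θ (c + (j - i) * T)
        ((Ico i j).filter (· ∈ ρ)).card (c + (j' - i') * T) ((Ico i' j').filter (· ∈ ρ)).card ≤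
        φ (j - i + 1) := by
      refine le_trans ?_ hK
      refine (sum_le_sum_of_subset_of_nonneg (filter_subset _ _)
        (fun _ _ _ => ColRec_kap_nonneg h0 h1 _ _ _ _)).trans ?_
      rw [sum_Ico_eq_sum_range]
      refine le_trans (le_of_eq (sum_congr rfl fun a' ha' => ?_))
        (sum_le_sum_of_subset_of_nonneg (range_mono (Nat.sub_le n i'))
          (fun _ _ _ => ColRec_kap_nonneg h0 h1 _ _ _ _))
      have ha := mem_range.1 ha'
      have hR' : ((Ico i' (i' + a')).filter (· ∈ ρ)).card ≤ n :=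
        (card_filter_le _ _).trans (by rw [Nat.card_Ico]; omega)
      rw [min_eq_right hR', Nat.add_sub_cancel_left]
    calc _ ≤ ∑ j' ∈ (Ico i' n).filter (· ∈ ρ), kap θ (c + (j - i) * T)
          ((Ico i j).filter (· ∈ ρ)).card (c + (j' - i') * T) ((Ico i' j').filter (· ∈ ρ)).card *
          (w * (2 * φ (n - j))) := by
          refine sum_le_sum fun j' hj' => ?_
          rw [Col_Gmark_Gmark]
          exact mul_le_mul_of_nonneg_left
            (mul_le_mul_of_nonneg_left (hG j hij hjn j' (mem_Ico.1 (mem_filter.1 hj').1).2) hw)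
            (ColRec_kap_nonneg h0 h1 _ _ _ _)
      _ ≤ φ (j - i + 1) * (w * (2 * φ (n - j))) := by
          rw [← sum_mul]
          exact mul_le_mul_of_nonneg_right hs
            (mul_nonneg hw (mul_nonneg zero_le_two (hφ _)))
      _ = _ := by ring
  rw [Col_sum_left]
  refine (sum_le_sum hterm).trans ?_
  rw [← mul_sum]
  refine mul_le_mul_of_nonneg_left ?_ (mul_nonneg zero_le_two hw)
  refine (sum_le_sum_of_subset_of_nonneg (filter_subset _ _)
    (fun _ _ _ => mul_nonneg (hφ _) (hφ _))).trans (le_of_eq ?_)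
  refine sum_nbij' (fun j => j - i + 1) (fun k => k + i - 1) ?_ ?_ ?_ ?_ ?_
  · intro j hj
    have := mem_Ico.1 hj
    simp only [mem_Ioo]; omega
  · intro k hk
    have := mem_Ioo.1 hk
    simp only [mem_Ico]; omega
  · intro j hj
    have := mem_Ico.1 hj
    omega
  · intro k hk
    have := mem_Ioo.1 hk
    omega
  · intro j hj
    have := mem_Ico.1 hj
    have e : n + 1 - i - (j - i + 1) = n - j := by omega
    rw [e]

/-- Downward strong induction: for `1 ≤ i, i' ≤ n`, `Col (fs i) (fs i') ≤ 2 φ(n+1-i)`, because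
`Col ≤ φ(n+1-i) + w ∑_{j ≥ i} φ(j-i+1) · 2 φ(n-j)` (`K1` for the mark-free parts, `K2` with `c = T`
for the sum over `j'`); the top level uses `K2` with `c = α`. -/
theorem col_rec {θ w : ℝ} (h0 : 0 ≤ θ) (h1 : θ ≤ 1) (hw : 0 ≤ w) {T α β n : ℕ} (ρ : Finset ℕ)
    (hα : T ≤ 5 * α) (hα' : α ≤ T) (hβ : T ≤ 5 * β) {φ : ℕ → ℝ} (hφ : ∀ g, 0 ≤ φ g)
    (K1 : ∀ t R t' R' g, 1 ≤ g → g * T ≤ 5 * t → kap θ t R t' R' ≤ φ g)
    (K2 : ∀ c, T ≤ 5 * c → c ≤ T → ∀ a < n, ∀ R ≤ n, ∀ R' : ℕ → ℕ, (∀ a', R' a' ≤ n) →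
      ∑ a' ∈ range n, kap θ (c + a * T) R (c + a' * T) (R' a') ≤ φ (a + 1))
    (hconv : ∀ g ≤ n + 1, 2 * w * ∑ i ∈ Ioo 0 g, φ i * φ (g - i) ≤ φ g) :
    Col w (fs θ T α β n ρ (lt false + lt true) 0 - fs θ T α β n ρ (lt false) 0)
        (fs θ T α β n ρ (lt false + lt true) 0 - fs θ T α β n ρ (lt false) 0) ≤
      2 * w * ∑ i ∈ Ioo 0 (n + 1), φ i * φ (n + 1 - i) := by
  have main : ∀ d i, 1 ≤ i → i ≤ n → n - i ≤ d → ∀ i', 1 ≤ i' → i' ≤ n →
      Col w (fs θ T α β n ρ (lt false + lt true) i) (fs θ T α β n ρ (lt false + lt true) i') ≤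
        2 * φ (n + 1 - i) := by
    intro d
    induction d using Nat.strong_induction_on with
    | _ d ih =>
      intro i hi1 hin hd i' hi1' hin'
      have hA := ColRec_marks h0 h1 hw ρ hφ K2 (c := T) (by omega) le_rfl (i := i) (i' := i')
        (G := fun j => fs θ T α β n ρ (lt false + lt true) (j + 1))
        (fun j hj hjn j' hj' => by
          have := ih (n - (j + 1)) (by omega) (j + 1) (by omega) (by omega) le_rfl (j' + 1)
            (by omega) (by omega)
          have e : n + 1 - (j + 1) = n - j := by omega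
          rwa [e] at this)
      have hB := hconv (n + 1 - i) (by omega)
      have hi0 : i ≠ 0 := by omega
      have hi0' : i' ≠ 0 := by omega
      rw [fs_first θ T α β n ρ hin, fs_first θ T α β n ρ hin', fs_false θ T α β n ρ hin,
        fs_false θ T α β n ρ hin', if_neg hi0, if_neg hi0', Col_add_left, ColRec_add_right,
        ColRec_add_right, Col_G_G]
      have z1 : ∀ (t R : ℕ) (i₀ : ℕ), Col w (Bq θ (lt false) ^ t * lt false ^ R)
          (∑ j ∈ (Ico i₀ n).filter (· ∈ ρ), Bq θ (lt false) ^ (T + (j - i₀) * T) *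
            lt false ^ ((Ico i₀ j).filter (· ∈ ρ)).card * lt true *
            fs θ T α β n ρ (lt false + lt true) (j + 1)) = 0 := by
        intro t R i₀
        rw [ColRec_sum_right]
        exact sum_eq_zero fun j _ => Col_G_mark _ _ _ _ _ _ _
      rw [z1, Col_comm w (∑ j ∈ _, _) (_ * _), z1]
      have hK := K1 (if i = n then β else T + (n - 1 - i) * T + β) ((Ico i n).filter (· ∈ ρ)).card
        (if i' = n then β else T + (n - 1 - i') * T + β) ((Ico i' n).filter (· ∈ ρ)).card
        (n + 1 - i) (by omega) (by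
          split_ifs with h
          · have e : n + 1 - i = 1 := by omega
            rw [e]; omega
          · have e : n + 1 - i = (n - 1 - i) + 2 := by omega
            rw [e]; nlinarith [Nat.zero_le ((n - 1 - i) * T), Nat.zero_le β])
      linarith
  have hA := ColRec_marks h0 h1 hw ρ hφ K2 (c := α) hα hα' (i := 0) (i' := 0)
    (G := fun j => fs θ T α β n ρ (lt false + lt true) (j + 1))
    (fun j hj hjn j' hj' => by
      have := main (n - (j + 1)) (j + 1) (by omega) (by omega) le_rfl (j' + 1)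
        (by omega) (by omega)
      have e : n + 1 - (j + 1) = n - j := by omega
      rwa [e] at this)
  rw [fs_first θ T α β n ρ (Nat.zero_le n), add_sub_cancel_left, if_pos rfl]
  simpa using hA

end Crest.Agent.R300L
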