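import Crest.Agent.R300L.ChaosP

/-!
# From the monoid algebra to the statements
-/

set_option autoImplicit false
open Finset

noncomputable section
namespace Crest.Agent.R300L

open Crest.FinProb Crest.TraceRecon

lemma Close.mono {p : ℝ} {u v : List Bool} {β η η' : ℝ} (h : Close p u v β η) (hη : η ≤ η') :
    Close p u v β η' := by
  obtain ⟨U, X, a, b, c, d, e, f⟩ := h
  exact ⟨U, X, a, b, c, d, e.trans hη, f.trans hη⟩
/-- common prefix and suffix (`Nb.mul_left`, `Nb.mul_right`, `l1_mul_mul_le`) -/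
lemma Close.pad {p : ℝ} (h0 : 0 ≤ p) (h1 : p ≤ 1) {u v : List Bool} {β η : ℝ}
    (h : Close p u v β η) (a b : List Bool) : Close p (a ++ u ++ b) (a ++ v ++ b) β η := by
  obtain ⟨U, X, hU, hX, hn, hb, e1, e2⟩ := h
  have hA := isProb_law h0 h1 a
  have hB := isProb_law h0 h1 b
  have hadd : law p a * U * law p b + law p a * X * law p b = law p a * (U + X) * law p b := by
    rw [mul_add, add_mul]
  refine ⟨law p a * U * law p b, law p a * X * law p b, (hA.mul hU).mul hB, ?_, ?_, ?_, ?_, ?_⟩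
  · rw [mass_mul, mass_mul, hX, mul_zero, zero_mul]
  · rw [hadd]
    exact (hA.1.mul hn).mul hB.1
  · exact Nb.mul_right (by norm_num) (hA.1.mul hU.1) hB (Nb.mul_left (by norm_num) hU.1 hA hb)
  · rw [law_append, law_append, ← sub_mul, ← mul_sub]
    exact (l1_mul_mul_le hA hB _).trans e1
  · rw [hadd, law_append, law_append, ← sub_mul, ← mul_sub]
    exact (l1_mul_mul_le hA hB _).trans e2
/-- further deletions: apply the Markov kernel `ev (Bq p' (lt false)) (Bq p' (lt true))` -/
lemma Close.thin {p p' : ℝ} (h0 : 0 ≤ p') (h1 : p' ≤ 1) {u v : List Bool} {β η : ℝ}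
    (h : Close p u v β η) : Close (p * p') u v β η := by
  obtain ⟨U, X, hU, hX, hn, hb, e1, e2⟩ := h
  set Φ := ev (Bq p' (lt false)) (Bq p' (lt true)) with hΦ
  have hs : ∀ τ, IsProb (Φ.toLinearMap (MonoidAlgebra.single τ 1)) := fun τ =>
    isProb_ev_single ((isProb_lt false).bq h0 h1) ((isProb_lt true).bq h0 h1) τ
  have hk : Kern Φ.toLinearMap := fun τ => ⟨(hs τ).1, (hs τ).2.le⟩
  have hm : ∀ Y, mass (Φ.toLinearMap Y) = mass Y := mass_map_eq fun τ => (hs τ).2
  have hl : ∀ w, Φ.toLinearMap (law p w) = law (p * p') w := by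
    intro w
    induction w with
    | nil => simp only [law_nil, AlgHom.toLinearMap_apply, map_one]
    | cons a w ih =>
      simp only [AlgHom.toLinearMap_apply] at ih ⊢
      rw [law_cons, law_cons, map_mul, ih, map_Bq]
      congr 1
      have : Φ (lt a) = Bq p' (lt a) := by
        cases a
        · exact ev_lt_false _ _
        · exact ev_lt_true _ _
      rw [this]
      simp only [Bq]
      module
  refine ⟨Φ.toLinearMap U, Φ.toLinearMap X, ⟨hk.nn hU.1, (hm U).trans hU.2⟩, (hm X).trans hX,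
    ?_, Nb.kern (by norm_num) hk hU.1 hb, ?_, ?_⟩
  · rw [← map_add]
    exact hk.nn hn
  · rw [← hl, ← map_sub]
    exact (hk.l1_le _).trans e1
  · rw [← hl, ← map_add, ← map_sub]
    exact (hk.l1_le _).trans e2
lemma Close.l1_le {p : ℝ} {u v : List Bool} {β η : ℝ} (h : Close p u v β η) :
    l1 (law p u - law p v) ≤ β + 2 * η := by
  obtain ⟨U, X, hU, hX, hn, hb, e1, e2⟩ := h
  have a1 := l1_triangle (law p u) U (law p v)
  have a2 := l1_triangle U (U + X) (law p v)
  have a3 : l1 (U - (U + X)) = l1 X := by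
    rw [l1_sub_comm, add_sub_cancel_left]
  have a4 := Nb.l1_le (by norm_num) hU.1 hU.2.le hb
  rw [l1_sub_comm] at e2
  linarith

/-- induction on `n` (`Fin.consEquiv`/`Fin.sum_univ_succ`-style, `List.finRange_succ`, `ex_mul`) -/
lemma ex_law (p : ℝ) {n : ℕ} (x : Fin n → Bool) (F : FB → ℝ) :
    ex (law p (List.ofFn x)) F =
      ∑ keep : Fin n → Bool, bernoulliWeight p keep * F (FreeMonoid.ofList (traceOf x keep)) := by
  induction n generalizing F with
  | zero => simp [law_nil, ex_one, bernoulliWeight, traceOf]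
  | succ n ih =>
    have hw : ∀ (b : Bool) (k : Fin n → Bool), bernoulliWeight p (Fin.cons b k : Fin (n + 1) → Bool) =
        (if b then p else 1 - p) * bernoulliWeight p k := by
      intro b k
      simp only [bernoulliWeight, Fin.prod_univ_succ, Fin.cons_zero, Fin.cons_succ]
    have ht : ∀ (b : Bool) (k : Fin n → Bool), traceOf x (Fin.cons b k : Fin (n + 1) → Bool) =
        (if b then [x 0] else []) ++ traceOf (fun i => x i.succ) k := by
      intro b k
      cases b <;>
        simp [traceOf, List.finRange_succ, List.filter_map, Function.comp_def]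
    rw [List.ofFn_succ, law_cons, ex_mul, ← (Fin.consEquiv fun _ => Bool).sum_comp,
      Fintype.sum_prod_type, Fintype.sum_bool]
    simp only [Bq, lt, ex_add, ex_smul, ex_one, ex_single, ih]
    simp only [show ∀ (b : Bool) (k : Fin n → Bool), (Fin.consEquiv fun _ => Bool) (b, k) =
      Fin.cons b k from fun _ _ => rfl, hw, ht, Finset.mul_sum]
    rw [add_comm]
    congr 1 <;> refine Finset.sum_congr rfl fun k _ => ?_
    · simp only [if_true, one_mul, mul_assoc]
      rfl
    · simp [mul_assoc]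
lemma Link_ex_ind {M : Type} [DecidableEq M] (X : Al M) (σ : M) :
    ex X (fun τ => if τ = σ then 1 else 0) = X.coeff σ := by
  rw [ex_eq_sum X _ (Finset.subset_insert σ _)]
  simp
lemma coeff_law (p : ℝ) {n : ℕ} (x : Fin n → Bool) (w : List Bool) :
    (law p (List.ofFn x)).coeff (FreeMonoid.ofList w) = traceLaw p x w := by
  classical
  rw [← Link_ex_ind, ex_law, traceLaw, bernoulliProb, Finset.sum_filter]
  refine Finset.sum_congr rfl fun k _ => ?_
  by_cases hk : traceOf x k = w
  · simp [hk]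
  · have : FreeMonoid.ofList (traceOf x k) ≠ FreeMonoid.ofList w :=
      fun e => hk (FreeMonoid.ofList.injective e)
    simp [hk, this]
/-- the strings `List.ofFn v` are pairwise distinct -/
lemma traceTV_le (p : ℝ) {n : ℕ} (x y : Fin n → Bool) :
    traceTV p x y ≤ 1 / 2 * l1 (law p (List.ofFn x) - law p (List.ofFn y)) := by
  classical
  unfold traceTV
  refine mul_le_mul_of_nonneg_left ?_ (by norm_num)
  set X := law p (List.ofFn x) - law p (List.ofFn y) with hX
  have hc : ∀ w, traceLaw p x w - traceLaw p y w = X.coeff (FreeMonoid.ofList w) := by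
    intro w
    rw [← coeff_law, ← coeff_law, hX]
    simp
  simp only [hc]
  rw [Finset.sum_sigma']
  rw [← Finset.sum_image (f := fun τ : FB => |X.coeff τ|)
    (g := fun a : (Σ k : ℕ, Fin k → Bool) => FreeMonoid.ofList (List.ofFn a.2))]
  · rw [l1_eq_sum X (Finset.subset_union_left (s₂ := Finset.image
      (fun a : (Σ k : ℕ, Fin k → Bool) => FreeMonoid.ofList (List.ofFn a.2))
      ((range (n + 1)).sigma fun _ => univ)))]
    exact Finset.sum_le_sum_of_subset_of_nonneg Finset.subset_union_right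
      fun _ _ _ => abs_nonneg _
  · intro a _ b _ e
    exact List.ofFn_inj'.1 (FreeMonoid.ofList.injective e)

/-- `m` independent samples: the `m`-th power of the image in `ℝ[FreeMonoid M]` -/
def emb {M : Type} : Al M →ₗ[ℝ] Al (FreeMonoid M) where
  toFun := MonoidAlgebra.mapDomain FreeMonoid.of
  map_add' := MonoidAlgebra.mapDomain_add _
  map_smul' := by
    intro c X; ext1; simp [MonoidAlgebra.mapDomain, Finsupp.mapDomain_smul]

lemma Link_emb_single {M : Type} (τ : M) :
    emb (MonoidAlgebra.single τ (1 : ℝ)) = MonoidAlgebra.single (FreeMonoid.of τ) 1 :=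
  MonoidAlgebra.mapDomain_single

lemma Link_kern_emb {M : Type} : Kern (emb (M := M)) := fun τ => by
  rw [Link_emb_single]
  exact ⟨(IsProb.single _).1, (IsProb.single _).2.le⟩

lemma Link_mass_emb {M : Type} (X : Al M) : mass (emb X) = mass X :=
  mass_map_eq (fun τ => by rw [Link_emb_single]; exact (IsProb.single _).2) X

lemma Link_isProb_emb {M : Type} {X : Al M} (h : IsProb X) : IsProb (emb X) :=
  ⟨Link_kern_emb.nn h.1, (Link_mass_emb X).trans h.2⟩

lemma Link_ex_emb {M : Type} (X : Al M) (g : FreeMonoid M → ℝ) :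
    ex (emb X) g = ex X fun τ => g (FreeMonoid.of τ) := by
  conv_lhs => rw [eq_sum_single X]
  rw [map_sum, ex_sum]
  simp only [map_smul, Link_emb_single, ex_smul, ex_single, one_mul]
  rfl

lemma Link_ex_pow {M ι : Type} [Fintype ι] {X : Al M} {w : ι → ℝ} {t : ι → M}
    (h : ∀ F, ex X F = ∑ a, w a * F (t a)) (m : ℕ) (G : FreeMonoid M → ℝ) :
    ex (emb X ^ m) G =
      ∑ a : Fin m → ι, (∏ k, w (a k)) * G (FreeMonoid.ofList (List.ofFn fun k => t (a k))) := by
  induction m generalizing G with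
  | zero => simp [ex_one]
  | succ m ih =>
    rw [pow_succ', ex_mul, Link_ex_emb, h, ← (Fin.consEquiv fun _ => ι).sum_comp,
      Fintype.sum_prod_type]
    refine Finset.sum_congr rfl fun a _ => ?_
    rw [ih, Finset.mul_sum]
    refine Finset.sum_congr rfl fun b _ => ?_
    simp only [Fin.consEquiv_apply, Fin.prod_univ_succ, List.ofFn_succ, Fin.cons_zero,
      Fin.cons_succ, mul_assoc]
    rfl

lemma outP_eq (p : ℝ) {n m : ℕ} (K : (Fin m → List Bool) → (Fin n → Bool) → ℝ)
    (x z : Fin n → Bool) :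
    outP p K x z = ex (emb (law p (List.ofFn x)) ^ m)
      (fun l => K (fun k => FreeMonoid.toList ((FreeMonoid.toList l).getD k 1)) z) := by
  rw [Link_ex_pow (ex_law p x), outP]
  refine Finset.sum_congr rfl fun a _ => ?_
  congr 2
  funext k
  simp [List.getD_eq_getElem?_getD]

/-- `0 ≤ K ≤ 1`, `abs_ex_le`, `l1_pow_sub`, `chaos_pow` with `p = 2`, `Nb.kern`, `Nb.l1_le` -/
theorem outP_close {p : ℝ} (h0 : 0 ≤ p) (h1 : p ≤ 1) {n m : ℕ}
    {K : (Fin m → List Bool) → (Fin n → Bool) → ℝ} (hK : IsRule K) {x y : Fin n → Bool} {β η : ℝ}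
    (h : Close p (List.ofFn x) (List.ofFn y) β η) (z : Fin n → Bool) :
    outP p K y z ≤ outP p K x z + (2 * m * η + √((1 + 6 * β ^ 2) ^ m - 1)) := by
  obtain ⟨U, X, hU, hX, hn, hb, e1, e2⟩ := h
  have hV : IsProb (U + X) := ⟨hn, by rw [mass_add, hX, hU.2, add_zero]⟩
  have ha := Link_isProb_emb (isProb_law h0 h1 (List.ofFn x))
  have hb' := Link_isProb_emb (isProb_law h0 h1 (List.ofFn y))
  have hU' := Link_isProb_emb hU
  have hV' := Link_isProb_emb hV
  have hc := Nb.l1_le (by norm_num) (hU'.pow m).1 (hU'.pow m).2.le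
    (chaos_pow (p := 2) even_two le_rfl hU' ((Link_mass_emb X).trans hX)
      (Nb.kern (by norm_num) Link_kern_emb hU.1 hb) m)
  rw [← map_add, show (3 * ((2 : ℕ) : ℝ)) = 6 by norm_num] at hc
  have hm : (0 : ℝ) ≤ m := Nat.cast_nonneg m
  have d1 : l1 (emb (law p (List.ofFn y)) ^ m - emb (U + X) ^ m) ≤ m * η := by
    refine (l1_pow_sub hb' hV' m).trans (mul_le_mul_of_nonneg_left ?_ hm)
    rw [← map_sub]
    exact (Link_kern_emb.l1_le _).trans e2
  have d2 : l1 (emb U ^ m - emb (law p (List.ofFn x)) ^ m) ≤ m * η := by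
    rw [l1_sub_comm]
    refine (l1_pow_sub ha hU' m).trans (mul_le_mul_of_nonneg_left ?_ hm)
    rw [← map_sub]
    exact (Link_kern_emb.l1_le _).trans e1
  have t1 := l1_triangle (emb (law p (List.ofFn y)) ^ m) (emb (U + X) ^ m)
    (emb (law p (List.ofFn x)) ^ m)
  have t2 := l1_triangle (emb (U + X) ^ m) (emb U ^ m) (emb (law p (List.ofFn x)) ^ m)
  have hK1 : ∀ τ, |K τ z| ≤ 1 := by
    intro τ
    rw [abs_of_nonneg ((hK τ).1 z), ← (hK τ).2]
    exact Finset.single_le_sum (fun y _ => (hK τ).1 y) (Finset.mem_univ z)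
  have t3 := abs_ex_le (emb (law p (List.ofFn y)) ^ m - emb (law p (List.ofFn x)) ^ m)
    (f := fun l => K (fun k => FreeMonoid.toList ((FreeMonoid.toList l).getD k 1)) z) (C := 1)
    fun l => hK1 _
  rw [ex_sub, ← outP_eq, ← outP_eq] at t3
  have t4 := le_abs_self (outP p K y z - outP p K x z)
  linarith
lemma sum_outP_le {p : ℝ} (h0 : 0 ≤ p) (h1 : p ≤ 1) {n m : ℕ}
    {K : (Fin m → List Bool) → (Fin n → Bool) → ℝ} (hK : IsRule K) (x : Fin n → Bool)
    (s : Finset (Fin n → Bool)) : ∑ z ∈ s, outP p K x z ≤ 1 := by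
  have hP := (Link_isProb_emb (isProb_law h0 h1 (List.ofFn x))).pow m
  simp only [outP_eq]
  have e : ∑ z ∈ s, ex (emb (law p (List.ofFn x)) ^ m)
      (fun l => K (fun k => FreeMonoid.toList ((FreeMonoid.toList l).getD k 1)) z) =
      ex (emb (law p (List.ofFn x)) ^ m)
        (fun l => ∑ z ∈ s, K (fun k => FreeMonoid.toList ((FreeMonoid.toList l).getD k 1)) z) := by
    simp only [ex, Finset.mul_sum]
    exact Finset.sum_comm
  rw [e, ← hP.2, mass_eq_ex]
  refine ex_mono hP.1 fun l => ?_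
  rw [← (hK fun k => FreeMonoid.toList ((FreeMonoid.toList l).getD k 1)).2]
  exact Finset.sum_le_sum_of_subset_of_nonneg (Finset.subset_univ s) fun y _ _ => (hK _).1 y

end Crest.Agent.R300L
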