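import Crest.Agent.R300L.Defs

/-!
# Choice of the parameters (pure real analysis)
-/

set_option autoImplicit false
open Finset

noncomputable section
namespace Crest.Agent.R300L

theorem param_w {K A T : ℝ} (hK : 0 < K) (hT : 1 ≤ T) (h : 4 * K ^ 5 * (2 * T) ^ 5 ≤ Real.exp A) :
    ∃ w : ℕ, T ≤ w ∧ 4 * K ^ 5 * (w : ℝ) ^ 5 ≤ Real.exp A ∧
      Real.exp A ≤ 32 * (4 * K ^ 5 * (w : ℝ) ^ 5) := by
  have h4 : 0 < 4 * K ^ 5 := by positivity
  set y : ℝ := (Real.exp A / (4 * K ^ 5)) ^ ((5 : ℕ) : ℝ)⁻¹ with hy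
  have hy0 : 0 ≤ y := by positivity
  have hy5 : 4 * K ^ 5 * y ^ 5 = Real.exp A := by
    rw [hy, Real.rpow_inv_natCast_pow (by positivity) (by norm_num)]
    field_simp
  have h1 : 2 * T ≤ y := by
    refine le_of_pow_le_pow_left₀ (n := 5) (by norm_num) hy0 ?_
    rw [← hy5] at h
    exact le_of_mul_le_mul_left h h4
  have h2 : (⌊y⌋₊ : ℝ) ≤ y := Nat.floor_le hy0
  have h3 : y < ⌊y⌋₊ + 1 := Nat.lt_floor_add_one y
  refine ⟨⌊y⌋₊, by linarith, ?_, ?_⟩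
  · rw [← hy5]
    gcongr
  · have h5 : y ≤ 2 * ⌊y⌋₊ := by linarith
    calc Real.exp A = 4 * K ^ 5 * y ^ 5 := hy5.symm
      _ ≤ 4 * K ^ 5 * (2 * ⌊y⌋₊) ^ 5 := by gcongr
      _ = _ := by ring

/-- the lower bound for `L'/A` -/
theorem param_ratio {ε u L L' q : ℝ} (hε : 0 < ε) (hε1 : ε ≤ 1 / 3) (hL : L = Real.exp u)
    (hu1 : 1 ≤ u) (hu : 48000 / ε ^ 3 ≤ u) (hL' : L / 2 ≤ L') (hq : 0 < q) (hq1 : q ≤ 1 / 2)
    (hz : Real.log (16 * 10 ^ 10) ≤ ε * Real.log (8 * q ^ 3 * L)) :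
    Real.exp ((1 - ε) * Real.log (8 * q ^ 3 * L)) * (2000 * u ^ 2 + 5 * 10 ^ 9 / q ^ 3) ≤ L' := by
  have hL0 : 0 < L := hL ▸ Real.exp_pos u
  have hz0 : 0 < 8 * q ^ 3 * L := by positivity
  set E := Real.exp ((1 - ε) * Real.log (8 * q ^ 3 * L)) with hE
  have hE0 : 0 < E := Real.exp_pos _
  have h1 : E * (8000 * u ^ 2) ≤ L := by
    have h2 : 8 * q ^ 3 * L ≤ L := by
      refine mul_le_of_le_one_left hL0.le ?_
      have : q ^ 3 ≤ (1 / 2) ^ 3 := pow_le_pow_left₀ hq.le hq1 3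
      linarith
    have h3 : Real.log (8 * q ^ 3 * L) ≤ u := by
      rw [Real.log_le_iff_le_exp hz0, ← hL]
      exact h2
    have h4 : E ≤ Real.exp ((1 - ε) * u) :=
      Real.exp_le_exp.2 (mul_le_mul_of_nonneg_left h3 (by linarith))
    have h5 : 8000 * u ^ 2 ≤ Real.exp (ε * u) := by
      refine le_trans ?_ (Real.pow_div_factorial_le_exp (ε * u) (by positivity) 3)
      rw [div_le_iff₀ (by positivity)] at hu
      have h6 := mul_le_mul_of_nonneg_right hu (sq_nonneg u)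
      rw [le_div_iff₀ (by positivity)]
      norm_num [Nat.factorial]
      nlinarith
    calc E * (8000 * u ^ 2) ≤ Real.exp ((1 - ε) * u) * Real.exp (ε * u) := by gcongr
      _ = L := by rw [← Real.exp_add, hL]; congr 1; ring
  have h2 : E * (2 * 10 ^ 10 / q ^ 3) ≤ L := by
    have h3 : 16 * 10 ^ 10 ≤ Real.exp (ε * Real.log (8 * q ^ 3 * L)) :=
      (Real.log_le_iff_le_exp (by norm_num)).1 hz
    have h4 : E * (16 * 10 ^ 10) ≤ 8 * q ^ 3 * L := by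
      calc E * (16 * 10 ^ 10) ≤ E * Real.exp (ε * Real.log (8 * q ^ 3 * L)) := by gcongr
        _ = Real.exp (Real.log (8 * q ^ 3 * L)) := by rw [hE, ← Real.exp_add]; congr 1; ring
        _ = _ := Real.exp_log hz0
    rw [← mul_div_assoc, div_le_iff₀ (by positivity)]
    linarith
  have e : E * (2000 * u ^ 2 + 5 * 10 ^ 9 / q ^ 3)
      = E * (8000 * u ^ 2) / 4 + E * (2 * 10 ^ 10 / q ^ 3) / 4 := by ring
  rw [e]
  linarith

/-- `L = log n`, `z = 8q³L ∈ [R, L]`, `A = (log L)³ + 10^{10}/q³`, `L' = L - log(W+1)`,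
`d = ⌊log₂(L'/A)⌋` (so `A₀ = L'/2^d ∈ [A, 2A)`, `1 ≤ d ≤ log₂ L`), `g = ⌈L²⌉`, `k = 2g^d`,
`w = ⌊(e^{A₀}/(4K⁵))^{1/5}⌋` (or the largest `w` with `4K⁵w⁵ ≤ e^{A₀}`), so
`e^{A₀}/32 ≤ x ≤ e^{A₀}`; `log k ≤ C (log L)²`.  Main inequality:
`2^d (d+1) log x ≥ (d+1) L' (1 - 4/A)` and `(d+1) log 2 ≥ log(L'/A) ≥ (1-ε) log z`
(if `(log L)³ ≤ q⁻³`: `L'/A ≥ z/(4·10^{11})`, `z ≥ R`; else `L'/A ≥ L/(4·10^{10}(log L)³) ≥ L^{1-ε}`). -/
theorem param {c : ℝ} (hc0 : 0 < c) (hc : c < 1 / (4 * Real.log 2)) (W : ℕ) :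
    ∃ (N₀ : ℕ) (R : ℝ), ∀ n : ℕ, N₀ ≤ n → ∀ q : ℝ, 0 < q → q ≤ 1 / 2 →
      R ≤ 8 * q ^ 3 * Real.log n → ∃ k g d w : ℕ, 300 ≤ k ∧ 1 ≤ g ∧ 1 ≤ d ∧ 2 * g ^ d ≤ k ∧
        ((k : ℝ) ^ 4) ^ 10 * Real.exp (10 ^ 9 / q ^ 3) ≤ w ∧
        (4 * (k ^ 4) ^ 5 * w ^ 5) ^ (2 ^ d * (d + 8)) ≤ 2 ^ g ∧
        W * (4 * (k ^ 4) ^ 5 * w ^ 5) ^ 2 ^ d ≤ n ∧
        (n : ℝ) ^ (4 * c * Real.log (8 * q ^ 3 * Real.log n)) ≤
          (4 * ((k : ℝ) ^ 4) ^ 5 * (w : ℝ) ^ 5) ^ (2 ^ d * (d + 1)) ∧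
        (4 * ((k : ℝ) ^ 4) ^ 5 * (w : ℝ) ^ 5) ^ 2 ^ d * (d + 1) * (1 / 2) ^ g ≤
          (n : ℝ) ^ (-(c * Real.log (8 * q ^ 3 * Real.log n))) := by
  have hl2 : 1 / 2 ≤ Real.log 2 := by linarith [Real.log_two_gt_d9]
  have hl2' : Real.log 2 ≤ 1 := by linarith [Real.log_two_lt_d9]
  have hc1 : 4 * c * Real.log 2 < 1 := by
    rw [lt_div_iff₀ (by linarith)] at hc
    linarith
  have hc2 : c ≤ 1 / 2 := by linarith [mul_le_mul_of_nonneg_left hl2 hc0.le]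
  set ε : ℝ := (1 - 4 * c * Real.log 2) / 3 with hεdef
  have hε : 0 < ε := by linarith
  have hε1 : ε ≤ 1 / 3 := by
    have : 0 ≤ 4 * c * Real.log 2 := by positivity
    linarith
  have hδ : 4 * c * Real.log 2 ≤ (1 - ε) ^ 3 := by
    have h1 : 4 * c * Real.log 2 = 1 - 3 * ε := by rw [hεdef]; ring
    have h2 : (1 - ε) ^ 3 = 1 - 3 * ε + ε ^ 2 * (3 - ε) := by ring
    have h3 : 0 ≤ ε ^ 2 * (3 - ε) := mul_nonneg (sq_nonneg _) (by linarith)
    linarith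
  clear_value ε
  have hW : 0 ≤ Real.log (W + 1) := Real.log_nonneg (by linarith [Nat.cast_nonneg (α := ℝ) W])
  have hlg : 0 ≤ Real.log (16 * 10 ^ 10) := Real.log_nonneg (by norm_num)
  refine ⟨⌈Real.exp (Real.exp (12 + 4 / ε + 48000 / ε ^ 3) + Real.log (W + 1) / ε)⌉₊,
    Real.exp (2 + Real.log (16 * 10 ^ 10) / ε), fun n hn q hq hq1 hR => ?_⟩
  have hn1 := Nat.le_of_ceil_le hn
  have hn0 : (0 : ℝ) < n := (Real.exp_pos _).trans_le hn1
  set L : ℝ := Real.log n with hLdef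
  have hnL : (n : ℝ) = Real.exp L := (Real.exp_log hn0).symm
  have hL1 : Real.exp (12 + 4 / ε + 48000 / ε ^ 3) + Real.log (W + 1) / ε ≤ L :=
    (Real.le_log_iff_exp_le hn0).2 hn1
  have p1 : 0 ≤ 4 / ε := by positivity
  have p2 : 0 ≤ 48000 / ε ^ 3 := by positivity
  have p3 : 0 ≤ Real.log (W + 1) / ε := by positivity
  have p4 : 0 < Real.exp (12 + 4 / ε + 48000 / ε ^ 3) := Real.exp_pos _
  have hL0 : 0 < L := by linarith
  set u : ℝ := Real.log L with hudef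
  have hLu : L = Real.exp u := (Real.exp_log hL0).symm
  have hu : 12 + 4 / ε + 48000 / ε ^ 3 ≤ u := (Real.le_log_iff_exp_le hL0).2 (by linarith)
  have hu12 : 12 ≤ u := by linarith
  have hLq : 4 * u + 16 ≤ L := by
    have := Real.quadratic_le_exp_of_nonneg (x := u) (by linarith)
    rw [← hLu] at this
    have h1 : 12 * u ≤ u * u := mul_le_mul_of_nonneg_right hu12 (by linarith)
    linarith
  set z : ℝ := 8 * q ^ 3 * L with hzdef
  have hz0 : 0 < z := by positivity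
  have hz1 : 2 + Real.log (16 * 10 ^ 10) / ε ≤ Real.log z := (Real.le_log_iff_exp_le hz0).2 hR
  have p5 : 0 ≤ Real.log (16 * 10 ^ 10) / ε := by positivity
  have hz2 : Real.log (16 * 10 ^ 10) ≤ ε * Real.log z := by
    have : Real.log (16 * 10 ^ 10) / ε ≤ Real.log z := by linarith
    rwa [div_le_iff₀' hε] at this
  have hz3 : Real.log z ≤ u := by
    refine Real.log_le_log hz0 (mul_le_of_le_one_left hL0.le ?_)
    have : q ^ 3 ≤ (1 / 2) ^ 3 := pow_le_pow_left₀ hq.le hq1 3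
    linarith
  set L' : ℝ := L - Real.log (W + 1) with hL'def
  have hL'1 : (1 - ε) * L ≤ L' := by
    have : Real.log (W + 1) / ε ≤ L := by linarith
    rw [div_le_iff₀' hε] at this
    linarith
  have hL'2 : L / 2 ≤ L' := by linarith [mul_le_mul_of_nonneg_right hε1 hL0.le]
  have hL'3 : L' ≤ L := by linarith
  set A : ℝ := 2000 * u ^ 2 + 5 * 10 ^ 9 / q ^ 3 with hAdef
  have p6 : 0 ≤ 5 * 10 ^ 9 / q ^ 3 := by positivity
  have huu : 12 * u ≤ u * u := mul_le_mul_of_nonneg_right hu12 (by linarith)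
  have hAu : u ≤ A := by linarith
  have hA0 : 0 < A := by linarith
  have hrat : Real.exp ((1 - ε) * Real.log z) ≤ L' / A := by
    rw [le_div_iff₀ hA0]
    exact param_ratio hε hε1 hLu (by linarith) (by linarith) hL'2 hq hq1 hz2
  have hrat2 : 2 ≤ L' / A := by
    refine le_trans ?_ hrat
    have h1 : (1 / 2) * 2 ≤ (1 - ε) * Real.log z :=
      mul_le_mul (by linarith) (by linarith) (by norm_num) (by linarith)
    linarith [Real.add_one_le_exp ((1 - ε) * Real.log z)]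
  obtain ⟨d, hd1, hd2⟩ := exists_nat_pow_near (x := L' / A) (y := 2) (by linarith) one_lt_two
  have hd : 1 ≤ d := by
    rcases Nat.eq_zero_or_pos d with rfl | h
    · norm_num at hd2
      linarith
    · exact h
  have h2d : (2 : ℝ) ^ d = Real.exp (d * Real.log 2) := by
    rw [Real.exp_nat_mul, Real.exp_log two_pos]
  have hdu : (d : ℝ) ≤ 2 * u := by
    have h1 : L' / A ≤ L := by
      rw [div_le_iff₀ hA0]
      exact hL'3.trans (le_mul_of_one_le_right hL0.le (by linarith))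
    have h2 : Real.exp (d * Real.log 2) ≤ Real.exp u := by
      rw [← h2d, ← hLu]
      exact hd1.trans h1
    have h3 := Real.exp_le_exp.1 h2
    have h4 : (d : ℝ) * (1 / 2) ≤ d * Real.log 2 := mul_le_mul_of_nonneg_left hl2 (Nat.cast_nonneg d)
    linarith
  have hdz : (1 - ε) * Real.log z ≤ (d + 1) * Real.log 2 := by
    have h1 : (2 : ℝ) ^ (d + 1) = Real.exp ((d + 1 : ℕ) * Real.log 2) := by
      rw [Real.exp_nat_mul, Real.exp_log two_pos]
    have h2 := hrat.trans hd2.le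
    rw [h1] at h2
    have := Real.exp_le_exp.1 h2
    push_cast at this
    exact this
  set g : ℕ := ⌈L ^ 2⌉₊ with hgdef
  have hg1 : L ^ 2 ≤ g := Nat.le_ceil _
  have hg2 : (g : ℝ) ≤ L ^ 2 + 1 := (Nat.ceil_lt_add_one (sq_nonneg L)).le
  have hL64 : 64 ≤ L := by linarith
  have hLL : 64 * L ≤ L * L := mul_le_mul_of_nonneg_right hL64 hL0.le
  have hg3 : 150 ≤ g := by
    have : (150 : ℝ) ≤ g := by linarith
    exact_mod_cast this
  have hG : Real.exp (L ^ 2 / 2) ≤ 2 ^ g := by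
    have e : (2 : ℝ) ^ g = Real.exp (g * Real.log 2) := by
      rw [Real.exp_nat_mul, Real.exp_log two_pos]
    rw [e, Real.exp_le_exp]
    have : (g : ℝ) * (1 / 2) ≤ g * Real.log 2 := mul_le_mul_of_nonneg_left hl2 (Nat.cast_nonneg g)
    linarith
  have hk1 : 300 ≤ 2 * g ^ d := by
    have := Nat.le_self_pow (by omega : d ≠ 0) g
    omega
  obtain ⟨k, hk⟩ : ∃ k : ℕ, k = 2 * g ^ d := ⟨_, rfl⟩
  rw [← hk] at hk1
  have hk0 : (1 : ℝ) ≤ k := by exact_mod_cast (by omega : 1 ≤ k)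
  have hk2 : (k : ℝ) ≤ Real.exp (7 * u ^ 2) := by
    have h1 : (g : ℝ) ≤ Real.exp (3 * u) := by
      have e : Real.exp (3 * u) = L ^ 3 := by
        rw [hLu, ← Real.exp_nat_mul]
        norm_num
      rw [e]
      have : 64 * (L * L) ≤ L * (L * L) := mul_le_mul_of_nonneg_right hL64 (by positivity)
      linarith
    have h2 : (g : ℝ) ^ d ≤ Real.exp (6 * u ^ 2) := by
      refine (pow_le_pow_left₀ (Nat.cast_nonneg g) h1 d).trans ?_
      rw [← Real.exp_nat_mul, Real.exp_le_exp]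
      linarith [mul_le_mul_of_nonneg_right hdu (show 0 ≤ u by linarith)]
    have h3 : 2 ≤ Real.exp (u ^ 2) := by linarith [Real.add_one_le_exp (u ^ 2)]
    calc (k : ℝ) = 2 * (g : ℝ) ^ d := by rw [hk]; push_cast; ring
      _ ≤ Real.exp (u ^ 2) * Real.exp (6 * u ^ 2) := by gcongr
      _ = _ := by rw [← Real.exp_add]; congr 1; ring
  set A₀ : ℝ := L' / 2 ^ d with hA₀
  have hA₀1 : A ≤ A₀ := by
    rw [le_div_iff₀ hA0] at hd1
    rw [le_div_iff₀ (by positivity)]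
    linarith
  have hA₀2 : 2 ^ d * A₀ = L' := by rw [hA₀]; field_simp
  have hT : 1 ≤ ((k : ℝ) ^ 4) ^ 10 * Real.exp (10 ^ 9 / q ^ 3) :=
    one_le_mul_of_one_le_of_one_le (one_le_pow₀ (one_le_pow₀ hk0))
      (Real.one_le_exp (by positivity))
  obtain ⟨w, hw1, hw2, hw3⟩ := param_w (K := (k : ℝ) ^ 4) (A := A₀) (by positivity) hT (by
    have h1 : (128 : ℝ) ≤ Real.exp (460 * u ^ 2) := by linarith [Real.add_one_le_exp (460 * u ^ 2)]
    calc 4 * ((k : ℝ) ^ 4) ^ 5 * (2 * (((k : ℝ) ^ 4) ^ 10 * Real.exp (10 ^ 9 / q ^ 3))) ^ 5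
        = 128 * (k : ℝ) ^ 220 * Real.exp (10 ^ 9 / q ^ 3) ^ 5 := by ring
      _ ≤ Real.exp (460 * u ^ 2) * Real.exp (7 * u ^ 2) ^ 220 * Real.exp (10 ^ 9 / q ^ 3) ^ 5 := by
        gcongr
      _ = Real.exp A := by
        rw [← Real.exp_nat_mul, ← Real.exp_nat_mul, ← Real.exp_add, ← Real.exp_add, hAdef]
        congr 1
        push_cast
        ring
      _ ≤ _ := Real.exp_le_exp.2 hA₀1)
  have hw0 : (0 : ℝ) < w := by linarith
  set x : ℝ := 4 * ((k : ℝ) ^ 4) ^ 5 * (w : ℝ) ^ 5 with hx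
  have hx0 : 0 < x := by positivity
  have hxc : ((4 * (k ^ 4) ^ 5 * w ^ 5 : ℕ) : ℝ) = x := by rw [hx]; push_cast; ring
  have hx1 : x ^ 2 ^ d ≤ Real.exp L' := by
    refine (pow_le_pow_left₀ hx0.le hw2 _).trans (le_of_eq ?_)
    rw [← Real.exp_nat_mul, ← hA₀2]
    push_cast
    rfl
  have hx2 : x ^ 2 ^ d ≤ Real.exp L := hx1.trans (Real.exp_le_exp.2 hL'3)
  refine ⟨k, g, d, w, hk1, by omega, hd, hk.ge, hw1, ?_, ?_, ?_, ?_⟩
  · rw [← Nat.cast_le (α := ℝ), Nat.cast_pow, hxc, pow_mul]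
    push_cast
    refine (pow_le_pow_left₀ (by positivity) hx2 _).trans (le_trans ?_ hG)
    rw [← Real.exp_nat_mul, Real.exp_le_exp]
    push_cast
    linarith [mul_le_mul_of_nonneg_right (show (d : ℝ) + 8 ≤ L / 2 by linarith) hL0.le]
  · rw [← Nat.cast_le (α := ℝ), Nat.cast_mul, Nat.cast_pow, hxc]
    calc (W : ℝ) * x ^ 2 ^ d ≤ (W + 1) * Real.exp L' := by
          gcongr
          linarith
      _ = n := by
          have h1 : (0 : ℝ) < W + 1 := by positivity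
          rw [hnL, hL'def, Real.exp_sub, Real.exp_log h1]
          field_simp
  · rw [Real.rpow_def_of_pos hn0, ← hx, ← Real.exp_log hx0, ← Real.exp_nat_mul, Real.exp_le_exp,
      ← hLdef]
    have h1 : (1 - ε) * A₀ ≤ Real.log x := by
      rw [Real.le_log_iff_exp_le hx0]
      have h2 : 4 ≤ ε * A₀ := by
        have : 4 / ε ≤ A₀ := by linarith
        rwa [div_le_iff₀' hε] at this
      have h3 : 32 ≤ Real.exp (ε * A₀) := by
        refine le_trans ?_ (Real.exp_le_exp.2 h2)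
        have h4 : Real.exp 4 = Real.exp 1 ^ 4 := by rw [← Real.exp_nat_mul]; norm_num
        have h5 : (5 / 2 : ℝ) ^ 4 ≤ Real.exp 1 ^ 4 :=
          pow_le_pow_left₀ (by norm_num) (by linarith [Real.exp_one_gt_d9]) 4
        rw [h4]
        linarith
      have h6 : Real.exp ((1 - ε) * A₀) * 32 ≤ Real.exp A₀ := by
        calc Real.exp ((1 - ε) * A₀) * 32 ≤ Real.exp ((1 - ε) * A₀) * Real.exp (ε * A₀) := by gcongr
          _ = _ := by rw [← Real.exp_add]; congr 1; ring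
      linarith
    have hδ0 : 0 ≤ 1 - ε := by linarith
    have hlz : 0 ≤ Real.log z := by linarith
    have hL'0 : 0 ≤ L' := by linarith
    refine le_of_mul_le_mul_right ?_ (show 0 < Real.log 2 by linarith)
    push_cast
    calc L * (4 * c * Real.log z) * Real.log 2 = (4 * c * Real.log 2) * (L * Real.log z) := by ring
      _ ≤ (1 - ε) ^ 3 * (L * Real.log z) := by gcongr
      _ = (1 - ε) * ((1 - ε) * L) * ((1 - ε) * Real.log z) := by ring
      _ ≤ (1 - ε) * L' * ((d + 1) * Real.log 2) := by gcongr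
      _ = 2 ^ d * (d + 1) * ((1 - ε) * A₀) * Real.log 2 := by rw [← hA₀2]; ring
      _ ≤ 2 ^ d * (d + 1) * Real.log x * Real.log 2 := by gcongr
  · rw [Real.rpow_def_of_pos hn0, ← hLdef, ← hx]
    have h1 : ((1 : ℝ) / 2) ^ g ≤ Real.exp (-(L ^ 2 / 2)) := by
      rw [one_div, inv_pow, Real.exp_neg]
      exact inv_anti₀ (Real.exp_pos _) hG
    have h2 : c * Real.log z ≤ 1 / 2 * u :=
      mul_le_mul hc2 hz3 (by linarith) (by norm_num)
    calc x ^ 2 ^ d * (d + 1) * (1 / 2) ^ g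
        ≤ Real.exp L * Real.exp d * Real.exp (-(L ^ 2 / 2)) := by
          gcongr
          exact Real.add_one_le_exp _
      _ ≤ _ := by
          rw [← Real.exp_add, ← Real.exp_add, Real.exp_le_exp]
          linarith [mul_le_mul_of_nonneg_left h2 hL0.le,
            mul_le_mul_of_nonneg_left (show 2 + u / 2 ≤ L / 2 by linarith) hL0.le]

end Crest.Agent.R300L
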