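import Crest.Agent.R300L.Iter
import Crest.Agent.R300L.Param
import Crest.Agent.R300L.Link

/-!
# The core theorem and the two statements
-/

set_option autoImplicit false
open Finset

noncomputable section
namespace Crest.Agent.R300L

open Crest.FinProb Crest.TraceRecon

/-- `param` + `iter`; for `q > 1/2` use `q₀ = 1/2` (`8 q₀³ L = L ≥ q³ L`) and `Close.thin` with
`p' = 2(1-q)`.  Enlarge `R` to `max R 1` so that all logarithms are monotone and nonnegative. -/
theorem core {c : ℝ} (hc0 : 0 < c) (hc : c < 1 / (4 * Real.log 2)) (W : ℕ) :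
    ∃ (N₀ : ℕ) (R : ℝ), ∀ n : ℕ, N₀ ≤ n → ∀ q : ℝ, 0 < q → q < 1 → R ≤ q ^ 3 * Real.log n →
      ∃ (u v : List Bool) (β : ℝ), u ≠ v ∧ u.length = v.length ∧ W * u.length ≤ n ∧
        β ^ 2 ≤ (n : ℝ) ^ (-(c * Real.log (q ^ 3 * Real.log n))) ∧
        Close (1 - q) u v β ((n : ℝ) ^ (-(c * Real.log (q ^ 3 * Real.log n)))) := by
  obtain ⟨N₀, R, h⟩ := param hc0 hc W
  refine ⟨max N₀ 1, max R 1, fun n hn q hq hq1 hR => ?_⟩
  have hn1 : (1 : ℝ) ≤ n := by exact_mod_cast (le_max_right _ _).trans hn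
  have hL : 0 ≤ Real.log n := Real.log_nonneg hn1
  obtain ⟨q₀, hq₀, hq₀', hqq, hz⟩ : ∃ q₀ : ℝ, 0 < q₀ ∧ q₀ ≤ 1 / 2 ∧ q₀ ≤ q ∧ q ^ 3 ≤ 8 * q₀ ^ 3 := by
    rcases le_total q (1 / 2) with h2 | h2
    · exact ⟨q, hq, h2, le_rfl, by have := pow_pos hq 3; linarith⟩
    · exact ⟨1 / 2, by norm_num, le_rfl, h2, (pow_le_one₀ hq.le hq1.le).trans (by norm_num)⟩
  have hz' : q ^ 3 * Real.log n ≤ 8 * q₀ ^ 3 * Real.log n := mul_le_mul_of_nonneg_right hz hL
  obtain ⟨k, g, d, w, hk, hg, hd, hkg, hw, hfl, hW, hx, he⟩ :=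
    h n ((le_max_left _ _).trans hn) q₀ hq₀ hq₀' ((le_max_left _ _).trans (hR.trans hz'))
  obtain ⟨u, v, β, hne, hlen, hu, hβ, hcl⟩ := iter hq₀ hq₀' hk hg hd hkg hw hfl
  have hmono : (n : ℝ) ^ (-(c * Real.log (8 * q₀ ^ 3 * Real.log n))) ≤
      (n : ℝ) ^ (-(c * Real.log (q ^ 3 * Real.log n))) :=
    Real.rpow_le_rpow_of_exponent_le hn1 (neg_le_neg (mul_le_mul_of_nonneg_left
      (Real.log_le_log (lt_of_lt_of_le one_pos ((le_max_right _ _).trans hR)) hz') hc0.le))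
  refine ⟨u, v, β, hne, hlen, (Nat.mul_le_mul_left _ hu).trans hW, le_trans ?_ hmono, ?_⟩
  · have hn0 : (0 : ℝ) < n := lt_of_lt_of_le one_pos hn1
    generalize Real.log (8 * q₀ ^ 3 * Real.log n) = t at hx ⊢
    have h8 : 0 ≤ β ^ 8 := by positivity
    have h1 : β ^ 8 * (n : ℝ) ^ (4 * c * t) ≤ 1 := (mul_le_mul_of_nonneg_left hx h8).trans hβ
    refine le_of_pow_le_pow_left₀ (n := 4) (by norm_num) (Real.rpow_nonneg hn0.le _) ?_
    rw [← Real.rpow_natCast ((n : ℝ) ^ (-(c * t))), ← Real.rpow_mul hn0.le, ← pow_mul,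
      show -(c * t) * ((4 : ℕ) : ℝ) = -(4 * c * t) by push_cast; ring, Real.rpow_neg hn0.le, ← one_div,
      le_div_iff₀ (Real.rpow_pos_of_pos hn0 _)]
    exact h1
  · have h1 : 0 < 1 - q₀ := by linarith
    have h2 := (hcl.mono (he.trans hmono)).thin (p' := (1 - q) / (1 - q₀)) (div_nonneg (by linarith) h1.le)
      ((div_le_one h1).2 (by linarith))
    rwa [mul_div_cancel₀ _ h1.ne'] at h2

lemma core_exists_ofFn {n : ℕ} {l : List Bool} (h : l.length = n) : ∃ x : Fin n → Bool, List.ofFn x = l := by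
  subst h
  exact ⟨l.get, List.ofFn_get l⟩

/-- the `W` test words and the centre -/
lemma core_words {p : ℝ} (h0 : 0 ≤ p) (h1 : p ≤ 1) {u v : List Bool} {β η : ℝ} (hne : u ≠ v)
    (hlen : u.length = v.length) {W n : ℕ} (hW : W * u.length ≤ n) (h : Close p u v β η) :
    ∃ (y : Fin n → Bool) (x : Fin W → Fin n → Bool), Function.Injective x ∧
      ∀ i, Close p (List.ofFn y) (List.ofFn (x i)) β η := by
  obtain ⟨y, hy⟩ := core_exists_ofFn (n := n)
    (l := (List.replicate W u).flatten ++ List.replicate (n - W * u.length) false) (by simp; omega)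
  have hx : ∀ i : Fin W, ∃ x : Fin n → Bool, List.ofFn x = (List.replicate i u).flatten ++ v ++
      ((List.replicate (W - 1 - i) u).flatten ++ List.replicate (n - W * u.length) false) := fun i => by
    refine core_exists_ofFn ?_
    obtain ⟨j, hj⟩ : ∃ j, W = i + 1 + j := ⟨W - 1 - i, by omega⟩
    have h2 : W - 1 - i = j := by omega
    have h3 : W * u.length = i * u.length + u.length + j * u.length :=
      (congrArg (· * u.length) hj).trans (by ring)
    simp only [List.length_append, List.length_flatten, List.map_replicate, List.sum_replicate, smul_eq_mul,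
      List.length_replicate, h2]
    omega
  choose x hx using hx
  have hlt : ∀ i j : Fin W, i < j → x i ≠ x j := fun i j hij e => by
    have h2 := hx j
    obtain ⟨k, hk⟩ : ∃ k, (j : ℕ) = i + (k + 1) := ⟨j - i - 1, by have := Fin.lt_def.1 hij; omega⟩
    rw [← e, hx, hk, List.replicate_add, List.flatten_append, List.replicate_succ, List.flatten_cons] at h2
    simp only [List.append_assoc, List.append_cancel_left_eq] at h2
    exact hne (List.append_inj h2 hlen.symm).1.symm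
  refine ⟨y, x, fun i j e => ?_, fun i => ?_⟩
  · rcases lt_trichotomy i j with hij | hij | hij
    · exact absurd e (hlt i j hij)
    · exact hij
    · exact absurd e.symm (hlt j i hij)
  · have h2 : List.replicate W u = List.replicate i u ++ u :: List.replicate (W - 1 - i) u := by
      rw [← List.replicate_succ, ← List.replicate_add]
      congr 1
      omega
    have h3 := h.pad h0 h1 (List.replicate i u).flatten
      ((List.replicate (W - 1 - i) u).flatten ++ List.replicate (n - W * u.length) false)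
    rw [hx, hy, h2]
    simpa only [List.flatten_append, List.flatten_cons, List.append_assoc] using h3

lemma core_err {W m : ℕ} (hW : 1 ≤ W) {β η : ℝ} (h1 : m * η ≤ 1 / (192 * (W : ℝ) ^ 2))
    (h2 : β ^ 2 ≤ η) : W * (2 * m * η + √((1 + 6 * β ^ 2) ^ m - 1)) ≤ 1 := by
  have hW' : (1 : ℝ) ≤ W := by exact_mod_cast hW
  have hm : (0 : ℝ) ≤ m := Nat.cast_nonneg m
  have hb : 0 ≤ β ^ 2 := sq_nonneg β
  have h3 : m * β ^ 2 ≤ 1 / (192 * (W : ℝ) ^ 2) := (mul_le_mul_of_nonneg_left h2 hm).trans h1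
  have h4 : 1 / (192 * (W : ℝ) ^ 2) ≤ 1 / (192 * W) :=
    one_div_le_one_div_of_le (by positivity) (by nlinarith)
  have h5 : 1 / (192 * (W : ℝ)) ≤ 1 / 192 := one_div_le_one_div_of_le (by norm_num) (by linarith)
  have h6 : (1 + 6 * β ^ 2) ^ m ≤ Real.exp (m * (6 * β ^ 2)) := by
    rw [Real.exp_nat_mul]
    exact pow_le_pow_left₀ (by positivity) (by linarith [Real.add_one_le_exp (6 * β ^ 2)]) m
  have h7 : 0 ≤ (m : ℝ) * (6 * β ^ 2) := by positivity
  have h8 := (le_abs_self _).trans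
    (Real.abs_exp_sub_one_le (x := m * (6 * β ^ 2)) (by rw [abs_of_nonneg h7]; linarith))
  rw [abs_of_nonneg h7] at h8
  have h9 : √((1 + 6 * β ^ 2) ^ m - 1) ≤ 1 / (4 * W) := by
    refine Real.sqrt_le_iff.2 ⟨by positivity, ?_⟩
    have : (1 / (4 * (W : ℝ))) ^ 2 = 12 * (1 / (192 * (W : ℝ) ^ 2)) := by field_simp; norm_num
    linarith
  have h10 : 2 * m * η ≤ 1 / (4 * (W : ℝ)) := by
    have : 1 / (4 * (W : ℝ)) = 48 * (1 / (192 * W)) := by field_simp; norm_num
    have h0 : 0 ≤ 1 / (192 * (W : ℝ)) := by positivity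
    linarith
  calc _ ≤ W * (1 / (4 * (W : ℝ)) + 1 / (4 * W)) := mul_le_mul_of_nonneg_left (add_le_add h10 h9) (by linarith)
    _ = 1 / 2 := by field_simp; norm_num
    _ ≤ 1 := by norm_num

/-- `core` with `c < c' < 1/(4 log 2)`, `W > 2/s`, `R ≥ e`; words `u^i v u^{W-1-i} 0…0`, `i < W`, are
distinct and each is `Close` to `u^W 0…0`; `m β², m η ≤ n^{-(c'-c)}`; if all had success `≥ s` then
`W s ≤ 1 + W·err` (`outP_close`, `sum_outP_le`). -/
theorem s0454 (s : ℝ) (hs : 0 < s) (hs1 : s ≤ 1)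
    (c : ℝ) (hc : 0 < c) (hc' : c < 1 / (4 * Real.log 2)) :
    ∃ (N₀ : ℕ) (R : ℝ), ∀ n ≥ N₀, ∀ q : ℝ, 0 < q → q < 1 → R ≤ q ^ 3 * Real.log n →
      ∀ m : ℕ, (m : ℝ) < (n : ℝ) ^ (c * Real.log (q ^ 3 * Real.log n)) →
        ∀ K : (Fin m → List Bool) → (Fin n → Bool) → ℝ, IsRule K →
          ∃ x : Fin n → Bool, successProb (1 - q) K x < s := by
  obtain ⟨c', hcc, hc''⟩ := exists_between hc'
  obtain ⟨W, hW⟩ := exists_nat_gt (2 / s)
  have hWs : 2 < W * s := (div_lt_iff₀ hs).1 hW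
  have hW1 : 1 ≤ W := by
    rcases Nat.eq_zero_or_pos W with rfl | h
    · norm_num at hWs
    · exact h
  obtain ⟨N₀, R, h⟩ := core (hc.trans hcc) hc'' W
  have hev := ((tendsto_rpow_neg_atTop (sub_pos.2 hcc)).comp tendsto_natCast_atTop_atTop).eventually
    (eventually_le_nhds (show (0 : ℝ) < 1 / (192 * (W : ℝ) ^ 2) by positivity))
  obtain ⟨N₁, hN₁⟩ := Filter.eventually_atTop.1 hev
  refine ⟨max (max N₀ N₁) 1, max R (Real.exp 1), fun n hn q hq hq1 hR m hm K hK => ?_⟩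
  have hn1 : (1 : ℝ) ≤ n := by exact_mod_cast (le_max_right _ _).trans hn
  have hn0 : (0 : ℝ) < n := lt_of_lt_of_le one_pos hn1
  obtain ⟨u, v, β, hne, hlen, hWn, hβ, hcl⟩ := h n (((le_max_left _ _).trans (le_max_left _ _)).trans hn) q hq hq1
    ((le_max_left _ _).trans hR)
  have ht : 1 ≤ Real.log (q ^ 3 * Real.log n) :=
    (Real.le_log_iff_exp_le (lt_of_lt_of_le (Real.exp_pos 1) ((le_max_right _ _).trans hR))).2
      ((le_max_right _ _).trans hR)
  generalize Real.log (q ^ 3 * Real.log n) = t at hm hβ hcl ht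
  have hmη : m * (n : ℝ) ^ (-(c' * t)) ≤ 1 / (192 * (W : ℝ) ^ 2) := by
    refine (mul_le_mul_of_nonneg_right hm.le (Real.rpow_nonneg hn0.le _)).trans ?_
    rw [← Real.rpow_add hn0]
    refine (Real.rpow_le_rpow_of_exponent_le hn1 ?_).trans
      (hN₁ n (((le_max_right _ _).trans (le_max_left _ _)).trans hn))
    nlinarith
  have herr := core_err hW1 hmη hβ
  have h0 : 0 ≤ 1 - q := by linarith
  have h1 : 1 - q ≤ 1 := by linarith
  obtain ⟨y, x, hinj, hx⟩ := core_words h0 h1 hne hlen hWn hcl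
  by_contra hcon
  simp only [not_exists, not_lt] at hcon
  have h2 := sum_outP_le h0 h1 hK y (univ.image x)
  rw [sum_image fun i _ j _ e => hinj e] at h2
  have h3 := sum_le_sum fun i (_ : i ∈ (univ : Finset (Fin W))) =>
    (hcon (x i)).trans (outP_close h0 h1 hK (hx i) (x i))
  rw [sum_add_distrib, sum_const, sum_const, card_univ, Fintype.card_fin, nsmul_eq_mul, nsmul_eq_mul] at h3
  linarith

/-- `core` with `c = 1/4`, `W = 1`; pad with zeros; `q³ log n → ∞` -/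
theorem s0455 (q : ℝ) (hq : 0 < q) (hq1 : q < 1) (A : ℝ)
    (hA : 0 < A) (ε : ℝ) (hε : 0 < ε) :
    ∃ N₀ : ℕ, ∀ n ≥ N₀, ∃ x y : Fin n → Bool, x ≠ y ∧
      (n : ℝ) ^ A * traceTV (1 - q) x y < ε := by
  have hl2 : Real.log 2 < 1 := by have := Real.log_two_lt_d9; linarith
  obtain ⟨N₀, R, h⟩ := core (c := 1 / 4) (by norm_num)
    (one_div_lt_one_div_of_lt (by have := Real.log_pos one_lt_two; positivity) (by linarith)) 1
  have hev := ((Real.tendsto_log_atTop.comp tendsto_natCast_atTop_atTop).const_mul_atTop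
    (pow_pos hq 3)).eventually_ge_atTop (max R (Real.exp (8 * (A + 1))))
  obtain ⟨N₁, hN₁⟩ := Filter.eventually_atTop.1 hev
  obtain ⟨N₂, hN₂⟩ := exists_nat_gt (2 / ε)
  refine ⟨max (max N₀ N₁) (max N₂ 1), fun n hn => ?_⟩
  have hn1 : (1 : ℝ) ≤ n := by exact_mod_cast ((le_max_right _ _).trans (le_max_right _ _)).trans hn
  have hn2 : (N₂ : ℝ) ≤ n := by exact_mod_cast ((le_max_left _ _).trans (le_max_right _ _)).trans hn
  have hn0 : (0 : ℝ) < n := lt_of_lt_of_le one_pos hn1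
  have hR : max R (Real.exp (8 * (A + 1))) ≤ q ^ 3 * Real.log n :=
    hN₁ n (((le_max_right _ _).trans (le_max_left _ _)).trans hn)
  obtain ⟨u, v, β, hne, hlen, hWn, hβ, hcl⟩ := h n (((le_max_left _ _).trans (le_max_left _ _)).trans hn) q hq hq1
    ((le_max_left _ _).trans hR)
  have ht : 8 * (A + 1) ≤ Real.log (q ^ 3 * Real.log n) :=
    (Real.le_log_iff_exp_le (lt_of_lt_of_le (Real.exp_pos _) ((le_max_right _ _).trans hR))).2
      ((le_max_right _ _).trans hR)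
  generalize Real.log (q ^ 3 * Real.log n) = t at hβ hcl ht
  have h0 : 0 ≤ 1 - q := by linarith
  have h1 : 1 - q ≤ 1 := by linarith
  rw [one_mul] at hWn
  obtain ⟨x, hx⟩ := core_exists_ofFn (n := n) (l := [] ++ u ++ List.replicate (n - u.length) false) (by simp; omega)
  obtain ⟨y, hy⟩ := core_exists_ofFn (n := n) (l := [] ++ v ++ List.replicate (n - u.length) false) (by simp; omega)
  refine ⟨x, y, fun e => ?_, ?_⟩
  · rw [e, hy] at hx
    exact hne (by simpa using hx.symm)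
  have h2 := traceTV_le (1 - q) x y
  rw [hx, hy] at h2
  have h3 := (hcl.pad h0 h1 [] (List.replicate (n - u.length) false)).l1_le
  have hθ0 : 0 < (n : ℝ) ^ (-(A + 1)) := Real.rpow_pos_of_pos hn0 _
  have hθ1 : (n : ℝ) ^ (-(A + 1)) ≤ 1 := Real.rpow_le_one_of_one_le_of_nonpos hn1 (by linarith)
  have hη : (n : ℝ) ^ (-(1 / 4 * t)) ≤ ((n : ℝ) ^ (-(A + 1))) ^ 2 := by
    rw [sq, ← Real.rpow_add hn0]
    exact Real.rpow_le_rpow_of_exponent_le hn1 (by linarith)
  have hβ' : β ≤ (n : ℝ) ^ (-(A + 1)) := le_of_pow_le_pow_left₀ two_ne_zero hθ0.le (hβ.trans hη)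
  have h4 : traceTV (1 - q) x y ≤ 2 * (n : ℝ) ^ (-(A + 1)) := by nlinarith
  have h5 : (n : ℝ) ^ A * (n : ℝ) ^ (-(A + 1)) = 1 / n := by
    rw [← Real.rpow_add hn0, show A + -(A + 1) = -1 by ring, Real.rpow_neg_one, one_div]
  calc _ ≤ (n : ℝ) ^ A * (2 * (n : ℝ) ^ (-(A + 1))) := mul_le_mul_of_nonneg_left h4 (Real.rpow_nonneg hn0.le _)
    _ = 2 / n := by rw [mul_left_comm, h5]; ring
    _ < ε := by
      rw [div_lt_iff₀ hn0]
      have := (div_lt_iff₀ hε).1 (hN₂.trans_le hn2)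
      linarith

end Crest.Agent.R300L
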