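import Mathlib
import Crest.Prelude.Def_TraceTV

/-!
# Row 300, lower bound (S0454, S0455): all definitions

Output laws of the deletion channel live in the monoid algebra `Al M = ℝ[M]` (`M` = bit strings):
the law of the trace of a concatenation is the product of the laws.  `Nb p R X β` says that the
signed measure `X` has a density `f` w.r.t. `R` with `‖f‖_{L^p(R)} ≤ β`.
See `R300L/Blueprint.lean` for the whole proof.
-/

set_option autoImplicit false
open Finset

noncomputable section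
namespace Crest.Agent.R300L

/-- finitely supported signed measures on `M`, product = convolution -/
abbrev Al (M : Type) := MonoidAlgebra ℝ M

section basic
variable {M : Type}

def NN (X : Al M) : Prop := ∀ τ, 0 ≤ X.coeff τ
def ex (X : Al M) (f : M → ℝ) : ℝ := ∑ τ ∈ X.coeff.support, X.coeff τ * f τ
def mass (X : Al M) : ℝ := ∑ τ ∈ X.coeff.support, X.coeff τ
def l1 (X : Al M) : ℝ := ∑ τ ∈ X.coeff.support, |X.coeff τ|
/-- pointwise domination `|X| ≤ R` -/
def Dom (X R : Al M) : Prop := ∀ τ, |X.coeff τ| ≤ R.coeff τ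
def IsProb (R : Al M) : Prop := NN R ∧ mass R = 1
/-- `X = R·f` with `∫ |f|^p dR ≤ s` -/
def NbP (p : ℕ) (R X : Al M) (s : ℝ) : Prop :=
  ∃ f : M → ℝ, (∀ τ, X.coeff τ = R.coeff τ * f τ) ∧ ex R (fun τ => |f τ| ^ p) ≤ s
/-- `‖X/R‖_{L^p(R)} ≤ β` -/
def Nb (p : ℕ) (R X : Al M) (β : ℝ) : Prop := 0 ≤ β ∧ NbP p R X (β ^ p)
/-- `L^p` Bessel inequality for the family `Y t`, `t ∈ s`, with weights `w` -/
def Bess {T : Type} (p : ℕ) (R : Al M) (s : Finset T) (Y : T → Al M) (w : T → ℝ) : Prop :=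
  ∀ c : T → ℝ, Nb p R (∑ t ∈ s, c t • Y t) (√(∑ t ∈ s, w t * c t ^ 2))
/-- `X` and `Y` have a common part of mass `≥ c` -/
def Ovl (X Y : Al M) (c : ℝ) : Prop := ∃ ν : Al M, NN ν ∧ NN (X - ν) ∧ NN (Y - ν) ∧ c ≤ mass ν
/-- a linear map that is a sub-Markov kernel -/
def Kern {M' : Type} (Φ : Al M →ₗ[ℝ] Al M') : Prop :=
  ∀ τ, NN (Φ (MonoidAlgebra.single τ 1)) ∧ mass (Φ (MonoidAlgebra.single τ 1)) ≤ 1

end basic

/-- ordered product `f x * f (x+1) * ⋯ * f (x+k-1)` -/
def pr {A : Type} [Monoid A] (f : ℕ → A) (x : ℕ) : ℕ → A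
  | 0 => 1
  | k + 1 => pr f x k * f (x + k)

section alg
variable {M : Type} [Monoid M]

/-- `U^N` with `D` in place of `U` at the positions in `S` -/
def ins (U D : Al M) (N : ℕ) (S : Finset ℕ) : Al M := pr (fun j => if j ∈ S then D else U) 0 N
/-- the word with `V = U + D` at the positions in `η` and `U` elsewhere -/
def Wd (U D : Al M) (K : ℕ) (η : Finset ℕ) : Al M := pr (fun j => if j ∈ η then U + D else U) 0 K
/-- window operator with coefficients `coef` -/
def Wop (U D : Al M) (K : ℕ) (coef : Finset ℕ → ℝ) : Al M :=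
  ∑ S ∈ (range K).powerset, coef S • ins U D K S
/-- coefficients of `W_η - U^K` -/
def cu (η S : Finset ℕ) : ℝ := if S.Nonempty ∧ S ⊆ η then 1 else 0
/-- coefficients of the part of `W_η' - W_η` with at least two marks -/
def cd (η η' S : Finset ℕ) : ℝ :=
  if 2 ≤ S.card then (if S ⊆ η' then 1 else 0) - (if S ⊆ η then 1 else 0) else 0
/-- the one-mark part of `W_η' - W_η` -/
def lin (U D : Al M) (K : ℕ) (η η' : Finset ℕ) : Al M :=
  ∑ j ∈ range K, ((if j ∈ η' then (1 : ℝ) else 0) - (if j ∈ η then 1 else 0)) •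
    (U ^ j * D * U ^ (K - 1 - j))
/-- Bessel inequality (squared constant `B`) for the window operator `E` (width `K`) placed in `U^N`
at distance `≥ b` from both ends -/
def Bes (p : ℕ) (U E : Al M) (K b N : ℕ) (B : ℝ) : Prop :=
  Bess p (U ^ N) (Icc b (N - K - b)) (fun o => U ^ o * E * U ^ (N - K - o)) (fun _ => B)
/-- `(1-θ) + θ μ` -/
def Bq (θ : ℝ) (μ : Al M) : Al M := (1 - θ) • (1 : Al M) + θ • μ
/-- `U^ℓ = μ (1+U)/2 + junk` -/
def BitL (U : Al M) (l : ℕ) (η : ℝ) : Prop :=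
  ∃ μ J : Al M, NN μ ∧ NN J ∧ U ^ l = μ * Bq (1 / 2) U + J ∧ mass J ≤ η
/-- mirror image of `BitL` -/
def BitR (U : Al M) (l : ℕ) (η : ℝ) : Prop :=
  ∃ μ J : Al M, NN μ ∧ NN J ∧ U ^ l = Bq (1 / 2) U * μ + J ∧ mass J ≤ η

/-- the level invariant -/
structure Lvl (p k b : ℕ) (η η' : Finset ℕ) (U D : Al M) (B Bu : ℝ) : Prop where
  prob : IsProb U
  mass0 : mass D = 0
  dom : Dom D ((1 / (2 * ((k : ℝ) ^ 4) ^ 2)) • U)
  ov : ∃ r, k ^ 4 + k * (r + 1) + 2 ≤ 2 * b ∧ l1 (U ^ (r + 1) - U ^ r) ≤ 1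
  bu4 : Bes p U (Wop U D (k ^ 4) (cu η)) (k ^ 4) b (4 * b) Bu
  bu8 : Bes p U (Wop U D (k ^ 4) (cu η)) (k ^ 4) b (8 * b) Bu
  bd4 : Bes p U (Wop U D (k ^ 4) (cd η η')) (k ^ 4) b (4 * b) B
  bd8 : Bes p U (Wop U D (k ^ 4) (cd η η')) (k ^ 4) b (8 * b) B

/-- next-level background letter -/
def nextU (U D : Al M) (K P : ℕ) (η : Finset ℕ) : Al M := U ^ P * Wd U D K η * U ^ P
/-- next-level (idealised: one-mark part dropped) difference -/
def nextD (U D : Al M) (K P : ℕ) (η η' : Finset ℕ) : Al M :=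
  U ^ P * Wop U D K (cd η η') * U ^ P

/-- a piece of the periodic word with `n` marks `a`: `B^α a B^T a ⋯ a B^β` -/
def pcs (B a : Al M) (T α β n : ℕ) : Al M :=
  pr (fun i => B ^ (if i = 0 then α else T) * a) 0 n * B ^ β

end alg

/-! ### binomial weights, counts, gap products -/

def bin (θ : ℝ) (t s : ℕ) : ℝ := (t.choose s : ℝ) * θ ^ s * (1 - θ) ^ (t - s)
/-- `bin (s-1) - bin s` -/
def dbin (θ : ℝ) (t s : ℕ) : ℝ := (if s = 0 then 0 else bin θ t (s - 1)) - bin θ t s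
/-- number of elements of `s` below `j` -/
def cnt (s : Finset ℕ) (j : ℕ) : ℕ := (s.filter (· < j)).card
/-- distance from `i` to the previous element of `B` (`i + 1` if there is none) -/
def gap (B : Finset ℕ) (i : ℕ) : ℕ := i + 1 - (B.filter (· < i)).sup (· + 1)
/-- product of `φ` over all gaps of `B ⊆ range N`, including the first and the last -/
def Gam (φ : ℕ → ℝ) (N : ℕ) (B : Finset ℕ) : ℝ := ∏ i ∈ insert N B, φ (gap B i)
def ft (A C : ℝ) (g : ℕ) : ℝ := A + C / √(g : ℝ)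
/-- collision probability of `Bin(t) + R` and an independent `Bin(t') + R'` -/
def kap (θ : ℝ) (t R t' R' : ℕ) : ℝ :=
  ∑ s ∈ range (t + 1), ∑ s' ∈ range (t' + 1), if s + R = s' + R' then bin θ t s * bin θ t' s' else 0

/-! ### the parse (Theorem A) -/

/-- parameters: chunks have `4b` or `8b` units, hiding blocks `l` or `l+1` units; `N` periods of
`M = 2P+K` units, the window of period `i` starts at unit `s i` and has `K` units -/
structure PP where
  b : ℕ
  l : ℕ
  K : ℕ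
  P : ℕ
  N : ℕ

/-- configurations: (periods with a d-mark, periods with a u-mark) -/
abbrev Cfg := Finset ℕ × Finset ℕ
def occ (κ : Cfg) : Finset ℕ := κ.1 ∪ κ.2

namespace PP
variable (G : PP)
def M : ℕ := 2 * G.P + G.K
def n : ℕ := G.N * G.M
def s (i : ℕ) : ℕ := i * G.M + G.P
def Good : Prop := G.K + G.l + 2 ≤ 2 * G.b ∧ 10 * G.b ≤ G.P ∧ 1 ≤ G.K ∧ 1 ≤ G.N
def Adm (κ : Cfg) : Prop := Disjoint κ.1 κ.2 ∧ occ κ ⊆ range G.N
def chunk (ω : Finset ℕ) (j : ℕ) : ℕ := if j ∈ ω then 8 * G.b else 4 * G.b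
/-- units consumed by the first `j` steps (`ω`: long chunks, `ξ`: long blocks) -/
def pos (ω ξ : Finset ℕ) (j : ℕ) : ℕ := j * (4 * G.b + G.l) + 4 * G.b * cnt ω j + cnt ξ j
/-- the parse stops exactly after `J` steps -/
def Valid (J : ℕ) (ω ξ : Finset ℕ) : Prop :=
  G.n ≤ G.pos ω ξ J + (8 * G.b + G.l + 1) ∧ ∀ j < J, G.pos ω ξ j + (8 * G.b + G.l + 1) < G.n
instance (J : ℕ) (ω ξ : Finset ℕ) : Decidable (G.Valid J ω ξ) := by
  unfold Valid; infer_instance
/-- a hiding block may start at unit `y` -/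
def ok (B : Finset ℕ) (y : ℕ) : Prop :=
  ∀ i ∈ B, G.s i + G.K + G.b ≤ y ∨ y + G.l + 1 + G.b ≤ G.s i
instance (B : Finset ℕ) (y : ℕ) : Decidable (G.ok B y) := by unfold ok; infer_instance
/-- tilt (density w.r.t. a fair coin) of choosing the chunk length `c` at position `x` -/
def tf (B : Finset ℕ) (x c : ℕ) : ℝ :=
  if G.ok B (x + c) then (if G.ok B (x + (12 * G.b - c)) then 1 else 2) else 0
def h (B ω ξ : Finset ℕ) (J : ℕ) : ℝ := ∏ j ∈ range J, G.tf B (G.pos ω ξ j) (G.chunk ω j)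
/-- label of chunk `j`: offset and type of the occupied window starting inside it -/
def zl (κ : Cfg) (ω ξ : Finset ℕ) (j : ℕ) : Option (ℕ × Bool) :=
  if hF : ((occ κ).filter fun i => G.pos ω ξ j ≤ G.s i ∧ G.s i < G.pos ω ξ j + G.chunk ω j).Nonempty
  then some (G.s (Finset.min' _ hF) - G.pos ω ξ j, decide (Finset.min' _ hF ∈ κ.1)) else none
/-- anti-concentration profile in terms of the gap (in periods) -/
def φ : ℕ → ℝ := ft (1 / (G.M : ℝ)) (20 * √((G.b : ℝ) / G.M))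
def Θ : ℝ := 4 * √((G.n : ℝ) / G.b)

variable {M : Type} [Monoid M]
/-- unit-level letters: a window operator occupies the first unit of its window, the other `K-1`
units carry `1` -/
def letr (U : Al M) (E : Bool → Al M) (κ : Cfg) (t : ℕ) : Al M :=
  if ∃ i ∈ occ κ, t = G.s i then E (decide (∃ i ∈ κ.1, t = G.s i))
  else if ∃ i ∈ occ κ, G.s i < t ∧ t < G.s i + G.K then 1 else U
/-- the term of configuration `κ` -/
def Tb (U : Al M) (E : Bool → Al M) (κ : Cfg) : Al M :=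
  pr (fun i => U ^ G.P * (if i ∈ κ.1 then E true else if i ∈ κ.2 then E false else U ^ G.K) *
    U ^ G.P) 0 G.N
/-- window operator of type `t.2` at offset `t.1` in chunk `j` -/
def Ych (U : Al M) (E : Bool → Al M) (ω : Finset ℕ) (j : ℕ) (t : ℕ × Bool) : Al M :=
  U ^ t.1 * E t.2 * U ^ (G.chunk ω j - G.K - t.1)
/-- the contribution of the path `(ω, ξ)` of length `J` -/
def term (U : Al M) (E : Bool → Al M) (ν Y : Al M) (κ : Cfg) (J : ℕ) (ω ξ : Finset ℕ) : Al M :=
  pr (fun j => (G.zl κ ω ξ j).elim (U ^ G.chunk ω j) (G.Ych U E ω j) *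
    (ν + (if j ∈ ξ then (1 : ℝ) else -1) • Y)) 0 J * U ^ (G.n - G.pos ω ξ J)
/-- the reference law of the path -/
def ref (U ν : Al M) (J : ℕ) (ω ξ : Finset ℕ) : Al M :=
  pr (fun j => U ^ G.chunk ω j * ν) 0 J * U ^ (G.n - G.pos ω ξ J)
end PP

/-- hidden bit strings of an atom: `J'+1` bits, `S` ones among the first `J'`, last bit `e` -/
def slice (J' S : ℕ) (e : Bool) : Finset (Finset ℕ) :=
  (range (J' + 1)).powerset.filter fun ξ => cnt ξ J' = S ∧ (J' ∈ ξ ↔ e = true)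

/-- the parse parameters used in the step: `K = k^4`, `P = 256 K^3 b` -/
def GG (k b l N : ℕ) : PP := ⟨b, l, k ^ 4, 256 * (k ^ 4) ^ 3 * b, N⟩

/-- weight of a configuration (`Bs true`, `Bs false`: squared Bessel constants) -/
def wt (p : ℕ) (Bs : Bool → ℝ) (κ : Cfg) : ℝ :=
  (96 * p * Bs true) ^ κ.1.card * (96 * p * Bs false) ^ κ.2.card

/-! ### bit strings -/

abbrev FB := FreeMonoid Bool
/-- the one-letter word -/
def lt (a : Bool) : Al FB := MonoidAlgebra.single (FreeMonoid.of a) 1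
/-- law of the trace of the word `w` at retention probability `p` -/
def law (p : ℝ) (w : List Bool) : Al FB := (w.map fun a => Bq p (lt a)).prod
/-- substitute `false ↦ μ`, `true ↦ o` -/
def ev {M : Type} [Monoid M] (μ o : Al M) : Al FB →ₐ[ℝ] Al M :=
  MonoidAlgebra.lift ℝ (Al M) FB (FreeMonoid.lift fun x => if x then o else μ)
/-- weighted collision form, weight `w` per letter `true` -/
def Col (w : ℝ) (X X' : Al FB) : ℝ :=
  ∑ τ ∈ X.coeff.support, X.coeff τ * X'.coeff τ * w ^ (FreeMonoid.toList τ).count true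
/-- formal piece (letters `false` = ordinary letter): retained marks `ρ` carry `mk`; suffix from
mark `i` on -/
def fs (θ : ℝ) (T α β n : ℕ) (ρ : Finset ℕ) (mk : Al FB) (i : ℕ) : Al FB :=
  pr (fun j => Bq θ (lt false) ^ (if j = 0 then α else T) * (if j ∈ ρ then mk else 1)) i (n - i) *
    Bq θ (lt false) ^ β
/-- probability that the rule `K` outputs `z` on `m` traces of `x` -/
def outP {n m : ℕ} (p : ℝ) (K : (Fin m → List Bool) → (Fin n → Bool) → ℝ) (x z : Fin n → Bool) : ℝ :=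
  ∑ keeps : Fin m → Fin n → Bool,
    (∏ k, Crest.FinProb.bernoulliWeight p (keeps k)) *
      K (fun k => Crest.TraceRecon.traceOf x (keeps k)) z

/-- a pair of words whose laws are, up to `ℓ¹`-error `η`, `U` and `U + X` with `‖X/U‖₂ ≤ β` -/
def Close (p : ℝ) (u v : List Bool) (β η : ℝ) : Prop :=
  ∃ U X : Al FB, IsProb U ∧ mass X = 0 ∧ NN (U + X) ∧ Nb 2 U X β ∧
    l1 (law p u - U) ≤ η ∧ l1 (law p v - (U + X)) ≤ η

end Crest.Agent.R300L
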