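import Crest.Agent.R300L.ChaosP

/-!
# Hidden marks: a second-moment bound
-/

set_option autoImplicit false
open Finset

noncomputable section
namespace Crest.Agent.R300L

variable {M : Type} [Monoid M]

lemma Hid_map_eq {A : Type} [Semiring A] [Algebra ℝ A] (φ : Al FB →ₐ[ℝ] A) (X : Al FB) :
    φ X = ∑ τ ∈ X.coeff.support, X.coeff τ • φ (MonoidAlgebra.single τ 1) := by
  conv_lhs => rw [eq_sum_single X]
  simp only [map_sum, map_smul]

lemma ev_ev (μ o : Al M) (a b X : Al FB) : ev μ o (ev a b X) = ev (ev μ o a) (ev μ o b) X := by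
  rw [Hid_map_eq (ev a b), Hid_map_eq (ev (ev μ o a) (ev μ o b)), map_sum]
  refine sum_congr rfl fun τ _ => ?_
  rw [map_smul, ev_single, ev_single, map_list_prod, List.map_map]
  congr 3
  funext x
  cases x <;> simp

lemma Hid_prod_eq_pr {A : Type} [Monoid A] (f : Bool → A) (l : List Bool) :
    (l.map f).prod = pr (fun j => f (l.getD j false)) 0 l.length := by
  induction l with
  | nil => simp
  | cons a l ih =>
    rw [List.map_cons, List.prod_cons, List.length_cons, pr_succ', pr_shift, ih]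
    simp

/-- the positions of the letter `true` -/
def HidPos (l : List Bool) : Finset ℕ := (range l.length).filter fun j => l.getD j false = true

lemma Hid_card_pos (l : List Bool) : (HidPos l).card = l.count true := by
  unfold HidPos
  induction l with
  | nil => simp
  | cons a l ih =>
    rw [card_filter] at ih ⊢
    rw [List.length_cons, sum_range_succ', List.count_cons, ← ih]
    cases a <;> simp

lemma Hid_pos_inj {l l' : List Bool} (h : l.length = l'.length) (hp : HidPos l = HidPos l') :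
    l = l' := by
  refine List.ext_getElem h fun j h1 h2 => ?_
  have h3 : j ∈ HidPos l ↔ j ∈ HidPos l' := by rw [hp]
  simp only [HidPos, mem_filter, mem_range, h1, h2, true_and, List.getD_eq_getElem?_getD,
    List.getElem?_eq_getElem, Option.getD_some] at h3
  exact Bool.eq_iff_iff.2 h3

lemma Hid_ev_single (μ Y : Al M) (τ : FB) :
    ev μ Y (MonoidAlgebra.single τ 1) = ins μ Y τ.length (HidPos τ.toList) := by
  rw [ev_single, Hid_prod_eq_pr]
  refine pr_congr fun j _ hj => ?_
  have hj' : j < τ.toList.length := by simpa using hj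
  simp only [HidPos, mem_filter, mem_range, hj', true_and]

/-- homogeneous elements: `ev μ Y δ_τ = ins μ Y N (positions of true)`, `chaos1` with `mult = 1`,
`p = 2`, then `Nb.l1_le` -/
lemma l1_ev_homog {μ Y : Al M} (hμ : IsProb μ) (hY0 : mass Y = 0) {δ : ℝ} (hY : Nb 2 μ Y δ)
    {N : ℕ} {X : Al FB} (hX : ∀ τ ∈ X.coeff.support, τ.length = N) :
    l1 (ev μ Y X) ≤ √(Col (6 * δ ^ 2) X X) := by
  have h := chaos1 (p := 2) even_two le_rfl hμ hY0 hY N X.coeff.support
    (fun τ => HidPos τ.toList) (fun τ hτ => by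
      rw [← hX τ hτ]
      exact filter_subset _ _) (fun τ => X.coeff τ) 1 (fun τ hτ => by
      rw [Nat.cast_le_one, card_le_one]
      intro a ha b hb
      rw [mem_filter] at ha hb
      exact FreeMonoid.toList.injective
        (Hid_pos_inj ((hX a ha.1).trans (hX b hb.1).symm) (ha.2.trans hb.2.symm)))
  have e : ev μ Y X = ∑ τ ∈ X.coeff.support, X.coeff τ • ins μ Y N (HidPos τ.toList) := by
    rw [Hid_map_eq]
    exact sum_congr rfl fun τ hτ => by rw [Hid_ev_single, hX τ hτ]
  rw [e]
  refine (Nb.l1_le one_le_two (hμ.pow N).1 (hμ.pow N).2.le h).trans_eq ?_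
  rw [one_mul, Col]
  congr 1
  refine sum_congr rfl fun τ _ => ?_
  rw [Hid_card_pos]
  push_cast
  ring

/-- supported on words of length `N` -/
def HidH (N : ℕ) (X : Al FB) : Prop := ∀ σ : FB, σ.length ≠ N → X.coeff σ = 0

lemma HidH.single (τ : FB) (r : ℝ) : HidH τ.length (MonoidAlgebra.single τ r) := by
  intro σ hσ
  rw [MonoidAlgebra.coeff_single]
  exact Finsupp.single_eq_of_ne fun h => hσ (by rw [h])

lemma HidH.add {N : ℕ} {X Y : Al FB} (hX : HidH N X) (hY : HidH N Y) : HidH N (X + Y) :=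
  fun σ hσ => by simp [hX σ hσ, hY σ hσ]

lemma HidH.sub {N : ℕ} {X Y : Al FB} (hX : HidH N X) (hY : HidH N Y) : HidH N (X - Y) :=
  fun σ hσ => by simp [hX σ hσ, hY σ hσ]

lemma HidH.mul {N N' : ℕ} {X Y : Al FB} (hX : HidH N X) (hY : HidH N' Y) :
    HidH (N + N') (X * Y) := by
  intro σ hσ
  rw [mul_eq_sum, MonoidAlgebra.coeff_sum, Finsupp.finsetSum_apply]
  refine sum_eq_zero fun a ha => ?_
  rw [MonoidAlgebra.coeff_sum, Finsupp.finsetSum_apply]
  refine sum_eq_zero fun b hb => ?_
  have h1 : a.length = N := by_contra fun h => Finsupp.mem_support_iff.1 ha (hX a h)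
  have h2 : b.length = N' := by_contra fun h => Finsupp.mem_support_iff.1 hb (hY b h)
  rw [MonoidAlgebra.coeff_smul_apply, HidH.single (a * b) 1 σ
    (by rw [FreeMonoid.length_mul, h1, h2]; exact hσ), smul_zero]

lemma HidH.ev {a b : Al FB} (ha : HidH 1 a) (hb : HidH 1 b) (τ : FB) :
    HidH τ.length (ev a b (MonoidAlgebra.single τ 1)) := by
  rw [ev_single]
  change HidH τ.toList.length _
  induction τ.toList with
  | nil => exact HidH.single 1 1
  | cons x l ih =>
    rw [List.map_cons, List.prod_cons, List.length_cons, add_comm]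
    refine HidH.mul ?_ ih
    cases x
    · exact ha
    · exact hb

lemma Hid_col_eq (w : ℝ) (X : Al FB) {s : Finset FB} (hs : X.coeff.support ⊆ s) :
    Col w X X = ∑ τ ∈ s, X.coeff τ * X.coeff τ * w ^ (FreeMonoid.toList τ).count true := by
  refine sum_subset hs fun τ _ h => ?_
  rw [Finsupp.notMem_support_iff.1 h, zero_mul, zero_mul]

/-- `S` is the law of the hidden configuration.  With `F τ = ev m (m+y) δ_τ - ev m m δ_τ`
(`m = lt false`, `y = lt true`; supported on words of length `|τ|`) and `X = ∑ S τ • F τ`: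
`ev μ o S - ev μ μ S = ev μ (o-μ) X` (`ev_ev`).  Split `S` by length: the part of length `N ∈ W` has
`ℓ¹` norm `≤ √(Col X_N X_N)`, `∑_N Col X_N X_N ≤ Col X X` (disjoint supports), Cauchy–Schwarz over
`W`; lengths outside `W` contribute `≤ 2` each (`isProb_ev_single`). -/
theorem hid {μ o : Al M} (hμ : IsProb μ) (ho : IsProb o) {δ : ℝ} (hY : Nb 2 μ (o - μ) δ)
    {S : Al FB} (hS : NN S) (W : Finset ℕ) :
    l1 (ev μ o S - ev μ μ S) ≤
      √(W.card * Col (6 * δ ^ 2)
          (ev (lt false) (lt false + lt true) S - ev (lt false) (lt false) S)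
          (ev (lt false) (lt false + lt true) S - ev (lt false) (lt false) S)) +
        2 * ex S (fun τ => if τ.length ∈ W then 0 else 1) := by
  classical
  set F : FB → Al FB := fun τ => ev (lt false) (lt false + lt true) (MonoidAlgebra.single τ 1)
    - ev (lt false) (lt false) (MonoidAlgebra.single τ 1) with hF
  set X := ev (lt false) (lt false + lt true) S - ev (lt false) (lt false) S with hX
  set G : FB → Al M := fun τ => ev μ o (MonoidAlgebra.single τ 1)
    - ev μ μ (MonoidAlgebra.single τ 1) with hG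
  have hlt : ∀ a, HidH 1 (lt a) := fun a => HidH.single (FreeMonoid.of a) 1
  have hFH : ∀ τ, HidH τ.length (F τ) := fun τ =>
    (HidH.ev (hlt false) ((hlt false).add (hlt true)) τ).sub (HidH.ev (hlt false) (hlt false) τ)
  have hFG : ∀ τ, ev μ (o - μ) (F τ) = G τ := fun τ => by
    simp only [hF, hG, map_sub, ev_ev, map_add, ev_lt_false, ev_lt_true, add_sub_cancel]
  have hXs : X = ∑ τ ∈ S.coeff.support, S.coeff τ • F τ := by
    rw [hX, Hid_map_eq _ S, Hid_map_eq (ev (lt false) (lt false)) S, ← sum_sub_distrib]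
    exact sum_congr rfl fun τ _ => (smul_sub _ _ _).symm
  set XN : ℕ → Al FB := fun N => ∑ τ ∈ S.coeff.support.filter (·.length = N), S.coeff τ • F τ
    with hXN
  have hco : ∀ N σ, (XN N).coeff σ = if σ.length = N then X.coeff σ else 0 := fun N σ => by
    rw [hXs]
    simp only [hXN, MonoidAlgebra.coeff_sum, Finsupp.finsetSum_apply,
      MonoidAlgebra.coeff_smul_apply, smul_eq_mul]
    split_ifs with h
    · refine sum_subset (filter_subset _ _) fun τ hτ hn => ?_
      rw [hFH τ σ fun e => hn (mem_filter.2 ⟨hτ, e.symm.trans h⟩), mul_zero]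
    · refine sum_eq_zero fun τ hτ => ?_
      rw [hFH τ σ fun e => h (e.trans (mem_filter.1 hτ).2), mul_zero]
  have hsplit : ev μ o S - ev μ μ S = ∑ N ∈ W, ev μ (o - μ) (XN N) +
      ∑ τ ∈ S.coeff.support.filter (fun τ => τ.length ∉ W), S.coeff τ • G τ := by
    have e1 : ev μ o S - ev μ μ S = ∑ τ ∈ S.coeff.support, S.coeff τ • G τ := by
      rw [Hid_map_eq _ S, Hid_map_eq (ev μ μ) S, ← sum_sub_distrib]
      exact sum_congr rfl fun τ _ => (smul_sub _ _ _).symm
    rw [e1, ← sum_filter_add_sum_filter_not _ (fun τ => τ.length ∈ W),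
      ← sum_fiberwise_eq_sum_filter S.coeff.support W (fun τ => τ.length)]
    congr 1
    refine sum_congr rfl fun N _ => ?_
    simp only [hXN, map_sum, map_smul, hFG]
  have hw : (0 : ℝ) ≤ 6 * δ ^ 2 := by positivity
  have hY0 : mass (o - μ) = 0 := by rw [mass_sub, ho.2, hμ.2, sub_self]
  have h1 : ∀ N, l1 (ev μ (o - μ) (XN N)) ≤ √(Col (6 * δ ^ 2) (XN N) (XN N)) := fun N =>
    l1_ev_homog hμ hY0 hY (N := N) fun τ hτ => by
      by_contra h
      exact Finsupp.mem_support_iff.1 hτ (by rw [hco, if_neg h])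
  have hnn : ∀ Z : Al FB, 0 ≤ Col (6 * δ ^ 2) Z Z := fun Z =>
    sum_nonneg fun τ _ => mul_nonneg (mul_self_nonneg _) (pow_nonneg hw _)
  have h2 : ∑ N ∈ W, Col (6 * δ ^ 2) (XN N) (XN N) ≤ Col (6 * δ ^ 2) X X := by
    have e : ∀ N, Col (6 * δ ^ 2) (XN N) (XN N) = ∑ τ ∈ X.coeff.support.filter (·.length = N),
        X.coeff τ * X.coeff τ * (6 * δ ^ 2) ^ (FreeMonoid.toList τ).count true := fun N => by
      rw [Hid_col_eq _ _ (s := X.coeff.support.filter (·.length = N)) fun τ hτ => by
        have h3 := Finsupp.mem_support_iff.1 hτ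
        rw [hco] at h3
        by_cases h : τ.length = N
        · rw [if_pos h] at h3
          exact mem_filter.2 ⟨Finsupp.mem_support_iff.2 h3, h⟩
        · exact absurd (if_neg h) h3]
      exact sum_congr rfl fun τ hτ => by rw [hco, if_pos (mem_filter.1 hτ).2]
    simp only [e]
    rw [sum_fiberwise_eq_sum_filter]
    exact sum_le_sum_of_subset_of_nonneg (filter_subset _ _) fun τ _ _ =>
      mul_nonneg (mul_self_nonneg _) (pow_nonneg hw _)
  have h3 : ∑ N ∈ W, √(Col (6 * δ ^ 2) (XN N) (XN N)) ≤ √(W.card * Col (6 * δ ^ 2) X X) := by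
    refine Real.le_sqrt_of_sq_le (sq_sum_le_card_mul_sum_sq.trans ?_)
    refine mul_le_mul_of_nonneg_left (le_trans (le_of_eq ?_) h2) (Nat.cast_nonneg _)
    exact sum_congr rfl fun N _ => Real.sq_sqrt (hnn _)
  have h4 : l1 (∑ τ ∈ S.coeff.support.filter (fun τ => τ.length ∉ W), S.coeff τ • G τ) ≤
      2 * ex S (fun τ => if τ.length ∈ W then 0 else 1) := by
    refine (l1_sum_le _ _).trans ?_
    rw [ex, mul_sum, sum_filter]
    refine sum_le_sum fun τ _ => ?_
    by_cases h : τ.length ∈ W
    · simp [h]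
    · have h5 : l1 (G τ) ≤ 2 := by
        have := l1_sub_le (ev μ o (MonoidAlgebra.single τ 1)) (ev μ μ (MonoidAlgebra.single τ 1))
        rw [(isProb_ev_single hμ ho τ).l1_eq, (isProb_ev_single hμ hμ τ).l1_eq] at this
        linarith
      rw [if_pos h, if_neg h, l1_smul, abs_of_nonneg (hS τ), mul_one, mul_comm 2]
      exact mul_le_mul_of_nonneg_left h5 (hS τ)
  rw [hsplit]
  exact (l1_add_le _ _).trans (add_le_add
    ((l1_sum_le _ _).trans ((sum_le_sum fun N _ => h1 N).trans h3)) h4)

end Crest.Agent.R300L
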