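import Crest.Agent.R300L.Step
import Crest.Agent.R300L.Base

/-!
# Iterating the step
-/

set_option autoImplicit false
open Finset

noncomputable section
namespace Crest.Agent.R300L

/-- the next-level word -/
def nextW (u v : List Bool) (K P : ℕ) (η : Finset ℕ) : List Bool :=
  (List.replicate P u).flatten ++ (List.range K).flatMap (fun j => if j ∈ η then v else u) ++
    (List.replicate P u).flatten

lemma length_nextW {u v : List Bool} (h : u.length = v.length) (K P : ℕ) (η : Finset ℕ) :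
    (nextW u v K P η).length = (2 * P + K) * u.length := by
  unfold nextW
  have h1 : ∀ n : ℕ, ((List.range n).flatMap (fun j => if j ∈ η then v else u)).length =
      n * u.length := by
    intro n
    induction n with
    | zero => simp
    | succ n ih =>
      rw [List.range_succ, List.flatMap_append, List.length_append, ih]
      by_cases hn : n ∈ η
      · simp [hn, h]; ring
      · simp [hn]; ring
  have h2 : (List.replicate P u).flatten.length = P * u.length := by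
    simp
  rw [List.length_append, List.length_append, h1, h2]
  ring
lemma Iter_flat_inj {f g : ℕ → List Bool} (hfg : ∀ j, (f j).length = (g j).length) (n : ℕ)
    (h : (List.range n).flatMap f = (List.range n).flatMap g) : ∀ j < n, f j = g j := by
  induction n with
  | zero => intro j hj; omega
  | succ n ih =>
    rw [List.range_succ, List.flatMap_append, List.flatMap_append] at h
    simp only [List.flatMap_cons, List.flatMap_nil, List.append_nil] at h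
    obtain ⟨h1, h2⟩ := List.append_inj' h (hfg n)
    intro j hj
    rcases Nat.lt_succ_iff_lt_or_eq.1 hj with hj | rfl
    · exact ih h1 j hj
    · exact h2
lemma nextW_ne {u v : List Bool} (hne : u ≠ v) (h : u.length = v.length) {K : ℕ} (P : ℕ)
    {η η' : Finset ℕ} (hη : η ⊆ range K) (hη' : η' ⊆ range K) (hηη : η ≠ η') :
    nextW u v K P η ≠ nextW u v K P η' := by
  intro he
  unfold nextW at he
  have h1 := List.append_cancel_left (List.append_cancel_right he)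
  have h2 := Iter_flat_inj (f := fun j => if j ∈ η then v else u)
    (g := fun j => if j ∈ η' then v else u)
    (fun j => by split_ifs <;> simp [h]) K h1
  apply hηη
  ext j
  constructor
  · intro hj
    have := h2 j (mem_range.1 (hη hj))
    by_contra hj'
    simp only [hj, hj', if_true, if_false] at this
    exact hne this.symm
  · intro hj
    have := h2 j (mem_range.1 (hη' hj))
    by_contra hj'
    simp only [hj, hj', if_true, if_false] at this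
    exact hne this
lemma l1_law_nextW {p e : ℝ} (h0 : 0 ≤ p) (h1 : p ≤ 1) {u v : List Bool} {U D : Al FB}
    (hU : IsProb U) (hV : IsProb (U + D)) (hu : l1 (law p u - U) ≤ e)
    (hv : l1 (law p v - (U + D)) ≤ e) (K P : ℕ) (η : Finset ℕ) :
    l1 (law p (nextW u v K P η) - nextU U D K P η) ≤ (2 * P + K : ℕ) * e := by
  unfold nextW nextU
  rw [law_append, law_append, law_rep, law_flatMap]
  have hlu := isProb_law h0 h1 u
  have hlv := isProb_law h0 h1 v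
  have hP : l1 (law p u ^ P - U ^ P) ≤ P * e :=
    (l1_pow_sub hlu hU P).trans (mul_le_mul_of_nonneg_left hu (Nat.cast_nonneg P))
  have hf : ∀ j, IsProb (law p (if j ∈ η then v else u)) := fun j => isProb_law h0 h1 _
  have hg : ∀ j, IsProb (if j ∈ η then U + D else U) := fun j => by
    split_ifs
    · exact hV
    · exact hU
  have hW : l1 (pr (fun j => law p (if j ∈ η then v else u)) 0 K - Wd U D K η) ≤ K * e := by
    unfold Wd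
    refine l1_pr_sub (fun j _ _ => hf j) (fun j _ _ => hg j) (fun j _ _ => ?_)
    by_cases hj : j ∈ η
    · simpa only [hj, if_true] using hv
    · simpa only [hj, if_false] using hu
  have hWp : IsProb (Wd U D K η) := by
    unfold Wd
    exact IsProb.pr (fun j _ _ => hg j)
  have hpr : IsProb (pr (fun j => law p (if j ∈ η then v else u)) 0 K) :=
    IsProb.pr (fun j _ _ => hf j)
  have e1 := l1_mul_sub_mul (X := law p u ^ P * pr (fun j => law p (if j ∈ η then v else u)) 0 K)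
    (X' := U ^ P * Wd U D K η) (Y := law p u ^ P) (Y' := U ^ P) ((hlu.pow P).mul hpr) (hU.pow P)
  have e2 := l1_mul_sub_mul (X := law p u ^ P) (X' := U ^ P)
    (Y := pr (fun j => law p (if j ∈ η then v else u)) 0 K) (Y' := Wd U D K η) (hlu.pow P) hWp
  push_cast
  linarith

lemma Iter_PK {K b : ℕ} (hK : 300 ≤ K) (hb : 1 ≤ b) : 2 * (256 * K ^ 3 * b) + K ≤ 4 * K ^ 5 * b := by
  have h1 : K ≤ K ^ 3 * b := by
    calc K = K * 1 * 1 := by ring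
      _ ≤ K * K ^ 2 * b := Nat.mul_le_mul (Nat.mul_le_mul_left _ (Nat.one_le_pow _ _ (by omega))) hb
      _ = K ^ 3 * b := by ring
  have h2 : 513 ≤ 4 * K ^ 2 := by nlinarith
  calc 2 * (256 * K ^ 3 * b) + K ≤ 513 * (K ^ 3 * b) := by nlinarith
    _ ≤ 4 * K ^ 2 * (K ^ 3 * b) := Nat.mul_le_mul_right _ h2
    _ = 4 * K ^ 5 * b := by ring

lemma Iter_K {k : ℕ} (hk : 300 ≤ k) : k ≤ k ^ 4 := by
  calc k = k ^ 1 := (pow_one k).symm
    _ ≤ k ^ 4 := Nat.pow_le_pow_right (by omega) (by norm_num)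

/-- the words of the next level -/
lemma Iter_words {r : ℝ} (h0 : 0 ≤ r) (h1 : r ≤ 1) {p k g b : ℕ} (hk : 300 ≤ k) (hgk : g ≤ k)
    (hb : 1 ≤ b) {η η' : Finset ℕ} (hη : η ⊆ range (k ^ 4)) (hη' : η' ⊆ range (k ^ 4))
    (hηη : η ≠ η') (hmom : ∀ j < k, ∑ i ∈ η, i.choose j = ∑ i ∈ η', i.choose j)
    {U D : Al FB} {B Bu : ℝ} (h : Lvl p k b η η' U D B Bu) {u v : List Bool} (hne : u ≠ v)
    (hl : u.length = v.length) (hlb : u.length ≤ 4 * b) {c : ℝ} (hc : 0 ≤ c)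
    (hu : l1 (law r u - U) ≤ 4 * b * c * (1 / 2) ^ g)
    (hv : l1 (law r v - (U + D)) ≤ 4 * b * c * (1 / 2) ^ g) :
    ∃ u' v' : List Bool, u' ≠ v' ∧ u'.length = v'.length ∧
      u'.length ≤ 4 * (4 * (k ^ 4) ^ 5 * b ^ 2) ∧
      l1 (law r u' - nextU U D (k ^ 4) (256 * (k ^ 4) ^ 3 * b) η) ≤
        4 * ((4 * (k ^ 4) ^ 5 * b ^ 2 : ℕ) : ℝ) * (c + 1) * (1 / 2) ^ g ∧
      l1 (law r v' - (nextU U D (k ^ 4) (256 * (k ^ 4) ^ 3 * b) η +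
          nextD U D (k ^ 4) (256 * (k ^ 4) ^ 3 * b) η η')) ≤
        4 * ((4 * (k ^ 4) ^ 5 * b ^ 2 : ℕ) : ℝ) * (c + 1) * (1 / 2) ^ g := by
  have hk1 : 1 ≤ k := by omega
  have hK : 300 ≤ k ^ 4 := hk.trans (Iter_K hk)
  have hPK := Iter_PK hK hb
  have hV := h.probV hk1
  have eu := l1_law_nextW h0 h1 h.prob hV hu hv (k ^ 4) (256 * (k ^ 4) ^ 3 * b) η
  have ev' := l1_law_nextW h0 h1 h.prob hV hu hv (k ^ 4) (256 * (k ^ 4) ^ 3 * b) η'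
  have herr := h.err hk1 hη hη' hmom
  have hPK' : ((2 * (256 * (k ^ 4) ^ 3 * b) + k ^ 4 : ℕ) : ℝ) ≤ ((4 * (k ^ 4) ^ 5 * b : ℕ) : ℝ) := by
    exact_mod_cast hPK
  have hg0 : (0 : ℝ) ≤ (1 / 2) ^ g := by positivity
  have he0 : (0 : ℝ) ≤ 4 * b * c * (1 / 2) ^ g := by positivity
  have hmain : ((2 * (256 * (k ^ 4) ^ 3 * b) + k ^ 4 : ℕ) : ℝ) * (4 * b * c * (1 / 2) ^ g) ≤
      4 * ((4 * (k ^ 4) ^ 5 * b ^ 2 : ℕ) : ℝ) * c * (1 / 2) ^ g := by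
    refine (mul_le_mul_of_nonneg_right hPK' he0).trans (le_of_eq ?_)
    push_cast
    ring
  have hb'0 : (0 : ℝ) ≤ 4 * ((4 * (k ^ 4) ^ 5 * b ^ 2 : ℕ) : ℝ) * (1 / 2) ^ g := by positivity
  have hsm : 130 * ((k : ℝ) ^ 4) ^ 4 * (1 / 2) ^ k ≤
      4 * ((4 * (k ^ 4) ^ 5 * b ^ 2 : ℕ) : ℝ) * (1 / 2) ^ g := by
    have a1 : ((1 : ℝ) / 2) ^ k ≤ (1 / 2) ^ g :=
      pow_le_pow_of_le_one (by norm_num) (by norm_num) hgk
    have a2 : 130 * (k ^ 4) ^ 4 ≤ 4 * (4 * (k ^ 4) ^ 5 * b ^ 2) := by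
      have : 1 ≤ b ^ 2 := Nat.one_le_pow _ _ hb
      calc 130 * (k ^ 4) ^ 4 ≤ (16 * k ^ 4) * (k ^ 4) ^ 4 * 1 := by
            rw [mul_one]; exact Nat.mul_le_mul_right _ (by omega)
        _ ≤ (16 * k ^ 4) * (k ^ 4) ^ 4 * b ^ 2 := Nat.mul_le_mul_left _ this
        _ = 4 * (4 * (k ^ 4) ^ 5 * b ^ 2) := by ring
    have a3 : 130 * ((k : ℝ) ^ 4) ^ 4 ≤ 4 * ((4 * (k ^ 4) ^ 5 * b ^ 2 : ℕ) : ℝ) := by
      exact_mod_cast a2
    exact mul_le_mul a3 a1 (by positivity) (by positivity)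
  refine ⟨nextW u v (k ^ 4) (256 * (k ^ 4) ^ 3 * b) η, nextW u v (k ^ 4) (256 * (k ^ 4) ^ 3 * b) η',
    nextW_ne hne hl _ hη hη' hηη, by rw [length_nextW hl, length_nextW hl], ?_, ?_, ?_⟩
  · rw [length_nextW hl]
    calc _ ≤ (4 * (k ^ 4) ^ 5 * b) * (4 * b) := Nat.mul_le_mul hPK hlb
      _ = _ := by ring
  · have : 4 * ((4 * (k ^ 4) ^ 5 * b ^ 2 : ℕ) : ℝ) * (c + 1) * (1 / 2) ^ g =
        4 * ((4 * (k ^ 4) ^ 5 * b ^ 2 : ℕ) : ℝ) * c * (1 / 2) ^ g +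
        4 * ((4 * (k ^ 4) ^ 5 * b ^ 2 : ℕ) : ℝ) * (1 / 2) ^ g := by ring
    rw [this]
    linarith
  · have : 4 * ((4 * (k ^ 4) ^ 5 * b ^ 2 : ℕ) : ℝ) * (c + 1) * (1 / 2) ^ g =
        4 * ((4 * (k ^ 4) ^ 5 * b ^ 2 : ℕ) : ℝ) * c * (1 / 2) ^ g +
        4 * ((4 * (k ^ 4) ^ 5 * b ^ 2 : ℕ) : ℝ) * (1 / 2) ^ g := by ring
    rw [this]
    have tri := l1_triangle (law r (nextW u v (k ^ 4) (256 * (k ^ 4) ^ 3 * b) η'))
      (nextU U D (k ^ 4) (256 * (k ^ 4) ^ 3 * b) η')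
      (nextU U D (k ^ 4) (256 * (k ^ 4) ^ 3 * b) η + nextD U D (k ^ 4) (256 * (k ^ 4) ^ 3 * b) η η')
    linarith

/-- the invariant of the iteration -/
def IterInv (r : ℝ) (k g x p j : ℕ) (η η' : Finset ℕ) : Prop :=
  ∃ (b : ℕ) (u v : List Bool) (U D : Al FB) (B Bu : ℝ),
    4 * (k ^ 4) ^ 5 * b = x ^ 2 ^ j ∧ u ≠ v ∧ u.length = v.length ∧ u.length ≤ 4 * b ∧
    Lvl p k b η η' U D B Bu ∧ 0 < B ∧ 0 ≤ Bu ∧
    (((k : ℝ) ^ 4) ^ 10 * B) ^ 2 * (x : ℝ) ^ (2 ^ j * (j + 2)) = 1 ∧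
    Bu * b * ((k : ℝ) ^ 4) ^ 5 ≤ 1 ∧
    l1 (law r u - U) ≤ 4 * b * ((j : ℝ) + 1) * (1 / 2) ^ g ∧
    l1 (law r v - (U + D)) ≤ 4 * b * ((j : ℝ) + 1) * (1 / 2) ^ g

lemma Iter_num1 {K b B X : ℝ} {e m : ℕ} (hK : 0 < K) (hB : 0 < B) (hX : 1 ≤ X)
    (hb : 4 * K ^ 5 * b = X ^ e) (hy : (K ^ 10 * B) ^ 2 * X ^ (e * (m + 2)) = 1) :
    4 * K ^ 15 * b * B ≤ 1 := by
  have h1 : 4 * K ^ 15 * b * B = X ^ e * (K ^ 10 * B) := by rw [← hb]; ring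
  rw [h1]
  have h2 : (X ^ e * (K ^ 10 * B)) ^ 2 ≤ 1 := by
    have a : X ^ (e * 2) ≤ X ^ (e * (m + 2)) :=
      pow_le_pow_right₀ hX (Nat.mul_le_mul_left _ (by omega))
    calc (X ^ e * (K ^ 10 * B)) ^ 2 = (K ^ 10 * B) ^ 2 * X ^ (e * 2) := by rw [pow_mul]; ring
      _ ≤ (K ^ 10 * B) ^ 2 * X ^ (e * (m + 2)) := mul_le_mul_of_nonneg_left a (by positivity)
      _ = 1 := hy
  have h3 : 0 ≤ X ^ e * (K ^ 10 * B) := by positivity
  nlinarith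

lemma Iter_num2 {K b B X T : ℝ} {e m N : ℕ} (hK : 0 < K) (hX : 1 ≤ X) (hKX : K ^ 5 ≤ X)
    (hb : 4 * K ^ 5 * b = X ^ e) (hy : (K ^ 10 * B) ^ 2 * X ^ (e * (m + 2)) = 1)
    (hN : e * 3 + 4 + e * (m + 2) ≤ N) (hT : X ^ N ≤ T) :
    (4 * K ^ 5 * b) ^ 3 ≤ T * B ^ 2 := by
  rw [hb]
  have a1 : (K ^ 5) ^ 4 ≤ X ^ 4 := pow_le_pow_left₀ (by positivity) hKX 4
  have a2 : X ^ (e * 3 + 4 + e * (m + 2)) ≤ T := (pow_le_pow_right₀ hX hN).trans hT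
  have hX0 : 0 < X := by linarith
  calc (X ^ e) ^ 3 = (X ^ e) ^ 3 * ((K ^ 10 * B) ^ 2 * X ^ (e * (m + 2))) := by rw [hy, mul_one]
    _ = (X ^ (e * 3) * (K ^ 5) ^ 4 * X ^ (e * (m + 2))) * B ^ 2 := by rw [pow_mul X e 3]; ring
    _ ≤ (X ^ (e * 3) * X ^ 4 * X ^ (e * (m + 2))) * B ^ 2 := by gcongr
    _ = X ^ (e * 3 + 4 + e * (m + 2)) * B ^ 2 := by rw [pow_add, pow_add]
    _ ≤ T * B ^ 2 := mul_le_mul_of_nonneg_right a2 (by positivity)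

lemma Iter_num3 {K b B X : ℝ} {e m : ℕ} (hK : 0 < K) (hb0 : 0 < b)
    (hb : 4 * K ^ 5 * b = X ^ e) (hy : (K ^ 10 * B) ^ 2 * X ^ (e * (m + 2)) = 1) :
    (K ^ 10 * (K ^ 5 * B ^ 2 / (4 * b))) ^ 2 * X ^ (e * 2 * (m + 1 + 2)) = 1 := by
  have h1 : X ^ (e * 2 * (m + 1 + 2)) = (X ^ (e * (m + 2))) ^ 2 * (X ^ e) ^ 2 := by
    rw [← pow_mul, ← pow_mul, ← pow_add]; congr 1; ring
  rw [h1, ← hb]
  have h2 : (K ^ 10 * (K ^ 5 * B ^ 2 / (4 * b))) ^ 2 * ((X ^ (e * (m + 2))) ^ 2 * (4 * K ^ 5 * b) ^ 2) =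
      ((K ^ 10 * B) ^ 2 * X ^ (e * (m + 2))) ^ 2 := by
    field_simp
  rw [h2, hy, one_pow]

lemma Iter_step {r : ℝ} (h0 : 0 ≤ r) (h1 : r ≤ 1) {k g x p j N : ℕ} (hk : 300 ≤ k) (hg : 1 ≤ g)
    (hp : Even p) (hp2 : 2 ≤ p) (hpg : g * p * g ≤ k) (hx : (k ^ 4) ^ 5 ≤ x)
    (hN : 2 ^ j * 3 + 4 + 2 ^ j * (j + 2) ≤ N) (hfl : x ^ N ≤ 2 ^ g)
    {η η' : Finset ℕ} (hη : η ⊆ range (k ^ 4)) (hη' : η' ⊆ range (k ^ 4))
    (hηη : η ≠ η') (hmom : ∀ j < k, ∑ i ∈ η, i.choose j = ∑ i ∈ η', i.choose j)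
    (h : IterInv r k g x (g * p) j η η') : IterInv r k g x p (j + 1) η η' := by
  obtain ⟨b, u, v, U, D, B, Bu, hb, hne, hl, hlb, hL, hB0, hBu0, hy, hBu, hu, hv⟩ := h
  have hk0 : 0 < k := by omega
  have hx1 : 1 ≤ x := (Nat.one_le_pow _ _ (Nat.pow_pos hk0)).trans hx
  have hb1 : 1 ≤ b := by
    rcases Nat.eq_zero_or_pos b with rfl | hb1
    · have : 0 < x ^ 2 ^ j := Nat.pow_pos hx1
      omega
    · exact hb1
  have hgk : g ≤ k := by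
    have : g * 1 * 1 ≤ g * p * g := Nat.mul_le_mul (Nat.mul_le_mul_left _ (by omega)) hg
    omega
  have hKr : (0 : ℝ) < (k : ℝ) ^ 4 := by positivity
  have hXr : (1 : ℝ) ≤ x := by exact_mod_cast hx1
  have hbr : 4 * ((k : ℝ) ^ 4) ^ 5 * b = (x : ℝ) ^ 2 ^ j := by exact_mod_cast hb
  have hb0 : (0 : ℝ) < b := by exact_mod_cast hb1
  have hKX : ((k : ℝ) ^ 4) ^ 5 ≤ x := by exact_mod_cast hx
  have hT : (x : ℝ) ^ N ≤ 2 ^ g := by exact_mod_cast hfl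
  have hB := Iter_num1 hKr hB0 hXr hbr hy
  have hf := Iter_num2 hKr hXr hKX hbr hy hN hT
  have hL' := step hk hp hp2 hg hpg hη hL hB0.le hBu0 hBu hB hf
  obtain ⟨u', v', hne', hl', hlb', hu', hv'⟩ :=
    Iter_words h0 h1 hk hgk hb1 hη hη' hηη hmom hL hne hl hlb (c := (j : ℝ) + 1) (by positivity) hu hv
  refine ⟨4 * (k ^ 4) ^ 5 * b ^ 2, u', v', _, _, _, _, ?_, hne', hl', hlb', hL', by positivity,
    by positivity, ?_, ?_, ?_, ?_⟩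
  · rw [pow_succ 2 j, pow_mul, ← hb]; ring
  · rw [pow_succ 2 j]
    exact Iter_num3 hKr hb0 hbr hy
  · have : ((k : ℝ) ^ 4) ^ 5 * B / (4 * b) * ((4 * (k ^ 4) ^ 5 * b ^ 2 : ℕ) : ℝ) * ((k : ℝ) ^ 4) ^ 5 =
        (4 * ((k : ℝ) ^ 4) ^ 15 * b * B) / 4 := by
      push_cast
      field_simp
    rw [this]
    linarith
  · push_cast at hu' ⊢
    exact hu'
  · push_cast at hv' ⊢
    exact hv'

lemma Iter_base {q : ℝ} (hq : 0 < q) (hq2 : q ≤ 1 / 2) {k g p w : ℕ} (hk : 300 ≤ k) (hgk : g ≤ k)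
    (hp : Even p) (hp2 : 2 ≤ p) (hpk : p ≤ k)
    (hw : ((k : ℝ) ^ 4) ^ 10 * Real.exp (10 ^ 9 / q ^ 3) ≤ w) (η η' : Finset ℕ) :
    IterInv (1 - q) k g (4 * (k ^ 4) ^ 5 * w ^ 5) p 0 η η' := by
  obtain ⟨u, v, D, hne, hl, hlb, herr, hL⟩ := base hq hq2 hp hp2 hk hpk hw η η'
  have hk1 : (300 : ℝ) ≤ k := by exact_mod_cast hk
  have hK : (k : ℝ) ≤ ((k : ℝ) ^ 4) ^ 10 := by
    rw [← pow_mul]
    calc (k : ℝ) = (k : ℝ) ^ 1 := (pow_one _).symm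
      _ ≤ _ := pow_le_pow_right₀ (by linarith) (by norm_num)
  have hq3 : 0 < q ^ 3 := by positivity
  have he : 10 ^ 9 / q ^ 3 ≤ Real.exp (10 ^ 9 / q ^ 3) := by
    have := Real.add_one_le_exp (10 ^ 9 / q ^ 3)
    linarith
  have hw1 : (k : ℝ) * (10 ^ 9 / q ^ 3) ≤ w :=
    le_trans (mul_le_mul hK he (by positivity) (by positivity)) hw
  have hq1 : (1 : ℝ) ≤ 10 ^ 9 / q ^ 3 := by
    rw [le_div_iff₀ hq3]
    have : q ^ 3 ≤ 1 := pow_le_one₀ hq.le (by linarith)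
    linarith
  have hw2 : (2 : ℝ) ≤ w := by nlinarith
  have hw0 : (0 : ℝ) < w := by linarith
  have hqw : 4 * (k : ℝ) ≤ q ^ 2 * w := by
    have a1 : q ^ 2 * ((k : ℝ) * (10 ^ 9 / q ^ 3)) ≤ q ^ 2 * w :=
      mul_le_mul_of_nonneg_left hw1 (by positivity)
    have a2 : q ^ 2 * ((k : ℝ) * (10 ^ 9 / q ^ 3)) = k * (10 ^ 9 / q) := by field_simp
    have a3 : (4 : ℝ) ≤ 10 ^ 9 / q := by
      rw [le_div_iff₀ hq]; linarith
    nlinarith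
  have hw4 : (w : ℝ) ≤ (w : ℝ) ^ 4 := by
    calc (w : ℝ) = (w : ℝ) ^ 1 := (pow_one _).symm
      _ ≤ _ := pow_le_pow_right₀ (by linarith) (by norm_num)
  have hgr : (g : ℝ) ≤ k := by exact_mod_cast hgk
  have hexp : Real.exp (-(q ^ 2 * (w : ℝ) ^ 4 / 4)) ≤ (1 / 2) ^ g := by
    have a1 : -(q ^ 2 * (w : ℝ) ^ 4 / 4) ≤ (g : ℝ) * (-1) := by
      have : q ^ 2 * w ≤ q ^ 2 * (w : ℝ) ^ 4 := mul_le_mul_of_nonneg_left hw4 (by positivity)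
      linarith
    have a2 : Real.exp (-1) ≤ 1 / 2 := by
      have := Real.add_one_le_exp (1 : ℝ)
      rw [Real.exp_neg, inv_eq_one_div]
      exact one_div_le_one_div_of_le (by norm_num) (by linarith)
    calc _ ≤ Real.exp ((g : ℝ) * (-1)) := Real.exp_le_exp.2 a1
      _ = Real.exp (-1) ^ g := Real.exp_nat_mul _ _
      _ ≤ (1 / 2) ^ g := pow_le_pow_left₀ (Real.exp_pos _).le a2 g
  have hw5 : (4 : ℝ) ≤ (w : ℝ) ^ 5 := by
    have : (2 : ℝ) ^ 5 ≤ (w : ℝ) ^ 5 := pow_le_pow_left₀ (by norm_num) hw2 5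
    linarith
  have hk0 : (0 : ℝ) < k := by linarith
  refine ⟨w ^ 5, u, v, law (1 - q) u, D, _, _, by simp, hne, hl, hlb, hL, by positivity,
    by positivity, ?_, ?_, ?_, ?_⟩
  · push_cast
    field_simp
  · push_cast
    field_simp
    exact le_rfl
  · rw [sub_self, l1_zero]; positivity
  · push_cast
    have hg0 : (0 : ℝ) ≤ (1 / 2) ^ g := by positivity
    nlinarith

/-- With `x = 4K⁵w⁵` prove by induction on `j < d`: there are `b` with `4K⁵b = x^{2^j}`, words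
`u ≠ v` of equal length `≤ 4b`, `U, D, B, Bu` with `Lvl (2 g^{d-1-j}) k b η η' U D B Bu`, `0 < B`,
`0 ≤ Bu`, `(K^{10} B)² x^{2^j (j+2)} = 1`, `Bu b K⁵ ≤ 1`, both `ℓ¹` errors `≤ 4b (j+1) 2^{-g}`
(`130 K⁴ 2^{-k} ≤ 2^{-g}` as `k ≥ 300`, `k ≥ 2g`; base error `≤ 2^{-g}`; `2P+K ≤ 4K⁵b`).
Floor: `K^{20} ≤ x⁴`.  Finish with `Lvl.last` (`p = 2`), `Lvl.err`, `dom_next`. -/
theorem iter {q : ℝ} (hq : 0 < q) (hq2 : q ≤ 1 / 2) {k g d w : ℕ} (hk : 300 ≤ k) (hg : 1 ≤ g)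
    (hd : 1 ≤ d) (hkg : 2 * g ^ d ≤ k)
    (hw : ((k : ℝ) ^ 4) ^ 10 * Real.exp (10 ^ 9 / q ^ 3) ≤ w)
    (hfl : (4 * (k ^ 4) ^ 5 * w ^ 5) ^ (2 ^ d * (d + 8)) ≤ 2 ^ g) :
    ∃ (u v : List Bool) (β : ℝ), u ≠ v ∧ u.length = v.length ∧
      u.length ≤ (4 * (k ^ 4) ^ 5 * w ^ 5) ^ 2 ^ d ∧
      β ^ 8 * (4 * ((k : ℝ) ^ 4) ^ 5 * (w : ℝ) ^ 5) ^ (2 ^ d * (d + 1)) ≤ 1 ∧
      Close (1 - q) u v β
        ((4 * ((k : ℝ) ^ 4) ^ 5 * (w : ℝ) ^ 5) ^ 2 ^ d * (d + 1) * (1 / 2) ^ g) := by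
  obtain ⟨η, η', hη, hη', hηη, hmom⟩ := exists_pte (k := k) (by omega)
  set x : ℕ := 4 * (k ^ 4) ^ 5 * w ^ 5 with hxdef
  have h0 : 0 ≤ 1 - q := by linarith
  have h1 : 1 - q ≤ 1 := by linarith
  have hgd : ∀ i ≤ d, g ^ i ≤ g ^ d := fun i hi => Nat.pow_le_pow_right hg hi
  have hgk : g ≤ k := by
    have := hgd 1 hd
    rw [pow_one] at this
    omega
  have hk0 : (0 : ℝ) < k := by
    have : (300 : ℝ) ≤ k := by exact_mod_cast hk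
    linarith
  have hw0 : 0 < w := by
    have : (0 : ℝ) < w := lt_of_lt_of_le (by positivity) hw
    exact_mod_cast this
  have hx : (k ^ 4) ^ 5 ≤ x := by
    have : 1 ≤ w ^ 5 := Nat.one_le_pow _ _ hw0
    calc (k ^ 4) ^ 5 = 1 * (k ^ 4) ^ 5 * 1 := by ring
      _ ≤ 4 * (k ^ 4) ^ 5 * w ^ 5 := Nat.mul_le_mul (Nat.mul_le_mul_right _ (by norm_num)) this
  have hinv : ∀ j, j < d → IterInv (1 - q) k g x (2 * g ^ (d - 1 - j)) j η η' := by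
    intro j
    induction j with
    | zero =>
      intro _
      have a1 : 1 ≤ g ^ (d - 1 - 0) := Nat.one_le_pow _ _ hg
      have a2 := hgd (d - 1 - 0) (by omega)
      exact Iter_base hq hq2 hk hgk (even_two_mul _) (by omega) (by omega) hw η η'
    | succ j ih =>
      intro hj
      have ih' := ih (by omega)
      have e1 : 2 * g ^ (d - 1 - j) = g * (2 * g ^ (d - 1 - (j + 1))) := by
        rw [show d - 1 - j = d - 1 - (j + 1) + 1 by omega, pow_succ]; ring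
      rw [e1] at ih'
      have a1 : 1 ≤ g ^ (d - 1 - (j + 1)) := Nat.one_le_pow _ _ hg
      have a2 : g * (2 * g ^ (d - 1 - (j + 1))) * g ≤ k := by
        have := hgd (d - 1 - (j + 1) + 2) (by omega)
        calc g * (2 * g ^ (d - 1 - (j + 1))) * g = 2 * g ^ (d - 1 - (j + 1) + 2) := by ring
          _ ≤ k := by omega
      have a3 : 2 ^ j * 3 + 4 + 2 ^ j * (j + 2) ≤ 2 ^ d * (d + 8) := by
        have b1 : 1 ≤ 2 ^ j := Nat.one_le_two_pow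
        have b2 : 2 ^ j ≤ 2 ^ d := Nat.pow_le_pow_right (by norm_num) (by omega)
        calc 2 ^ j * 3 + 4 + 2 ^ j * (j + 2) ≤ 2 ^ j * (j + 9) := by nlinarith
          _ ≤ 2 ^ d * (d + 8) := Nat.mul_le_mul b2 (by omega)
      exact Iter_step h0 h1 hk hg (even_two_mul _) (by omega) a2 hx a3 hfl hη hη' hηη hmom ih'
  obtain ⟨j, rfl⟩ : ∃ j, d = j + 1 := ⟨d - 1, by omega⟩
  have hI := hinv j (by omega)
  rw [show j + 1 - 1 - j = 0 by omega, pow_zero, mul_one] at hI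
  obtain ⟨b, u, v, U, D, B, Bu, hb, hne, hl, hlb, hL, hB0, hBu0, hy, hBu, hu, hv⟩ := hI
  have hk1 : 1 ≤ k := by omega
  have hK1 : 1 ≤ k ^ 4 := Nat.one_le_pow _ _ hk1
  have hx1 : 1 ≤ x := (Nat.one_le_pow _ _ hK1).trans hx
  have hb1 : 1 ≤ b := by
    rcases Nat.eq_zero_or_pos b with rfl | hb1
    · have : 0 < x ^ 2 ^ j := Nat.pow_pos hx1
      omega
    · exact hb1
  obtain ⟨u', v', hne', hl', hlb', hu', hv'⟩ :=
    Iter_words h0 h1 hk hgk hb1 hη hη' hηη hmom hL hne hl hlb (c := (j : ℝ) + 1) (by positivity) hu hv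
  have hb' : 4 * (4 * (k ^ 4) ^ 5 * b ^ 2) ≤ x ^ 2 ^ (j + 1) := by
    have : 1 ≤ (k ^ 4) ^ 5 := Nat.one_le_pow _ _ hK1
    rw [pow_succ 2 j, pow_mul, ← hb]
    calc 4 * (4 * (k ^ 4) ^ 5 * b ^ 2) = 1 * (4 * (4 * (k ^ 4) ^ 5 * b ^ 2)) := by ring
      _ ≤ (k ^ 4) ^ 5 * (4 * (4 * (k ^ 4) ^ 5 * b ^ 2)) := Nat.mul_le_mul_right _ this
      _ = _ := by ring
  have hxr : (4 * ((k : ℝ) ^ 4) ^ 5 * (w : ℝ) ^ 5) = (x : ℝ) := by rw [hxdef]; push_cast; ring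
  have hb'r : 4 * ((4 * (k ^ 4) ^ 5 * b ^ 2 : ℕ) : ℝ) ≤ (x : ℝ) ^ 2 ^ (j + 1) := by exact_mod_cast hb'
  have herr : 4 * ((4 * (k ^ 4) ^ 5 * b ^ 2 : ℕ) : ℝ) * ((j : ℝ) + 1 + 1) * (1 / 2) ^ g ≤
      (x : ℝ) ^ 2 ^ (j + 1) * (((j + 1 : ℕ) : ℝ) + 1) * (1 / 2) ^ g := by
    push_cast at hb'r ⊢
    gcongr
  have hP : 3 * b ≤ 256 * (k ^ 4) ^ 3 * b := by
    have : 1 ≤ (k ^ 4) ^ 3 := Nat.one_le_pow _ _ hK1
    exact Nat.mul_le_mul_right _ (by omega)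
  have hKr : (2 : ℝ) ≤ (k : ℝ) ^ 4 := by
    have : 2 ≤ k ^ 4 := le_trans (by omega) (Iter_K hk)
    exact_mod_cast this
  rw [hxr]
  refine ⟨u', v', 2 * √B, hne', hl', hlb'.trans hb', ?_, _, _, hL.prob_next hk1 _,
    hL.mass_next _, ?_, hL.last hk1 (by norm_num) hP, hu'.trans herr, hv'.trans herr⟩
  · have e1 : (2 * √B) ^ 8 = 256 * B ^ 4 := by
      have : √B ^ 8 = (√B ^ 2) ^ 4 := by ring
      rw [mul_pow, this, Real.sq_sqrt hB0.le]; norm_num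
    have e2 : (x : ℝ) ^ (2 ^ (j + 1) * (j + 1 + 1)) = ((x : ℝ) ^ (2 ^ j * (j + 2))) ^ 2 := by
      rw [← pow_mul]; congr 1; ring
    have e3 : (256 : ℝ) ≤ ((k : ℝ) ^ 4) ^ 40 := by
      calc (256 : ℝ) ≤ 2 ^ 40 := by norm_num
        _ ≤ _ := pow_le_pow_left₀ (by norm_num) hKr 40
    rw [e1, e2]
    calc 256 * B ^ 4 * ((x : ℝ) ^ (2 ^ j * (j + 2))) ^ 2
        ≤ ((k : ℝ) ^ 4) ^ 40 * B ^ 4 * ((x : ℝ) ^ (2 ^ j * (j + 2))) ^ 2 := by gcongr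
      _ = ((((k : ℝ) ^ 4) ^ 10 * B) ^ 2 * (x : ℝ) ^ (2 ^ j * (j + 2))) ^ 2 := by ring
      _ = 1 := by rw [hy, one_pow]
  · have hd := hL.dom_next hk1 (256 * (k ^ 4) ^ 3 * b)
    have hpn := hL.prob_next hk1 (256 * (k ^ 4) ^ 3 * b)
    have hε : 1 / (2 * ((k : ℝ) ^ 4) ^ 2) ≤ 1 := by
      rw [div_le_one (by positivity)]; nlinarith
    have := hd.mono_smul hpn.1 hε
    rw [one_smul] at this
    exact this.nn_add

end Crest.Agent.R300L
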