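import Crest.Agent.R300L.Bit

/-!
# Prouhet–Tarry–Escott pairs and the one-mark term
-/

set_option autoImplicit false
open Finset

noncomputable section
namespace Crest.Agent.R300L

lemma Lin_sum_choose_le {K : ℕ} {η : Finset ℕ} (hη : η ⊆ range K) (j : ℕ) :
    ∑ i ∈ η, i.choose j ≤ K ^ (j + 1) := by
  calc ∑ i ∈ η, i.choose j ≤ ∑ i ∈ range K, i.choose j :=
        sum_le_sum_of_subset hη
    _ ≤ ∑ _i ∈ range K, K ^ j := by
        refine sum_le_sum fun i hi => (Nat.choose_le_pow i j).trans ?_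
        exact Nat.pow_le_pow_left (mem_range.1 hi).le j
    _ = K ^ (j + 1) := by rw [sum_const, card_range, smul_eq_mul, pow_succ']

/-- pigeonhole: `2^{k^4}` subsets, at most `(K^k+1)^k ≤ 2^{k + 4 k^3}` moment vectors
(`∑_{i∈η} C(i,j) ≤ K^{j+1} ≤ K^k`, `K = k^4 ≤ 2^{4k}`) -/
theorem exists_pte {k : ℕ} (hk : 6 ≤ k) : ∃ η η' : Finset ℕ, η ⊆ range (k ^ 4) ∧
    η' ⊆ range (k ^ 4) ∧ η ≠ η' ∧ ∀ j < k, ∑ i ∈ η, i.choose j = ∑ i ∈ η', i.choose j := by
  classical
  have hk1 : 1 ≤ k ^ 4 := Nat.one_le_pow _ _ (by omega)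
  have hcard : #(Fintype.piFinset (fun _ : Fin k => range ((k ^ 4) ^ k + 1))) <
      #((range (k ^ 4)).powerset) := by
    rw [Fintype.card_piFinset, card_powerset, card_range]
    simp only [card_range, prod_const, card_univ, Fintype.card_fin]
    have h1 : k ≤ 2 ^ k := Nat.lt_two_pow_self.le
    have h2 : (k ^ 4) ^ k ≤ 2 ^ (4 * k ^ 2) := by
      calc (k ^ 4) ^ k ≤ ((2 ^ k) ^ 4) ^ k := by gcongr
        _ = 2 ^ (4 * k ^ 2) := by rw [← pow_mul, ← pow_mul]; congr 1; ring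
    have h3 : (k ^ 4) ^ k + 1 ≤ 2 ^ (4 * k ^ 2 + 1) := by
      have : 1 ≤ 2 ^ (4 * k ^ 2) := Nat.one_le_two_pow
      rw [pow_succ 2]; omega
    calc ((k ^ 4) ^ k + 1) ^ k ≤ (2 ^ (4 * k ^ 2 + 1)) ^ k := by gcongr
      _ = 2 ^ ((4 * k ^ 2 + 1) * k) := by rw [← pow_mul]
      _ < 2 ^ k ^ 4 := by
        refine Nat.pow_lt_pow_right (by norm_num) ?_
        have h4 : 6 * k ^ 3 ≤ k ^ 4 := by
          calc 6 * k ^ 3 ≤ k * k ^ 3 := Nat.mul_le_mul_right _ hk
            _ = k ^ 4 := by ring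
        have h5 : k < k ^ 3 := by
          calc k = k ^ 1 := (pow_one k).symm
            _ < k ^ 3 := Nat.pow_lt_pow_right (by omega) (by norm_num)
        have h6 : (4 * k ^ 2 + 1) * k = 4 * k ^ 3 + k := by ring
        omega
  obtain ⟨η, hη, η', hη', hne, he⟩ := exists_ne_map_eq_of_card_lt_of_maps_to hcard
    (f := fun η : Finset ℕ => fun j : Fin k => ∑ i ∈ η, i.choose j) (by
      intro η hη
      simp only [coe_powerset, Set.mem_preimage, Set.mem_powerset_iff, coe_subset] at hη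
      simp only [mem_coe, Fintype.mem_piFinset, mem_range]
      intro j
      have h1 := Lin_sum_choose_le hη j
      have h2 : (k ^ 4) ^ ((j : ℕ) + 1) ≤ (k ^ 4) ^ k := Nat.pow_le_pow_right hk1 j.2
      omega)
  exact ⟨η, η', mem_powerset.1 hη, mem_powerset.1 hη', hne,
    fun j hj => congrFun he ⟨j, hj⟩⟩

variable {M : Type} [Monoid M]

/-- `ℓ¹` operator bound -/
def Lin_Op (T : Module.End ℝ (Al M)) (c : ℝ) : Prop := ∀ X, l1 (T X) ≤ c * l1 X

omit [Monoid M] in
lemma Lin_Op.mul {T T' : Module.End ℝ (Al M)} {a b : ℝ} (ha : 0 ≤ a) (h : Lin_Op T a)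
    (h' : Lin_Op T' b) : Lin_Op (T * T') (a * b) := by
  intro X
  rw [Module.End.mul_apply, mul_assoc]
  exact (h _).trans (mul_le_mul_of_nonneg_left (h' X) ha)

omit [Monoid M] in
lemma Lin_Op.pow {T : Module.End ℝ (Al M)} {a : ℝ} (ha : 0 ≤ a) (h : Lin_Op T a) (n : ℕ) :
    Lin_Op (T ^ n) (a ^ n) := by
  induction n with
  | zero => intro X; simp
  | succ n ih => rw [pow_succ, pow_succ]; exact ih.mul (pow_nonneg ha n) h

lemma Lin_op_left {P : Al M} (hP : IsProb P) : Lin_Op (LinearMap.mulLeft ℝ P) 1 := by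
  intro X
  have := l1_mul_le P X
  rwa [hP.l1_eq] at this

lemma Lin_op_right {P : Al M} (hP : IsProb P) : Lin_Op (LinearMap.mulRight ℝ P) 1 := by
  intro X
  have := l1_mul_le X P
  rwa [hP.l1_eq, mul_comm] at this

/-- the binomial re-expansion -/
lemma Lin_expand {A : Type*} [Ring A] [Algebra ℝ A] {Δ R : A} (h : Commute Δ R) (K : ℕ)
    (ε : ℕ → ℝ) :
    ∑ i ∈ range K, ε i • ((Δ + R) ^ i * R ^ (K - 1 - i)) =
      ∑ j ∈ range K, (∑ i ∈ range K, ε i * (i.choose j : ℝ)) • (Δ ^ j * R ^ (K - 1 - j)) := by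
  simp_rw [sum_smul]
  rw [sum_comm]
  refine sum_congr rfl fun i hi => ?_
  have hi' := mem_range.1 hi
  rw [h.add_pow, sum_mul, smul_sum]
  have hsub : range (i + 1) ⊆ range K := range_subset_range.2 (by omega)
  rw [← sum_subset hsub]
  · refine sum_congr rfl fun j hj => ?_
    have hj' := mem_range.1 hj
    have e : K - 1 - j = (i - j) + (K - 1 - i) := by omega
    rw [e, pow_add, mul_smul]
    congr 1
    rw [Nat.cast_smul_eq_nsmul, nsmul_eq_mul, ← mul_assoc (Δ ^ j), ← mul_assoc,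
      (Nat.cast_commute (i.choose j) (Δ ^ j * R ^ (i - j))).eq]
  · intro j _ hj
    have : i < j := by
      simp only [mem_range, not_lt] at hj
      omega
    simp [Nat.choose_eq_zero_of_lt this]

lemma Lin_op_smooth {U : Al M} (hU : IsProb U) {K : ℕ} (hK : 1 ≤ K) :
    Lin_Op (LinearMap.mulLeft ℝ (Bq (1 / 2) U ^ (64 * K ^ 2)) *
      LinearMap.mulRight ℝ (Bq (1 / 2) U ^ (64 * K ^ 2)) *
      (LinearMap.mulLeft ℝ U - LinearMap.mulRight ℝ U)) (1 / (2 * K)) := by
  intro X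
  set S := Bq (1 / 2) U ^ (64 * K ^ 2) with hS
  have hSp : IsProb S := (hU.bq (by norm_num) (by norm_num)).pow _
  have hc : Commute S U := (commute_Bq (1 / 2) (Commute.refl U)).pow_left _
  have hK' : (0 : ℝ) < K := by exact_mod_cast hK
  have hsm : l1 (S * (U - 1)) ≤ 1 / (4 * K) := by
    refine (Bq_pow_smooth (θ := 1 / 2) (by norm_num) (by norm_num) hU _).trans ?_
    refine one_div_le_one_div_of_le (by positivity) ?_
    refine Real.le_sqrt_of_sq_le ?_
    push_cast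
    nlinarith
  have e : (LinearMap.mulLeft ℝ S * LinearMap.mulRight ℝ S *
      (LinearMap.mulLeft ℝ U - LinearMap.mulRight ℝ U) : Module.End ℝ (Al M)) X =
      S * (U - 1) * X * S - S * X * (S * (U - 1)) := by
    simp only [Module.End.mul_apply, LinearMap.sub_apply, LinearMap.mulLeft_apply,
      LinearMap.mulRight_apply]
    have : S * (U - 1) = (U - 1) * S := by
      rw [mul_sub, sub_mul, hc.eq, mul_one, one_mul]
    conv_rhs => rw [this]
    rw [← this]
    conv_rhs => enter [2]; rw [this]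
    noncomm_ring
  rw [e]
  refine (l1_sub_le _ _).trans ?_
  have h1 : l1 (S * (U - 1) * X * S) ≤ 1 / (4 * K) * l1 X := by
    refine (l1_mul_le _ _).trans ?_
    rw [hSp.l1_eq, mul_one]
    exact (l1_mul_le _ _).trans (mul_le_mul_of_nonneg_right hsm (l1_nonneg _))
  have h2 : l1 (S * X * (S * (U - 1))) ≤ 1 / (4 * K) * l1 X := by
    refine (l1_mul_le _ _).trans ?_
    rw [mul_comm]
    refine mul_le_mul hsm ?_ (l1_nonneg _) (by positivity)
    have := l1_mul_le S X
    rwa [hSp.l1_eq, one_mul] at this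
  have e2 : (1 : ℝ) / (2 * K) = 1 / (4 * K) + 1 / (4 * K) := by field_simp; ring
  rw [e2, add_mul]
  exact add_le_add h1 h2

lemma Lin_geo (k K : ℕ) :
    ∑ j ∈ range K, (if j < k then (0 : ℝ) else (1 / 2) ^ j) ≤ 2 * (1 / 2) ^ k := by
  have : ∑ j ∈ range K, (if j < k then (0 : ℝ) else (1 / 2) ^ j) ≤
      2 * (1 / 2) ^ k - (if K < k then 2 * (1 / 2) ^ k else 2 * (1 / 2) ^ K) := by
    induction K with
    | zero =>
      by_cases h : 0 < k
      · simp [h]
      · have : k = 0 := by omega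
        subst this; simp
    | succ K ih =>
      rw [sum_range_succ]
      by_cases h : K < k
      · rw [if_pos h] at ih ⊢
        by_cases h' : K + 1 < k
        · rw [if_pos h']; linarith
        · rw [if_neg h']
          have : k = K + 1 := by omega
          subst this; linarith
      · rw [if_neg h] at ih ⊢
        rw [if_neg (by omega), pow_succ]; linarith
  refine this.trans (sub_le_self _ ?_)
  split_ifs <;> positivity

lemma Lin_l1_lin {U D : Al M} (hU : IsProb U) (K : ℕ) (η η' : Finset ℕ) :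
    l1 (lin U D K η η') ≤ K * l1 D := by
  unfold lin
  refine (l1_sum_le _ _).trans ?_
  calc _ ≤ ∑ _j ∈ range K, l1 D := by
        refine sum_le_sum fun j _ => ?_
        rw [l1_smul]
        refine (mul_le_of_le_one_left (l1_nonneg _) ?_).trans
          (l1_mul_mul_le (hU.pow _) (hU.pow _) D)
        split_ifs <;> norm_num
    _ = K * l1 D := by rw [sum_const, card_range, nsmul_eq_mul]

/-- Work in `Module.End ℝ (Al M)` with the commuting operators `L = mulLeft U`, `R = mulRight U`,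
`S_L = (1+L)/2`, `S_R = (1+R)/2`.  `L^i = ((L-R)+R)^i` gives
`∑ ε_i L^i R^{K-1-i} = ∑_{j<K} m_j (L-R)^j R^{K-1-j}`, `m_j = ∑ ε_i C(i,j)`, `m_j = 0` for `j < k`,
`|m_j| ≤ K^{j+1}`.  With `s = 64K²`: `‖S_L^s S_R^s (L-R)‖ ≤ 4/√(s+1) ≤ 1/(2K)` in `ℓ¹` operator norm
(`L - R = (L-1) - (R-1)`, `Bq_pow_smooth`), and `S_L^{Ks} S_R^{Ks} (L-R)^j` is
`(S_L^s S_R^s (L-R))^j` times contractions. -/
theorem lin_smooth {U D : Al M} (hU : IsProb U) {K k : ℕ} (hK : 1 ≤ K) {η η' : Finset ℕ}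
    (hη : η ⊆ range K) (hη' : η' ⊆ range K)
    (hmom : ∀ j < k, ∑ i ∈ η, i.choose j = ∑ i ∈ η', i.choose j) :
    l1 (Bq (1 / 2) U ^ (64 * K ^ 3) * lin U D K η η' * Bq (1 / 2) U ^ (64 * K ^ 3)) ≤
      2 * K * (1 / 2) ^ k * l1 D := by
  set L : Module.End ℝ (Al M) := LinearMap.mulLeft ℝ U with hL
  set R : Module.End ℝ (Al M) := LinearMap.mulRight ℝ U with hR
  set S := Bq (1 / 2) U ^ (64 * K ^ 2) with hS
  set W : Module.End ℝ (Al M) := LinearMap.mulLeft ℝ S * LinearMap.mulRight ℝ S with hW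
  set ε : ℕ → ℝ := fun j => (if j ∈ η' then (1 : ℝ) else 0) - (if j ∈ η then 1 else 0) with hε
  have hSp : IsProb S := (hU.bq (by norm_num) (by norm_num)).pow _
  have hc : Commute S U := (commute_Bq (1 / 2) (Commute.refl U)).pow_left _
  have hK' : (0 : ℝ) < K := by exact_mod_cast hK
  have hLR : Commute L R := LinearMap.commute_mulLeft_right U U
  have hΔR : Commute (L - R) R := hLR.sub_left (Commute.refl R)
  have hWΔ : Commute W (L - R) := by
    refine LinearMap.ext fun X => ?_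
    simp only [hW, hL, hR, Module.End.mul_apply, LinearMap.sub_apply, LinearMap.mulLeft_apply,
      LinearMap.mulRight_apply]
    rw [sub_mul, mul_sub, mul_assoc X U S, ← hc.eq, ← mul_assoc U S, ← hc.eq]
    simp only [mul_assoc]
  have hWK : ∀ X, (W ^ K) X = Bq (1 / 2) U ^ (64 * K ^ 3) * X * Bq (1 / 2) U ^ (64 * K ^ 3) := by
    intro X
    rw [hW, (LinearMap.commute_mulLeft_right S S).mul_pow, LinearMap.pow_mulLeft,
      LinearMap.pow_mulRight, hS, ← pow_mul]
    have : 64 * K ^ 2 * K = 64 * K ^ 3 := by ring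
    rw [this, Module.End.mul_apply, LinearMap.mulLeft_apply, LinearMap.mulRight_apply, mul_assoc]
  have hlin : lin U D K η η' =
      (∑ i ∈ range K, ε i • (((L - R) + R) ^ i * R ^ (K - 1 - i))) D := by
    rw [sub_add_cancel, LinearMap.sum_apply]
    refine sum_congr rfl fun i _ => ?_
    rw [LinearMap.smul_apply, hL, hR, LinearMap.pow_mulLeft, LinearMap.pow_mulRight,
      Module.End.mul_apply, LinearMap.mulLeft_apply, LinearMap.mulRight_apply, mul_assoc]
  rw [← hWK, hlin, Lin_expand hΔR, LinearMap.sum_apply, map_sum]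
  refine (l1_sum_le _ _).trans ?_
  have hWop : Lin_Op W 1 := by
    have := (Lin_op_left hSp).mul zero_le_one (Lin_op_right hSp)
    rwa [mul_one] at this
  have hmm : ∀ j, ∑ i ∈ range K, ε i * (i.choose j : ℝ) =
      ((∑ i ∈ η', i.choose j : ℕ) : ℝ) - ((∑ i ∈ η, i.choose j : ℕ) : ℝ) := by
    intro j
    simp only [hε, sub_mul, sum_sub_distrib, ite_mul, one_mul, zero_mul, sum_ite_mem,
      inter_eq_right.2 hη, inter_eq_right.2 hη']
    push_cast
    rfl
  have hterm : ∀ j ∈ range K,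
      l1 ((W ^ K) (((∑ i ∈ range K, ε i * (i.choose j : ℝ)) •
        ((L - R) ^ j * R ^ (K - 1 - j))) D)) ≤
        K * l1 D * (if j < k then (0 : ℝ) else (1 / 2) ^ j) := by
    intro j hj
    have hj' := mem_range.1 hj
    rw [LinearMap.smul_apply, map_smul, l1_smul, hmm]
    by_cases hjk : j < k
    · rw [if_pos hjk, hmom j hjk]; simp
    · rw [if_neg hjk]
      have h1 : |((∑ i ∈ η', i.choose j : ℕ) : ℝ) - ((∑ i ∈ η, i.choose j : ℕ) : ℝ)| ≤
          (K : ℝ) ^ (j + 1) := by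
        have a1 : ((∑ i ∈ η', i.choose j : ℕ) : ℝ) ≤ (K : ℝ) ^ (j + 1) := by
          exact_mod_cast Lin_sum_choose_le hη' j
        have a2 : ((∑ i ∈ η, i.choose j : ℕ) : ℝ) ≤ (K : ℝ) ^ (j + 1) := by
          exact_mod_cast Lin_sum_choose_le hη j
        have a3 : (0 : ℝ) ≤ ((∑ i ∈ η', i.choose j : ℕ) : ℝ) := Nat.cast_nonneg _
        have a4 : (0 : ℝ) ≤ ((∑ i ∈ η, i.choose j : ℕ) : ℝ) := Nat.cast_nonneg _
        rw [abs_le]; constructor <;> linarith
      have h2 : W ^ K * ((L - R) ^ j * R ^ (K - 1 - j)) =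
          W ^ (K - j) * (W * (L - R)) ^ j * R ^ (K - 1 - j) := by
        have e : W ^ K = W ^ (K - j) * W ^ j := by rw [← pow_add]; congr 1; omega
        rw [hWΔ.mul_pow, e]
        simp only [mul_assoc]
      have h3 : Lin_Op (W ^ (K - j) * (W * (L - R)) ^ j * R ^ (K - 1 - j))
          (1 ^ (K - j) * (1 / (2 * K)) ^ j * 1 ^ (K - 1 - j)) :=
        ((hWop.pow zero_le_one _).mul (by positivity)
          ((Lin_op_smooth hU hK).pow (by positivity) _)).mul (by positivity)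
          ((Lin_op_right hU).pow zero_le_one _)
      rw [← Module.End.mul_apply, h2]
      refine (mul_le_mul h1 (h3 D) (l1_nonneg _) (by positivity)).trans (le_of_eq ?_)
      rw [one_pow, one_pow, one_mul, mul_one, one_div, one_div, mul_inv, mul_pow, pow_succ,
        inv_pow (K : ℝ)]
      field_simp
  refine (sum_le_sum hterm).trans ?_
  rw [← mul_sum]
  have := mul_le_mul_of_nonneg_left (Lin_geo k K) (mul_nonneg hK'.le (l1_nonneg D))
  linarith

/-- `U^P = (μ S^t + J) U^{P - t l}` on the left, mirror image on the right, `t = 64K³`;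
powers of `U` commute with `S`; `l1 (lin) ≤ K`. -/
theorem lin_small {U D : Al M} (hU : IsProb U) (hD : l1 D ≤ 1) {l : ℕ} {η₀ : ℝ} (hL : BitL U l η₀)
    (hR : BitR U l η₀) {K k P : ℕ} (hK : 1 ≤ K) {η η' : Finset ℕ} (hη : η ⊆ range K)
    (hη' : η' ⊆ range K) (hmom : ∀ j < k, ∑ i ∈ η, i.choose j = ∑ i ∈ η', i.choose j)
    (hP : 64 * K ^ 3 * l ≤ P) :
    l1 (U ^ P * lin U D K η η' * U ^ P) ≤ 2 * K * (1 / 2) ^ k + 128 * K ^ 4 * η₀ := by
  obtain ⟨μ, J, hμ, hμ1, hJ, e, hJ1⟩ := hL.pow hU (64 * K ^ 3)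
  obtain ⟨μ', J', hμ', hμ1', hJ', e', hJ1'⟩ := hR.pow hU (64 * K ^ 3)
  have hsm := lin_smooth (D := D) hU hK hη hη' hmom
  have hX := Lin_l1_lin (D := D) hU K η η'
  set X := lin U D K η η' with hXd
  set S := Bq (1 / 2) U ^ (64 * K ^ 3) with hS
  set V := U ^ (P - 64 * K ^ 3 * l) with hV
  have hK' : (0 : ℝ) < K := by exact_mod_cast hK
  have hSp : IsProb S := (hU.bq (by norm_num) (by norm_num)).pow _
  have hVp : IsProb V := hU.pow _
  have hc : Commute S V := ((commute_Bq (1 / 2) (Commute.refl U)).pow_left _).pow_right _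
  have eL : U ^ P = μ * V * S + J * V := by
    rw [mul_assoc, ← hc.eq, ← mul_assoc, ← add_mul, ← e, hV, ← pow_add]; congr 1; omega
  have eR : U ^ P = S * (V * μ') + V * J' := by
    rw [← mul_assoc, hc.eq, mul_assoc, ← mul_add, ← e', hV, ← pow_add]; congr 1; omega
  have eq1 : U ^ P * X * U ^ P =
      μ * V * (S * X * S) * (V * μ') + μ * V * S * X * (V * J') + J * V * X * U ^ P := by
    conv_lhs => enter [1, 1]; rw [eL]
    rw [add_mul, add_mul]
    congr 1
    conv_lhs => rw [eR]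
    noncomm_ring
  have a1 : l1 (μ * V) ≤ 1 := by
    refine (l1_mul_le _ _).trans ?_
    rwa [hVp.l1_eq, mul_one, hμ.l1_eq]
  have a2 : l1 (V * μ') ≤ 1 := by
    refine (l1_mul_le _ _).trans ?_
    rwa [hVp.l1_eq, one_mul, hμ'.l1_eq]
  have a3 : l1 (J * V) ≤ (64 * K ^ 3 : ℕ) * η₀ := by
    refine (l1_mul_le _ _).trans ?_
    rwa [hVp.l1_eq, mul_one, hJ.l1_eq]
  have a4 : l1 (V * J') ≤ (64 * K ^ 3 : ℕ) * η₀ := by
    refine (l1_mul_le _ _).trans ?_
    rwa [hVp.l1_eq, one_mul, hJ'.l1_eq]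
  have hXK : l1 X ≤ K := hX.trans (mul_le_of_le_one_right hK'.le hD)
  have b1 : l1 (μ * V * (S * X * S) * (V * μ')) ≤ 2 * K * (1 / 2) ^ k := by
    refine (l1_mul_le _ _).trans ((mul_le_of_le_one_right (l1_nonneg _) a2).trans ?_)
    refine (l1_mul_le _ _).trans ((mul_le_of_le_one_left (l1_nonneg _) a1).trans ?_)
    exact hsm.trans (mul_le_of_le_one_right (by positivity) hD)
  have b2 : l1 (μ * V * S * X * (V * J')) ≤ K * ((64 * K ^ 3 : ℕ) * η₀) := by
    refine (l1_mul_le _ _).trans (mul_le_mul ?_ a4 (l1_nonneg _) hK'.le)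
    refine (l1_mul_le _ _).trans ((mul_le_of_le_one_left (l1_nonneg _) ?_).trans hXK)
    refine (l1_mul_le _ _).trans ?_
    rwa [hSp.l1_eq, mul_one]
  have b3 : l1 (J * V * X * U ^ P) ≤ K * ((64 * K ^ 3 : ℕ) * η₀) := by
    refine (l1_mul_le _ _).trans ?_
    rw [(hU.pow P).l1_eq, mul_one]
    refine (l1_mul_le _ _).trans ?_
    rw [mul_comm]
    exact mul_le_mul hXK a3 (l1_nonneg _) hK'.le
  rw [eq1]
  refine (l1_add_le _ _).trans ?_
  have := l1_add_le (μ * V * (S * X * S) * (V * μ')) (μ * V * S * X * (V * J'))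
  push_cast at b2 b3
  have e3 : (128 : ℝ) * K ^ 4 * η₀ = K * (64 * K ^ 3 * η₀) + K * (64 * K ^ 3 * η₀) := by ring
  rw [e3]
  linarith

end Crest.Agent.R300L
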