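import Crest.Agent.R300L.Alg
import Crest.Agent.R300L.Geo

/-!
# The parse identity
-/

set_option autoImplicit false
open Finset

noncomputable section
namespace Crest.Agent.R300L

namespace PP
variable (G : PP) {M : Type} [Monoid M]

lemma seg_free (U : Al M) (E : Bool → Al M) {κ : Cfg} (hK : 1 ≤ G.K) {x c : ℕ}
    (h : ∀ i ∈ occ κ, G.s i + G.K ≤ x ∨ x + c ≤ G.s i) : pr (G.letr U E κ) x c = U ^ c := by
  refine pr_eq_pow fun j hj1 hj2 => ?_
  unfold letr
  rw [if_neg, if_neg]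
  · rintro ⟨i, hi, h1, h2⟩
    have := h i hi
    omega
  · rintro ⟨i, hi, h1⟩
    have := h i hi
    omega
lemma Parse_s_lt {i j : ℕ} (h : i < j) : G.s i + G.M ≤ G.s j := by
  unfold s
  have : (i + 1) * G.M ≤ j * G.M := Nat.mul_le_mul_right _ h
  rw [add_mul, one_mul] at this
  omega
/-- other occupied windows are `≥ M ≥ c` away; `pr_add` splits at `s i`, `s i + 1`, `s i + K` -/
lemma seg_one (U : Al M) (E : Bool → Al M) {κ : Cfg} (hK : 1 ≤ G.K) {x c i : ℕ} (hi : i ∈ occ κ)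
    (h1 : x ≤ G.s i) (h2 : G.s i + G.K ≤ x + c) (hc : c ≤ G.M) :
    pr (G.letr U E κ) x c =
      U ^ (G.s i - x) * E (decide (i ∈ κ.1)) * U ^ (c - G.K - (G.s i - x)) := by
  have hKM : G.K ≤ G.M := by unfold PP.M; omega
  have oth : ∀ j, j ≠ i → G.s j + G.K ≤ x ∨ x + c ≤ G.s j := by
    intro j hj
    rcases lt_or_gt_of_ne hj with h | h
    · have := G.Parse_s_lt h
      omega
    · have := G.Parse_s_lt h
      omega
  obtain ⟨a, ha⟩ : ∃ a, G.s i = x + a := ⟨G.s i - x, by omega⟩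
  obtain ⟨k, hk⟩ : ∃ k, G.K = k + 1 := ⟨G.K - 1, by omega⟩
  obtain ⟨r, rfl⟩ : ∃ r, c = a + 1 + k + r := ⟨c - (a + 1 + k), by omega⟩
  have e1 : G.s i - x = a := by omega
  have e2 : a + 1 + k + r - G.K - a = r := by omega
  rw [e1, e2, pr_add, pr_add, pr_succ]
  have f1 : pr (G.letr U E κ) x a = U ^ a := by
    refine G.seg_free U E hK fun j hj => ?_
    by_cases hji : j = i
    · subst hji
      omega
    · have := oth j hji
      omega
  have f2 : G.letr U E κ (x + a) = E (decide (i ∈ κ.1)) := by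
    unfold letr
    rw [if_pos ⟨i, hi, ha.symm⟩]
    congr 1
    rw [decide_eq_decide]
    constructor
    · rintro ⟨j, hj, h⟩
      by_cases hji : j = i
      · exact hji ▸ hj
      · have := oth j hji
        omega
    · exact fun h => ⟨i, h, ha.symm⟩
  have f3 : pr (G.letr U E κ) (x + (a + 1)) k = 1 := by
    rw [pr_eq_pow (a := 1), one_pow]
    intro j hj1 hj2
    unfold letr
    rw [if_neg, if_pos ⟨i, hi, by omega, by omega⟩]
    rintro ⟨j', -, h⟩
    by_cases hji : j' = i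
    · subst hji
      omega
    · have := oth j' hji
      omega
  have f4 : pr (G.letr U E κ) (x + (a + 1 + k)) r = U ^ r := by
    refine G.seg_free U E hK fun j hj => ?_
    by_cases hji : j = i
    · subst hji
      omega
    · have := oth j hji
      omega
  rw [f1, f2, f3, f4, mul_one]
lemma Tb_eq (hG : G.Good) (U : Al M) (E : Bool → Al M) (κ : Cfg) :
    G.Tb U E κ = pr (G.letr U E κ) 0 G.n := by
  have hK : 1 ≤ G.K := hG.2.2.1
  have hM : G.M = 2 * G.P + G.K := rfl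
  unfold Tb n
  generalize G.N = N
  induction N with
  | zero => simp
  | succ N ih =>
    rw [pr_succ, ih, add_mul, one_mul, pr_add, zero_add, zero_add]
    congr 1
    have hs : G.s N = N * G.M + G.P := rfl
    by_cases hN : N ∈ occ κ
    · rw [G.seg_one U E hK hN (by omega) (by omega) le_rfl]
      have e1 : G.s N - N * G.M = G.P := by omega
      have e2 : G.M - G.K - G.P = G.P := by omega
      rw [e1, e2]
      by_cases h1 : N ∈ κ.1
      · simp [h1]
      · have h2 : N ∈ κ.2 := (mem_union.1 hN).resolve_left h1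
        simp [h1, h2]
    · have h1 : N ∉ κ.1 := fun h => hN (mem_union_left _ h)
      have h2 : N ∉ κ.2 := fun h => hN (mem_union_right _ h)
      rw [if_neg h1, if_neg h2, G.seg_free U E hK, ← pow_add, ← pow_add]
      · congr 1
        omega
      · intro j hj
        have hne : j ≠ N := fun h => hN (h ▸ hj)
        rcases lt_or_gt_of_ne hne with h | h
        · have := G.Parse_s_lt h
          omega
        · have := G.Parse_s_lt h
          omega

/-- the factor of step `j` -/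
def Parse_F (U : Al M) (E : Bool → Al M) (ν Y : Al M) (κ : Cfg) (ω ξ : Finset ℕ) (j : ℕ) : Al M :=
  (G.zl κ ω ξ j).elim (U ^ G.chunk ω j) (G.Ych U E ω j) * (ν + (if j ∈ ξ then (1 : ℝ) else -1) • Y)

/-- the remainder of a path that is not stopped before `t` -/
def Parse_r (U : Al M) (E : Bool → Al M) (ν Y : Al M) (κ : Cfg) (t : ℕ) (ω ξ : Finset ℕ) : Al M :=
  if ∀ j < t, G.pos ω ξ j + (8 * G.b + G.l + 1) < G.n then
    ((1 / 4 : ℝ) ^ t * G.h (occ κ) ω ξ t) • (pr (G.Parse_F U E ν Y κ ω ξ) 0 t *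
      pr (G.letr U E κ) (G.pos ω ξ t) (G.n - G.pos ω ξ t))
  else 0

lemma Parse_pos_agree {ω ω' ξ ξ' : Finset ℕ} {t : ℕ} (hω : ∀ i < t, i ∈ ω ↔ i ∈ ω')
    (hξ : ∀ i < t, i ∈ ξ ↔ i ∈ ξ') {j : ℕ} (hj : j ≤ t) : G.pos ω ξ j = G.pos ω' ξ' j :=
  G.pos_congr (fun i hi => hω i (by omega)) (cnt_congr fun i hi => hξ i (by omega))

lemma Parse_chunk_agree {ω ω' : Finset ℕ} {j : ℕ} (h : j ∈ ω ↔ j ∈ ω') :
    G.chunk ω j = G.chunk ω' j := by
  unfold chunk
  simp only [h]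

lemma Parse_h_agree (B : Finset ℕ) {ω ω' ξ ξ' : Finset ℕ} {t : ℕ} (hω : ∀ i < t, i ∈ ω ↔ i ∈ ω')
    (hξ : ∀ i < t, i ∈ ξ ↔ i ∈ ξ') : G.h B ω ξ t = G.h B ω' ξ' t := by
  unfold h
  refine prod_congr rfl fun j hj => ?_
  have hj' := mem_range.1 hj
  rw [G.Parse_pos_agree hω hξ hj'.le, G.Parse_chunk_agree (hω j hj')]

lemma Parse_F_agree (U : Al M) (E : Bool → Al M) (ν Y : Al M) (κ : Cfg) {ω ω' ξ ξ' : Finset ℕ}
    {t : ℕ} (hω : ∀ i < t, i ∈ ω ↔ i ∈ ω') (hξ : ∀ i < t, i ∈ ξ ↔ i ∈ ξ') :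
    pr (G.Parse_F U E ν Y κ ω ξ) 0 t = pr (G.Parse_F U E ν Y κ ω' ξ') 0 t := by
  refine pr_congr fun j _ hj => ?_
  have hj' : j < t := by omega
  have hc := G.Parse_chunk_agree (hω j hj')
  have hY : G.Ych U E ω j = G.Ych U E ω' j := by
    funext z
    unfold Ych
    rw [hc]
  unfold Parse_F
  rw [G.zl_congr κ (G.Parse_pos_agree hω hξ hj'.le) hc, hc, hY]
  simp only [hξ j hj']

lemma Parse_chunk_le (ω : Finset ℕ) (j : ℕ) : G.chunk ω j ≤ 8 * G.b := by
  unfold chunk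
  split_ifs <;> omega

lemma Parse_chunk (hG : G.Good) (U : Al M) (E : Bool → Al M) {κ : Cfg} {ω ξ : Finset ℕ} {t : ℕ}
    (h : G.h (occ κ) ω ξ (t + 1) ≠ 0) :
    pr (G.letr U E κ) (G.pos ω ξ t) (G.chunk ω t) =
      (G.zl κ ω ξ t).elim (U ^ G.chunk ω t) (G.Ych U E ω t) := by
  have hK : 1 ≤ G.K := hG.2.2.1
  rcases G.zl_spec hG h (Nat.lt_succ_self t) with ⟨hz, hf⟩ | ⟨i, hi, hz, h1, h2⟩
  · rw [hz, G.seg_free U E hK hf]
    rfl
  · have hc := G.Parse_chunk_le ω t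
    have hP := hG.2.1
    have hM : G.M = 2 * G.P + G.K := rfl
    rw [hz, G.seg_one U E hK hi (by omega) (by omega) (by omega)]
    rfl

lemma Parse_split (hG : G.Good) {U ν Y : Al M} (E : Bool → Al M)
    (hbit : U ^ (G.l + 1) = (1 / 2 : ℝ) • ((ν - Y) * U) + (1 / 2 : ℝ) • (ν + Y)) {κ : Cfg}
    {ω ξ : Finset ℕ} {t : ℕ} (h : G.h (occ κ) ω ξ (t + 1) ≠ 0)
    (hn : G.pos ω ξ t + (8 * G.b + G.l + 1) < G.n) :
    pr (G.letr U E κ) (G.pos ω ξ t) (G.n - G.pos ω ξ t) =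
      (1 / 2 : ℝ) • ((G.zl κ ω ξ t).elim (U ^ G.chunk ω t) (G.Ych U E ω t) * (ν - Y) *
        pr (G.letr U E κ) (G.pos ω ξ t + G.chunk ω t + G.l)
          (G.n - (G.pos ω ξ t + G.chunk ω t + G.l))) +
      (1 / 2 : ℝ) • ((G.zl κ ω ξ t).elim (U ^ G.chunk ω t) (G.Ych U E ω t) * (ν + Y) *
        pr (G.letr U E κ) (G.pos ω ξ t + G.chunk ω t + G.l + 1)
          (G.n - (G.pos ω ξ t + G.chunk ω t + G.l + 1))) := by
  have hK : 1 ≤ G.K := hG.2.2.1
  have hc := G.Parse_chunk_le ω t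
  have hok := G.ok_of_h h (Nat.lt_succ_self t)
  rw [← G.Parse_chunk hG U E h]
  generalize G.pos ω ξ t = x at *
  generalize G.chunk ω t = c at *
  obtain ⟨m, hm⟩ : ∃ m, G.n = x + c + G.l + 1 + m := ⟨G.n - (x + c + G.l + 1), by omega⟩
  have e1 : G.n - x = c + (G.l + 1) + m := by omega
  have e2 : G.n - (x + c + G.l) = 1 + m := by omega
  have e3 : G.n - (x + c + G.l + 1) = m := by omega
  have f1 : pr (G.letr U E κ) (x + c) (G.l + 1) = U ^ (G.l + 1) :=
    G.seg_free U E hK fun i hi => by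
      have := hok i hi
      omega
  have f2 : pr (G.letr U E κ) (x + c + G.l) 1 = U ^ 1 :=
    G.seg_free U E hK fun i hi => by
      have := hok i hi
      omega
  have e4 : x + (c + (G.l + 1)) = x + c + G.l + 1 := by omega
  rw [e1, e2, e3, pr_add, pr_add, pr_add _ _ 1 m, f1, f2, e4, hbit, pow_one]
  simp only [mul_add (pr (G.letr U E κ) x c) ((1 / 2 : ℝ) • _), add_mul, mul_smul_comm,
    smul_mul_assoc, mul_assoc]

lemma Parse_pair (hG : G.Good) {U ν Y : Al M} (E : Bool → Al M)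
    (hbit : U ^ (G.l + 1) = (1 / 2 : ℝ) • ((ν - Y) * U) + (1 / 2 : ℝ) • (ν + Y)) (κ : Cfg)
    {ω ξ : Finset ℕ} {t : ℕ} (ht : t ∉ ξ)
    (hu : ∀ j < t + 1, G.pos ω ξ j + (8 * G.b + G.l + 1) < G.n) :
    G.Parse_r U E ν Y κ (t + 1) ω ξ + G.Parse_r U E ν Y κ (t + 1) ω (insert t ξ) =
      ((1 / 4 : ℝ) ^ t * G.h (occ κ) ω ξ t * (G.tf (occ κ) (G.pos ω ξ t) (G.chunk ω t) / 2)) •
        (pr (G.Parse_F U E ν Y κ ω ξ) 0 t *
          pr (G.letr U E κ) (G.pos ω ξ t) (G.n - G.pos ω ξ t)) := by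
  have hω : ∀ i < t, i ∈ ω ↔ i ∈ ω := fun _ _ => Iff.rfl
  have hξ : ∀ i < t, i ∈ insert t ξ ↔ i ∈ ξ := fun i hi => by
    simp [hi.ne]
  have hp : ∀ j ≤ t, G.pos ω (insert t ξ) j = G.pos ω ξ j := fun j hj =>
    G.Parse_pos_agree hω hξ hj
  have hu' : ∀ j < t + 1, G.pos ω (insert t ξ) j + (8 * G.b + G.l + 1) < G.n := fun j hj => by
    rw [hp j (by omega)]
    exact hu j hj
  have hh : G.h (occ κ) ω ξ (t + 1) =
      G.h (occ κ) ω ξ t * G.tf (occ κ) (G.pos ω ξ t) (G.chunk ω t) := by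
    unfold h
    rw [prod_range_succ]
  have hh' : G.h (occ κ) ω (insert t ξ) (t + 1) = G.h (occ κ) ω ξ (t + 1) := by
    rw [hh, ← G.Parse_h_agree (occ κ) hω hξ, ← hp t le_rfl]
    unfold h
    rw [prod_range_succ]
  unfold Parse_r
  rw [if_pos hu, if_pos hu', hh']
  by_cases h0 : G.h (occ κ) ω ξ (t + 1) = 0
  · have : (1 / 4 : ℝ) ^ t * G.h (occ κ) ω ξ t *
        (G.tf (occ κ) (G.pos ω ξ t) (G.chunk ω t) / 2) = 0 := by
      rw [hh] at h0
      linear_combination ((1 / 4 : ℝ) ^ t / 2) * h0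
    rw [this, h0]
    simp
  · have hz : G.zl κ ω (insert t ξ) t = G.zl κ ω ξ t := G.zl_congr κ (hp t le_rfl) rfl
    have F1 : G.Parse_F U E ν Y κ ω ξ t =
        (G.zl κ ω ξ t).elim (U ^ G.chunk ω t) (G.Ych U E ω t) * (ν - Y) := by
      unfold Parse_F
      rw [if_neg ht, neg_one_smul, ← sub_eq_add_neg]
    have F2 : G.Parse_F U E ν Y κ ω (insert t ξ) t =
        (G.zl κ ω ξ t).elim (U ^ G.chunk ω t) (G.Ych U E ω t) * (ν + Y) := by
      unfold Parse_F
      rw [if_pos (mem_insert_self t ξ), one_smul, hz]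
    rw [pr_succ, pr_succ, zero_add, F1, F2, G.Parse_F_agree U E ν Y κ hω hξ, pos_succ, pos_succ,
      if_neg ht, if_pos (mem_insert_self t ξ), hp t le_rfl, add_zero,
      G.Parse_split hG E hbit h0 (hu t (Nat.lt_succ_self t)), hh]
    generalize ν + Y = Z
    rw [mul_add, smul_add, mul_smul_comm, mul_smul_comm, smul_smul, smul_smul]
    simp only [mul_assoc]
    congr 2 <;> ring

lemma Parse_step (hG : G.Good) {U ν Y : Al M} (E : Bool → Al M)
    (hbit : U ^ (G.l + 1) = (1 / 2 : ℝ) • ((ν - Y) * U) + (1 / 2 : ℝ) • (ν + Y)) {κ : Cfg}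
    (hκ : G.Adm κ) {ω ξ : Finset ℕ} {t : ℕ} (hω : t ∉ ω) (hξ : t ∉ ξ) :
    G.Parse_r U E ν Y κ t ω ξ =
      (if G.Valid t ω ξ then ((1 / 4 : ℝ) ^ t * G.h (occ κ) ω ξ t) • G.term U E ν Y κ t ω ξ
        else 0) +
      ((G.Parse_r U E ν Y κ (t + 1) ω ξ + G.Parse_r U E ν Y κ (t + 1) ω (insert t ξ)) +
        (G.Parse_r U E ν Y κ (t + 1) (insert t ω) ξ +
          G.Parse_r U E ν Y κ (t + 1) (insert t ω) (insert t ξ))) := by
  have hK : 1 ≤ G.K := hG.2.2.1
  have hin : ∀ s : Finset ℕ, ∀ i < t, i ∈ insert t s ↔ i ∈ s := fun s i hi => by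
    simp [hi.ne]
  have hrf : ∀ s : Finset ℕ, ∀ i < t, i ∈ s ↔ i ∈ s := fun _ _ _ => Iff.rfl
  by_cases hu : ∀ j < t + 1, G.pos ω ξ j + (8 * G.b + G.l + 1) < G.n
  · have hV : ¬ G.Valid t ω ξ := fun hV => by
      have h1 := hV.1
      have h2 := hu t (Nat.lt_succ_self t)
      omega
    have hu' : ∀ j < t + 1, G.pos (insert t ω) ξ j + (8 * G.b + G.l + 1) < G.n := fun j hj => by
      rw [G.Parse_pos_agree (hin ω) (hrf ξ) (by omega : j ≤ t)]
      exact hu j hj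
    have c1 : G.chunk ω t = 4 * G.b := if_neg hω
    have c2 : G.chunk (insert t ω) t = 8 * G.b := if_pos (mem_insert_self t ω)
    rw [if_neg hV, zero_add, G.Parse_pair hG E hbit κ hξ hu, G.Parse_pair hG E hbit κ hξ hu',
      G.Parse_pos_agree (hin ω) (hrf ξ) le_rfl, G.Parse_h_agree _ (hin ω) (hrf ξ),
      G.Parse_F_agree U E ν Y κ (hin ω) (hrf ξ), c1, c2, ← add_smul, ← mul_add, ← add_div,
      G.tf_sum hG]
    unfold Parse_r
    rw [if_pos fun j hj => hu j (by omega)]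
    congr 1
    ring
  · have z : ∀ ω' ξ' : Finset ℕ, (∀ i < t, i ∈ ω' ↔ i ∈ ω) → (∀ i < t, i ∈ ξ' ↔ i ∈ ξ) →
        G.Parse_r U E ν Y κ (t + 1) ω' ξ' = 0 := by
      intro ω' ξ' h1 h2
      unfold Parse_r
      rw [if_neg]
      intro h
      refine hu fun j hj => ?_
      rw [← G.Parse_pos_agree h1 h2 (by omega : j ≤ t)]
      exact h j hj
    rw [z _ _ (hrf ω) (hrf ξ), z _ _ (hrf ω) (hin ξ), z _ _ (hin ω) (hrf ξ), z _ _ (hin ω) (hin ξ)]
    simp only [add_zero]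
    unfold Parse_r
    by_cases hv : ∀ j < t, G.pos ω ξ j + (8 * G.b + G.l + 1) < G.n
    · have hV : G.Valid t ω ξ := by
        refine ⟨?_, hv⟩
        by_contra hlt
        refine hu fun j hj => ?_
        rcases Nat.lt_succ_iff_lt_or_eq.1 hj with h | rfl
        · exact hv j h
        · omega
      rw [if_pos hv, if_pos hV]
      by_cases h0 : G.h (occ κ) ω ξ t = 0
      · simp [h0]
      · have hp := G.past hG hκ hV h0
        rw [G.seg_free U E hK fun i hi => Or.inl (by have := hp i hi; omega)]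
        rfl
    · rw [if_neg hv, if_neg fun hV : G.Valid t ω ξ => hv hV.2]

/-- Unfold `t` steps: by induction on `t`,
`Tb = ∑_{J<t} (valid terms) + ∑_{ω,ξ ⊆ range t, ∀ j<t not stopped} (4^{-t} h_t) •
  (pr (step factors) 0 t * pr letr (pos t) (n - pos t))`.
For a path not stopped at `t`: `1 = (tf 4b + tf 8b)/2` (`tf_sum`); if `h_{t+1} ≠ 0` split the segment
into chunk (`zl_spec`, `seg_free`/`seg_one`), `l+1` free units (`ok_of_h`) and the rest, and use
`hbit` (the extra `U` is the free unit at `pos + chunk + l`); `range_succ`,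
`Finset.sum_powerset_insert`, `pos_congr`, `zl_congr`.  A path stopped at `t` has a free remainder
(`past`).  At `t = n+1` no path is unstopped (`le_pos`, `b ≥ 1`). -/
theorem parse (hG : G.Good) {U ν Y : Al M} (E : Bool → Al M)
    (hbit : U ^ (G.l + 1) = (1 / 2 : ℝ) • ((ν - Y) * U) + (1 / 2 : ℝ) • (ν + Y)) {κ : Cfg}
    (hκ : G.Adm κ) :
    G.Tb U E κ = ∑ J ∈ range (G.n + 1), ∑ ω ∈ (range J).powerset, ∑ ξ ∈ (range J).powerset,
      if G.Valid J ω ξ then ((1 / 4 : ℝ) ^ J * G.h (occ κ) ω ξ J) • G.term U E ν Y κ J ω ξ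
      else 0 := by
  have key : ∀ t, G.Tb U E κ =
      (∑ J ∈ range t, ∑ ω ∈ (range J).powerset, ∑ ξ ∈ (range J).powerset,
        if G.Valid J ω ξ then ((1 / 4 : ℝ) ^ J * G.h (occ κ) ω ξ J) • G.term U E ν Y κ J ω ξ
        else 0) +
      ∑ ω ∈ (range t).powerset, ∑ ξ ∈ (range t).powerset, G.Parse_r U E ν Y κ t ω ξ := by
    intro t
    induction t with
    | zero => simp [Parse_r, h, pos_zero, G.Tb_eq hG]
    | succ t ih =>
      rw [ih, sum_range_succ, add_assoc]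
      congr 1
      have hnot : t ∉ range t := notMem_range_self
      rw [range_add_one, sum_powerset_insert hnot]
      simp only [sum_powerset_insert hnot, ← sum_add_distrib]
      refine sum_congr rfl fun ω hω => sum_congr rfl fun ξ hξ => ?_
      exact G.Parse_step hG E hbit hκ (fun h => hnot (mem_powerset.1 hω h))
        (fun h => hnot (mem_powerset.1 hξ h))
  rw [key (G.n + 1), add_eq_left]
  refine sum_eq_zero fun ω _ => sum_eq_zero fun ξ _ => ?_
  unfold Parse_r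
  rw [if_neg]
  intro h
  have h1 := h G.n (Nat.lt_succ_self _)
  have h2 := G.le_pos ω ξ G.n
  have hb : 1 ≤ 4 * G.b := by
    have := hG.1
    omega
  have h3 : G.n * 1 ≤ G.n * (4 * G.b) := Nat.mul_le_mul_left _ hb
  omega

/-- take the mass of `parse` for `κ = (∅, ∅)`, `U = ν = 1`, `Y = 0` (e.g. in `Al FB`) -/
theorem paths_mass (hG : G.Good) :
    ∑ J ∈ range (G.n + 1), ∑ ω ∈ (range J).powerset, ∑ ξ ∈ (range J).powerset,
      (if G.Valid J ω ξ then (1 / 4 : ℝ) ^ J else 0) = 1 := by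
  have hbit : (1 : Al FB) ^ (G.l + 1) =
      (1 / 2 : ℝ) • (((1 : Al FB) - 0) * 1) + (1 / 2 : ℝ) • ((1 : Al FB) + 0) := by
    rw [one_pow, sub_zero, mul_one, add_zero, ← add_smul]
    norm_num
  have hκ : G.Adm (∅, ∅) := ⟨by simp, by simp [occ]⟩
  have h := G.parse hG (fun _ => 1) hbit hκ
  have hT : G.Tb (1 : Al FB) (fun _ => 1) (∅, ∅) = 1 := by
    unfold Tb
    rw [pr_eq_pow (a := 1) fun j _ _ => by simp, one_pow]
  have ht : ∀ J ω ξ, G.term (1 : Al FB) (fun _ => 1) 1 0 (∅, ∅) J ω ξ = 1 := by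
    intro J ω ξ
    unfold term
    rw [pr_eq_pow (a := 1), one_pow, one_pow, one_mul]
    intro j _ _
    rcases G.zl (∅, ∅) ω ξ j with _ | z
    · simp
    · simp [Ych]
  have hocc : occ (∅, ∅) = ∅ := by simp [occ]
  have h2 := congrArg mass h
  rw [hT, mass_one, mass_sum] at h2
  refine Eq.trans ?_ h2.symm
  refine sum_congr rfl fun J _ => ?_
  rw [mass_sum]
  refine sum_congr rfl fun ω _ => ?_
  rw [mass_sum]
  refine sum_congr rfl fun ξ _ => ?_
  split_ifs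
  · rw [mass_smul, ht, mass_one, hocc, h_empty, mul_one, mul_one]
  · rw [mass_zero]

end PP

end Crest.Agent.R300L
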