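import Crest.Agent.R300L.Hid
import Crest.Agent.R300L.ColRec
import Crest.Agent.R300L.Bin2
import Crest.Agent.R300L.Gam

/-!
# One piece is close to the mark-free reference
-/

set_option autoImplicit false
open Finset

noncomputable section
namespace Crest.Agent.R300L

lemma Piece_inner (A : Finset ℕ) (R c : ℕ) {C : ℝ} (hC : 0 ≤ C) :
    ∑ s ∈ A, (if s + R = c then C else 0) ≤ C := by
  rw [← sum_filter, sum_const, nsmul_eq_mul]
  have : (A.filter fun s => s + R = c).card ≤ 1 :=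
    card_le_one.2 fun a ha b hb => by
      have h1 := (mem_filter.1 ha).2
      have h2 := (mem_filter.1 hb).2
      omega
  have : ((A.filter fun s => s + R = c).card : ℝ) ≤ 1 := by exact_mod_cast this
  nlinarith

lemma Piece_inv_sq (n : ℕ) : ∑ i ∈ range n, 1 / ((i : ℝ) + 1) ^ 2 ≤ 2 := by
  have : ∀ n : ℕ, ∑ i ∈ range (n + 1), 1 / ((i : ℝ) + 1) ^ 2 ≤ 2 - 1 / ((n : ℝ) + 1) := by
    intro n
    induction n with
    | zero => norm_num
    | succ n ih =>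
      rw [sum_range_succ]
      have h : 1 / (((n + 1 : ℕ) : ℝ) + 1) ^ 2 ≤ 1 / ((n : ℝ) + 1) - 1 / (((n + 1 : ℕ) : ℝ) + 1) := by
        push_cast
        rw [div_sub_div _ _ (by positivity) (by positivity),
          div_le_div_iff₀ (by positivity) (by positivity)]
        have : (0 : ℝ) ≤ n := by positivity
        nlinarith
      linarith
  cases n with
  | zero => simp
  | succ n =>
    have h1 := this n
    have : 0 ≤ 1 / ((n : ℝ) + 1) := by positivity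
    linarith

lemma Piece_inj (S : Finset ℕ) (f : ℕ → ℕ) (hf : Set.InjOn f S) :
    ∑ x ∈ S, 1 / ((f x : ℝ) + 1) ^ 2 ≤ 2 := by
  rw [← sum_image (f := fun i : ℕ => 1 / ((i : ℝ) + 1) ^ 2) hf]
  refine le_trans (sum_le_sum_of_subset_of_nonneg (t := range ((S.image f).sup id + 1)) ?_
    (fun _ _ _ => by positivity)) (Piece_inv_sq _)
  intro x hx
  exact mem_range.2 (Nat.lt_succ_of_le (le_sup (f := id) hx))

lemma Piece_off (n a : ℕ) : ∑ a' ∈ (range n).erase a, 1 / ((a : ℝ) - a') ^ 2 ≤ 4 := by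
  rw [← sum_filter_add_sum_filter_not _ (fun a' => a' < a)]
  have h1 := Piece_inj (((range n).erase a).filter (fun a' => a' < a)) (fun a' => a - a' - 1)
    (fun x hx y hy e => by
      have := (mem_filter.1 hx).2
      have := (mem_filter.1 hy).2
      simp only at e
      omega)
  have h2 := Piece_inj (((range n).erase a).filter (fun a' => ¬a' < a)) (fun a' => a' - a - 1)
    (fun x hx y hy e => by
      have := (mem_filter.1 hx).2
      have := (mem_filter.1 hy).2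
      have := (mem_erase.1 (mem_filter.1 hx).1).1
      have := (mem_erase.1 (mem_filter.1 hy).1).1
      simp only at e
      omega)
  have e1 : ∑ a' ∈ ((range n).erase a).filter (fun a' => a' < a), 1 / ((a : ℝ) - a') ^ 2 =
      ∑ a' ∈ ((range n).erase a).filter (fun a' => a' < a), 1 / (((a - a' - 1 : ℕ) : ℝ) + 1) ^ 2 := by
    refine sum_congr rfl fun x hx => ?_
    have := (mem_filter.1 hx).2
    obtain ⟨m, rfl⟩ : ∃ m, a = x + 1 + m := ⟨a - (x + 1), by omega⟩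
    have e : x + 1 + m - x - 1 = m := by omega
    rw [e]; push_cast; ring
  have e2 : ∑ a' ∈ ((range n).erase a).filter (fun a' => ¬a' < a), 1 / ((a : ℝ) - a') ^ 2 =
      ∑ a' ∈ ((range n).erase a).filter (fun a' => ¬a' < a),
        1 / (((a' - a - 1 : ℕ) : ℝ) + 1) ^ 2 := by
    refine sum_congr rfl fun x hx => ?_
    have := (mem_filter.1 hx).2
    have := (mem_erase.1 (mem_filter.1 hx).1).1
    obtain ⟨m, rfl⟩ : ∃ m, x = a + 1 + m := ⟨x - (a + 1), by omega⟩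
    have e : a + 1 + m - a - 1 = m := by omega
    rw [e]; push_cast; ring
  rw [e1, e2]
  linarith

lemma Piece_card (V : Finset ℕ) (x d : ℝ) (hd : 0 ≤ d) (h : ∀ s ∈ V, |(s : ℝ) - x| < d) :
    (V.card : ℝ) ≤ 2 * d + 1 := by
  rcases V.eq_empty_or_nonempty with rfl | hne
  · simp; linarith
  · have h1 : V ⊆ Icc (V.min' hne) (V.max' hne) :=
      fun s hs => mem_Icc.2 ⟨V.min'_le s hs, V.le_max' s hs⟩
    have h2 := card_le_card h1
    rw [Nat.card_Icc] at h2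
    have h3 : V.min' hne ≤ V.max' hne := V.min'_le_max' hne
    have h4 : (V.card : ℝ) + V.min' hne ≤ V.max' hne + 1 := by
      have : V.card + V.min' hne ≤ V.max' hne + 1 := by omega
      exact_mod_cast this
    have h5 := abs_lt.1 (h _ (V.min'_mem hne))
    have h6 := abs_lt.1 (h _ (V.max'_mem hne))
    linarith [h5.1, h6.2]

lemma Piece_ex_pow (k : ℕ) (F : ℕ → ℝ) : ex (lt false ^ k) (fun τ => F τ.length) = F k := by
  rw [lt, MonoidAlgebra.single_pow, ex_single, one_pow, one_mul]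
  congr 1
  induction k with
  | zero => simp
  | succ k ih => rw [pow_succ, FreeMonoid.length_mul, ih]; simp

lemma Piece_ex_len (X : Al FB) (F : ℕ → ℝ) :
    ex (ev (lt false) (lt false) X) (fun τ => F τ.length) = ex X (fun τ => F τ.length) := by
  conv_lhs => rw [eq_sum_single X, map_sum, ex_sum]
  refine sum_congr rfl fun τ _ => ?_
  rw [map_smul, ex_smul, ev_single]
  simp only [ite_self, List.map_const', List.prod_replicate]
  rw [Piece_ex_pow]
  rfl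

lemma kap_nonneg {θ : ℝ} (h0 : 0 ≤ θ) (h1 : θ ≤ 1) (t R t' R' : ℕ) : 0 ≤ kap θ t R t' R' := by
  refine sum_nonneg fun s _ => sum_nonneg fun s' _ => ?_
  split_ifs
  · exact mul_nonneg (bin_nonneg h0 h1 _ _) (bin_nonneg h0 h1 _ _)
  · exact le_rfl
/-- `kap ≤ sup bin t` -/
lemma kap_le {θ : ℝ} (h0 : 0 < θ) (h1 : θ < 1) (t R t' R' : ℕ) :
    kap θ t R t' R' ≤ 1 / √(((t : ℝ) + 1) * θ * (1 - θ)) := by
  have hC : (0 : ℝ) ≤ 1 / √(((t : ℝ) + 1) * θ * (1 - θ)) := by positivity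
  unfold kap
  rw [sum_comm]
  calc _ ≤ ∑ s' ∈ range (t' + 1), ∑ s ∈ range (t + 1),
        (if s + R = s' + R' then 1 / √(((t : ℝ) + 1) * θ * (1 - θ)) else 0) * bin θ t' s' := by
        refine sum_le_sum fun s' _ => sum_le_sum fun s _ => ?_
        split_ifs
        · exact mul_le_mul_of_nonneg_right (bin_le h0 h1 t s) (bin_nonneg h0.le h1.le _ _)
        · simp
    _ ≤ ∑ s' ∈ range (t' + 1), 1 / √(((t : ℝ) + 1) * θ * (1 - θ)) * bin θ t' s' := by
        refine sum_le_sum fun s' _ => ?_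
        rw [← sum_mul]
        exact mul_le_mul_of_nonneg_right (Piece_inner _ _ _ hC) (bin_nonneg h0.le h1.le _ _)
    _ = _ := by rw [← mul_sum, bin_sum, mul_one]
/-- a collision forces `|s - θt| ≥ d/2` or `|s' - θt'| ≥ d/2`; `bin_tail_pt` -/
lemma kap_far {θ : ℝ} (h0 : 0 < θ) (h1 : θ < 1) (t R t' R' : ℕ) {d : ℝ} (hd : 0 < d)
    (h : d ≤ |(θ * t + R) - (θ * t' + R')|) :
    kap θ t R t' R' ≤ 64 * ((t + t') * θ * (1 - θ)) / d ^ 3 := by
  have h1' : 0 ≤ 1 - θ := by linarith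
  set C1 : ℝ := 8 * (t * θ * (1 - θ)) / (d / 2) ^ 3 with hC1
  set C2 : ℝ := 8 * (t' * θ * (1 - θ)) / (d / 2) ^ 3 with hC2
  have hC1' : 0 ≤ C1 := by positivity
  have hC2' : 0 ≤ C2 := by positivity
  have key : ∀ s s' : ℕ, (if s + R = s' + R' then bin θ t s * bin θ t' s' else 0) ≤
      (if s + R = s' + R' then C1 else 0) * bin θ t' s' +
        bin θ t s * (if s' + R' = s + R then C2 else 0) := by
    intro s s'
    have b1 := bin_nonneg h0.le h1.le t s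
    have b2 := bin_nonneg h0.le h1.le t' s'
    by_cases e : s + R = s' + R'
    · rw [if_pos e, if_pos e, if_pos e.symm]
      have e' : (s : ℝ) + R = s' + R' := by exact_mod_cast e
      by_cases hs : d / 2 ≤ |(s : ℝ) - θ * t|
      · have := bin_tail_pt h0 h1 t s (half_pos hd) hs
        nlinarith [mul_le_mul_of_nonneg_right this b2, mul_nonneg b1 hC2']
      · have hs' : d / 2 ≤ |(s' : ℝ) - θ * t'| := by
          push Not at hs
          have e2 : θ * t + R - (θ * t' + R') = ((s' : ℝ) - θ * t') - ((s : ℝ) - θ * t) := by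
            linarith
          rw [e2] at h
          have := abs_sub ((s' : ℝ) - θ * t') ((s : ℝ) - θ * t)
          linarith
        have := bin_tail_pt h0 h1 t' s' (half_pos hd) hs'
        nlinarith [mul_le_mul_of_nonneg_left this b1, mul_nonneg hC1' b2]
    · rw [if_neg e, if_neg e, if_neg (fun h => e h.symm)]
      simp
  have a1 : ∑ s ∈ range (t + 1), ∑ s' ∈ range (t' + 1),
      (if s + R = s' + R' then C1 else 0) * bin θ t' s' ≤ C1 := by
    rw [sum_comm]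
    calc _ ≤ ∑ s' ∈ range (t' + 1), C1 * bin θ t' s' := by
          refine sum_le_sum fun s' _ => ?_
          rw [← sum_mul]
          exact mul_le_mul_of_nonneg_right (Piece_inner _ _ _ hC1') (bin_nonneg h0.le h1.le _ _)
      _ = _ := by rw [← mul_sum, bin_sum, mul_one]
  have a2 : ∑ s ∈ range (t + 1), ∑ s' ∈ range (t' + 1),
      bin θ t s * (if s' + R' = s + R then C2 else 0) ≤ C2 := by
    calc _ ≤ ∑ s ∈ range (t + 1), bin θ t s * C2 := by
          refine sum_le_sum fun s _ => ?_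
          rw [← mul_sum]
          exact mul_le_mul_of_nonneg_left (Piece_inner _ _ _ hC2') (bin_nonneg h0.le h1.le _ _)
      _ = _ := by rw [← sum_mul, bin_sum, one_mul]
  calc kap θ t R t' R' ≤ ∑ s ∈ range (t + 1), ∑ s' ∈ range (t' + 1),
        ((if s + R = s' + R' then C1 else 0) * bin θ t' s' +
          bin θ t s * (if s' + R' = s + R then C2 else 0)) :=
        sum_le_sum fun s _ => sum_le_sum fun s' _ => key s s'
    _ ≤ C1 + C2 := by
        simp only [sum_add_distrib]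
        linarith
    _ = _ := by rw [hC1, hC2]; field_simp; ring
/-- `1/√(t·(3/4)q²) ≤ 2.6/(q√(gT))` -/
lemma kap_K1 {q : ℝ} (hq : 0 < q) (hq2 : q ≤ 1 / 2) {T : ℕ} (hT : 1 ≤ T) {t g : ℕ} (R t' R' : ℕ)
    (hg : 1 ≤ g) (h : g * T ≤ 5 * t) :
    kap (1 - q ^ 2) t R t' R' ≤ ft 0 (13 / 5 / (q * √(T : ℝ))) g := by
  have hθ0 : 0 < 1 - q ^ 2 := by nlinarith
  have hθ1 : 1 - q ^ 2 < 1 := by nlinarith
  refine (kap_le hθ0 hθ1 t R t' R').trans ?_
  have hT' : (1 : ℝ) ≤ T := by exact_mod_cast hT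
  have hg' : (1 : ℝ) ≤ g := by exact_mod_cast hg
  have h' : (g : ℝ) * T ≤ 5 * t := by exact_mod_cast h
  have sT : 0 < √(T : ℝ) := Real.sqrt_pos.2 (by linarith)
  have sg : 0 < √(g : ℝ) := Real.sqrt_pos.2 (by linarith)
  have key : 5 / 13 * (q * √(T : ℝ) * √(g : ℝ)) ≤
      √(((t : ℝ) + 1) * (1 - q ^ 2) * (1 - (1 - q ^ 2))) := by
    apply Real.le_sqrt_of_sq_le
    have e : (5 / 13 * (q * √(T : ℝ) * √(g : ℝ))) ^ 2 = 25 / 169 * (q ^ 2 * (g * T)) := by
      rw [mul_pow, mul_pow, mul_pow, Real.sq_sqrt (by linarith), Real.sq_sqrt (by linarith)]; ring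
    rw [e]
    have hq3 : 3 / 4 ≤ 1 - q ^ 2 := by nlinarith
    have ht : (0 : ℝ) ≤ t := by positivity
    have hq2' : 0 < q ^ 2 := by positivity
    have : 25 / 169 * ((g : ℝ) * T) ≤ ((t : ℝ) + 1) * (1 - q ^ 2) := by nlinarith
    nlinarith
  unfold ft
  rw [zero_add]
  calc 1 / √(((t : ℝ) + 1) * (1 - q ^ 2) * (1 - (1 - q ^ 2)))
      ≤ 1 / (5 / 13 * (q * √(T : ℝ) * √(g : ℝ))) :=
        one_div_le_one_div_of_le (by positivity) key
    _ = _ := by field_simp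
/-- diagonal term by `kap_K1`; off-diagonal `d = T|a-a'|/2`, total `≤ 4096 q² n/T² ≤ 0.4/(q√(nT))` -/
lemma kap_K2 {q : ℝ} (hq : 0 < q) (hq2 : q ≤ 1 / 2) {T n : ℕ}
    (hn : ((n : ℝ) + 1) * 10 ^ 13 ≤ q ^ 4 * T) (c : ℕ) (hc : T ≤ 5 * c) (hc' : c ≤ T) {a : ℕ}
    (ha : a < n) {R : ℕ} (hR : R ≤ n) (R' : ℕ → ℕ) (hR' : ∀ a', R' a' ≤ n) :
    ∑ a' ∈ range n, kap (1 - q ^ 2) (c + a * T) R (c + a' * T) (R' a') ≤
      ft 0 (3 / (q * √(T : ℝ))) (a + 1) := by
  have hθ0 : 0 < 1 - q ^ 2 := by nlinarith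
  have hθ1 : 1 - q ^ 2 < 1 := by nlinarith
  have hq3 : 3 / 4 ≤ 1 - q ^ 2 := by nlinarith
  have hq4 : q ^ 4 ≤ 1 := pow_le_one₀ hq.le (by linarith)
  have hn0 : (0 : ℝ) ≤ n := by positivity
  have hT0 : (0 : ℝ) ≤ T := by positivity
  have hnT : ((n : ℝ) + 1) * 10 ^ 13 ≤ T := by nlinarith
  have hT1 : (1 : ℝ) ≤ T := by nlinarith
  have hT : 1 ≤ T := by exact_mod_cast hT1
  have hTp : (0 : ℝ) < T := by linarith
  have ha1 : (a : ℝ) + 1 ≤ n := by exact_mod_cast ha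
  have hc1 : (c : ℝ) ≤ T := by exact_mod_cast hc'
  rw [← add_sum_erase _ _ (mem_range.2 ha)]
  have d1 : kap (1 - q ^ 2) (c + a * T) R (c + a * T) (R' a) ≤
      ft 0 (13 / 5 / (q * √(T : ℝ))) (a + 1) :=
    kap_K1 hq hq2 hT _ _ _ (by omega) (by nlinarith)
  have d2 : ∑ a' ∈ (range n).erase a, kap (1 - q ^ 2) (c + a * T) R (c + a' * T) (R' a') ≤
      ∑ a' ∈ (range n).erase a, 1024 * q ^ 2 * n / (T : ℝ) ^ 2 * (1 / ((a : ℝ) - a') ^ 2) := by
    refine sum_le_sum fun a' ha' => ?_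
    obtain ⟨hne, ha'⟩ := mem_erase.1 ha'
    have ha2 : (a' : ℝ) + 1 ≤ n := by exact_mod_cast mem_range.1 ha'
    have hΔ : 1 ≤ |(a : ℝ) - a'| := by
      have : (1 : ℤ) ≤ |(a : ℤ) - a'| := Int.one_le_abs (by omega)
      exact_mod_cast this
    set Δ := |(a : ℝ) - a'| with hΔd
    have hR1 : (R : ℝ) ≤ n := by exact_mod_cast hR
    have hR2 : (R' a' : ℝ) ≤ n := by exact_mod_cast hR' a'
    have hR3 : (0 : ℝ) ≤ R := by positivity
    have hR4 : (0 : ℝ) ≤ R' a' := by positivity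
    have hd : T * Δ / 2 ≤ |((1 - q ^ 2) * ((c + a * T : ℕ) : ℝ) + R) -
        ((1 - q ^ 2) * ((c + a' * T : ℕ) : ℝ) + R' a')| := by
      have e : ((1 - q ^ 2) * ((c + a * T : ℕ) : ℝ) + R) -
          ((1 - q ^ 2) * ((c + a' * T : ℕ) : ℝ) + R' a') =
          (1 - q ^ 2) * T * ((a : ℝ) - a') - ((R' a' : ℝ) - R) := by push_cast; ring
      rw [e]
      have t1 := abs_sub_abs_le_abs_sub ((1 - q ^ 2) * T * ((a : ℝ) - a')) ((R' a' : ℝ) - R)
      rw [abs_mul, abs_of_pos (mul_pos hθ0 hTp), ← hΔd] at t1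
      have t2 : |(R' a' : ℝ) - R| ≤ n := abs_le.2 ⟨by linarith, by linarith⟩
      have t3 : T ≤ T * Δ := by nlinarith
      have t4 : 3 / 4 * (T * Δ) ≤ (1 - q ^ 2) * T * Δ := by nlinarith
      nlinarith
    refine (kap_far hθ0 hθ1 _ _ _ _ (by positivity) hd).trans ?_
    have e2 : ((a : ℝ) - a') ^ 2 = Δ ^ 2 := by rw [hΔd, sq_abs]
    rw [e2]
    have hs : (((c + a * T : ℕ) : ℝ) + ((c + a' * T : ℕ) : ℝ)) * (1 - q ^ 2) * (1 - (1 - q ^ 2)) ≤
        2 * n * T * q ^ 2 := by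
      have u1 : ((c + a * T : ℕ) : ℝ) ≤ n * T := by push_cast; nlinarith
      have u2 : ((c + a' * T : ℕ) : ℝ) ≤ n * T := by push_cast; nlinarith
      have u3 : (0 : ℝ) ≤ ((c + a * T : ℕ) : ℝ) + ((c + a' * T : ℕ) : ℝ) := by positivity
      have u4 : (((c + a * T : ℕ) : ℝ) + ((c + a' * T : ℕ) : ℝ)) * (1 - q ^ 2) ≤ 2 * n * T := by
        nlinarith
      have u5 : 1 - (1 - q ^ 2) = q ^ 2 := by ring
      rw [u5]
      exact mul_le_mul_of_nonneg_right u4 (by positivity)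
    have hΔ0 : 0 < Δ := by linarith
    calc 64 * ((((c + a * T : ℕ) : ℝ) + ((c + a' * T : ℕ) : ℝ)) * (1 - q ^ 2) * (1 - (1 - q ^ 2))) /
          (T * Δ / 2) ^ 3 ≤ 64 * (2 * n * T * q ^ 2) / (T * Δ / 2) ^ 3 := by gcongr
      _ = 1024 * q ^ 2 * n / (T : ℝ) ^ 2 * (1 / Δ ^ 2) / Δ := by field_simp; ring
      _ ≤ _ := div_le_self (by positivity) hΔ
  have d3 : ∑ a' ∈ (range n).erase a, 1024 * q ^ 2 * n / (T : ℝ) ^ 2 * (1 / ((a : ℝ) - a') ^ 2) ≤
      1024 * q ^ 2 * n / (T : ℝ) ^ 2 * 4 := by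
    rw [← mul_sum]
    exact mul_le_mul_of_nonneg_left (Piece_off n a) (by positivity)
  have sT : 0 < √(T : ℝ) := Real.sqrt_pos.2 hTp
  have sa : 0 < √((a + 1 : ℕ) : ℝ) := Real.sqrt_pos.2 (by positivity)
  have d4 : 1024 * q ^ 2 * n / (T : ℝ) ^ 2 * 4 ≤ 2 / 5 / (q * √(T : ℝ)) / √((a + 1 : ℕ) : ℝ) := by
    have w1 : √(T : ℝ) * √((a + 1 : ℕ) : ℝ) ≤ T := by
      rw [← Real.sqrt_mul hT0]
      apply Real.sqrt_le_iff.2 ⟨hT0, ?_⟩
      push_cast
      nlinarith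
    rw [div_div, div_mul_eq_mul_div, div_le_div_iff₀ (by positivity) (by positivity)]
    have w2 : q ^ 3 ≤ 1 := pow_le_one₀ hq.le (by linarith)
    have w3 : q * √(T : ℝ) * √((a + 1 : ℕ) : ℝ) ≤ q * T := by
      rw [mul_assoc]; exact mul_le_mul_of_nonneg_left w1 hq.le
    calc 1024 * q ^ 2 * n * 4 * (q * √(T : ℝ) * √((a + 1 : ℕ) : ℝ))
        ≤ 1024 * q ^ 2 * n * 4 * (q * T) := by gcongr
      _ = 4096 * q ^ 3 * (n * T) := by ring
      _ ≤ 4096 * 1 * (n * T) := by gcongr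
      _ ≤ 2 / 5 * T ^ 2 := by nlinarith
  unfold ft at d1 ⊢
  have e : 3 / (q * √(T : ℝ)) / √((a + 1 : ℕ) : ℝ) =
      13 / 5 / (q * √(T : ℝ)) / √((a + 1 : ℕ) : ℝ) + 2 / 5 / (q * √(T : ℝ)) / √((a + 1 : ℕ) : ℝ) := by
    ring
  linarith

variable {M : Type} [Monoid M]

lemma Piece_ev_fs (μ o : Al M) (θ : ℝ) (T α β n : ℕ) (ρ : Finset ℕ) (i : ℕ) :
    ev μ o (fs θ T α β n ρ (lt true) i) =
      pr (fun j => Bq θ μ ^ (if j = 0 then α else T) * (if j ∈ ρ then o else 1)) i (n - i) *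
        Bq θ μ ^ β := by
  rw [fs, map_mul, map_pr, map_pow, map_Bq, ev_lt_false]
  congr 1
  refine pr_congr fun j _ _ => ?_
  rw [map_mul, map_pow, map_Bq, ev_lt_false]
  congr 1
  split_ifs
  · exact ev_lt_true _ _
  · exact map_one _

lemma Piece_ev_fs' (b : Al FB) (θ : ℝ) (T α β n : ℕ) (ρ : Finset ℕ) (i : ℕ) :
    ev (lt false) b (fs θ T α β n ρ (lt true) i) = fs θ T α β n ρ b i := Piece_ev_fs ..

lemma Piece_pr_comm {B a : Al M} (hc : Commute B a) (T α m : ℕ) :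
    pr (fun i => B ^ (if i = 0 then α else T) * a) 0 (m + 1) = a ^ (m + 1) * B ^ (α + m * T) := by
  induction m with
  | zero => simp [pr_succ, (hc.pow_left α).eq]
  | succ m ih =>
    rw [pr_succ, ih, if_neg (by omega), mul_assoc, ← mul_assoc (B ^ _), ← pow_add,
      (hc.pow_left _).eq, ← mul_assoc, ← pow_succ]
    congr 2
    ring

lemma Piece_expand (θ p : ℝ) (μ o : Al M) (T α β n : ℕ) :
    pcs (Bq θ μ) (Bq p o) T α β n = ∑ S ∈ (Ico 0 (0 + n)).powerset,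
      (∏ j ∈ Ico 0 (0 + n), if j ∈ S then p else 1 - p) • ev μ o (fs θ T α β n S (lt true) 0) := by
  have e : (fun i => Bq θ μ ^ (if i = 0 then α else T) * Bq p o) =
      fun i => (1 - p) • (Bq θ μ ^ (if i = 0 then α else T) * 1) +
        p • (Bq θ μ ^ (if i = 0 then α else T) * o) := by
    funext i
    conv_lhs => rw [show Bq p o = (1 - p) • (1 : Al M) + p • o from rfl]
    rw [mul_add, mul_smul_comm, mul_smul_comm]
  rw [pcs, e, pr_expand, sum_mul]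
  refine sum_congr rfl fun S _ => ?_
  rw [Piece_ev_fs, ← smul_mul_assoc, Nat.sub_zero, ← pr_smul]
  congr 1
  refine pr_congr fun j _ _ => ?_
  split_ifs <;> rfl

/-- `hid` for `S = fs … (lt true) 0` with `δ² = 4/q` (`NbP.of_dom_l1`, `l1 (o-μ) ≤ 2`), `w = 24/q`,
`W = {N : |N - |ρ| - θt| ≤ 4q√t}` (`#W ≤ 8q√t+1`, tail `≤ 1/16` by `bin_cheb` after pushing `S`
forward by `ev m m`, which preserves lengths), `col_rec` with `φ = ft 0 (3/(q√T))`, `ft_conv`:
`Col ≤ 2592/(q³T)`. -/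
theorem piece_ret {q : ℝ} (hq : 0 < q) (hq2 : q ≤ 1 / 2) {μ o : Al M} (hμ : IsProb μ)
    (ho : IsProb o) (hdom : Dom (o - μ) ((2 / q) • μ)) {T α β n : ℕ} (hn1 : 1 ≤ n)
    (hn : ((n : ℝ) + 1) * 10 ^ 13 ≤ q ^ 4 * T) (hα : T ≤ 5 * α) (hα' : α ≤ T) (hβ : T ≤ 5 * β)
    (hβ' : β ≤ T) {ρ : Finset ℕ} (hρ : ρ ⊆ range n) :
    l1 (ev μ o (fs (1 - q ^ 2) T α β n ρ (lt true) 0) -
      ev μ μ (fs (1 - q ^ 2) T α β n ρ (lt true) 0)) ≤ 1 / 4 := by
  have hθ0 : 0 < 1 - q ^ 2 := by nlinarith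
  have hθ1 : 1 - q ^ 2 < 1 := by nlinarith
  have hq4 : q ^ 4 ≤ 1 := pow_le_one₀ hq.le (by linarith)
  have hn0 : (0 : ℝ) ≤ n := by positivity
  have hT0 : (0 : ℝ) ≤ T := by positivity
  have hT1 : (1 : ℝ) ≤ T := by nlinarith
  have hT : 1 ≤ T := by exact_mod_cast hT1
  have hTp : (0 : ℝ) < T := by linarith
  have sT : 0 < √(T : ℝ) := Real.sqrt_pos.2 hTp
  have hY : Nb 2 μ (o - μ) (√(4 / q)) := by
    refine ⟨Real.sqrt_nonneg _, ?_⟩
    rw [Real.sq_sqrt (by positivity)]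
    have hl : l1 (o - μ) ≤ 2 := by
      have := l1_sub_le o μ
      rw [ho.l1_eq, hμ.l1_eq] at this
      linarith
    refine (NbP.of_dom_l1 (p := 2) (by norm_num) hμ.1 (by positivity) hdom hl).mono (le_of_eq ?_)
    norm_num; ring
  have hS : NN (fs (1 - q ^ 2) T α β n ρ (lt true) 0) := by
    have hB := (isProb_lt false).bq hθ0.le hθ1.le
    refine NN.mul (NN.pr fun j _ _ => (hB.1.pow _).mul ?_) (hB.1.pow _)
    split_ifs
    · exact (isProb_lt true).1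
    · exact NN.one
  set t : ℕ := α + (n - 1) * T + β with ht
  set R : ℕ := ((Ico 0 n).filter (· ∈ ρ)).card with hR
  have htT : t ≤ (n + 1) * T := by
    obtain ⟨m, rfl⟩ : ∃ m, n = m + 1 := ⟨n - 1, by omega⟩
    rw [ht, Nat.add_sub_cancel]; nlinarith
  have ht1 : 1 ≤ t := by omega
  have ht1' : (1 : ℝ) ≤ t := by exact_mod_cast ht1
  have st : 0 < √(t : ℝ) := Real.sqrt_pos.2 (by linarith)
  have hG : fs (1 - q ^ 2) T α β n ρ (lt false) 0 = Bq (1 - q ^ 2) (lt false) ^ t * lt false ^ R := by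
    rw [fs_false _ _ _ _ _ _ (Nat.zero_le n), if_neg (by omega), if_pos rfl]
    rfl
  set d : ℝ := 4 * q * √(t : ℝ) with hd
  have hd0 : 0 < d := by positivity
  set V : Finset ℕ := (range (t + 1)).filter (fun s : ℕ => |(s : ℝ) - (1 - q ^ 2) * t| < d) with hV
  have h1 := hid hμ ho hY hS (V.image (· + R))
  rw [Piece_ev_fs', Piece_ev_fs'] at h1
  have tail : ex (fs (1 - q ^ 2) T α β n ρ (lt true) 0)
      (fun τ => if τ.length ∈ V.image (· + R) then 0 else 1) ≤ 1 / 16 := by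
    rw [← Piece_ex_len _ (fun N => if N ∈ V.image (· + R) then 0 else 1), Piece_ev_fs', hG, Bq_pow,
      sum_mul, ex_sum]
    have c1 := bin_cheb hθ0.le hθ1.le t hd0
    have c2 : (t : ℝ) * (1 - q ^ 2) * (1 - (1 - q ^ 2)) / d ^ 2 ≤ 1 / 16 := by
      rw [hd, mul_pow, mul_pow, Real.sq_sqrt (by linarith), div_le_iff₀ (by positivity)]
      have : 0 ≤ (t : ℝ) * q ^ 2 * q ^ 2 := by positivity
      nlinarith
    refine le_trans ?_ (c1.trans c2)
    rw [sum_filter]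
    refine sum_le_sum fun s hs => ?_
    rw [smul_mul_assoc, ← pow_add, ex_smul, Piece_ex_pow (s + R)
      (fun N => if N ∈ V.image (· + R) then 0 else 1)]
    by_cases hsd : d ≤ |(s : ℝ) - (1 - q ^ 2) * t|
    · rw [if_pos hsd]
      split_ifs
      · simpa using bin_nonneg hθ0.le hθ1.le t s
      · simp
    · have hsV : s ∈ V := by rw [hV]; exact mem_filter.2 ⟨hs, not_le.1 hsd⟩
      have hm : s + R ∈ V.image (· + R) := mem_image.2 ⟨s, hsV, rfl⟩
      rw [if_neg hsd, if_pos hm]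
      simp
  have card : ((V.image (· + R)).card : ℝ) ≤ 2 * d + 1 :=
    le_trans (by exact_mod_cast card_image_le)
      (Piece_card V ((1 - q ^ 2) * t) d hd0.le fun s hs => (mem_filter.1 hs).2)
  set C : ℝ := 3 / (q * √(T : ℝ)) with hC
  have hC0 : 0 ≤ C := by positivity
  have hw : 6 * √(4 / q) ^ 2 = 24 / q := by rw [Real.sq_sqrt (by positivity)]; ring
  rw [hw] at h1
  have hsq : ∀ g : ℕ, g ≤ n + 1 → 3000000 * √(g : ℝ) ≤ q ^ 2 * √(T : ℝ) := by
    intro g hg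
    have hg' : (g : ℝ) ≤ n + 1 := by exact_mod_cast hg
    refine (pow_le_pow_iff_left₀ (by positivity) (by positivity) two_ne_zero).1 ?_
    rw [mul_pow, mul_pow, Real.sq_sqrt (by positivity), Real.sq_sqrt hT0]
    nlinarith
  have hconv : ∀ g ≤ n + 1, 2 * (24 / q) * ∑ i ∈ Ioo 0 g, ft 0 C i * ft 0 C (g - i) ≤ ft 0 C g := by
    intro g hg
    have a1 := ft_conv le_rfl hC0 g
    have a2 := ft_nonneg le_rfl hC0 g
    have a3 : 2 * (24 / q) * (3 * (0 * (g : ℝ) + 2 * C * √(g : ℝ))) ≤ 1 := by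
      have := hsq g hg
      have e : 2 * (24 / q) * (3 * (0 * (g : ℝ) + 2 * C * √(g : ℝ))) =
          864 * √(g : ℝ) / (q ^ 2 * √(T : ℝ)) := by rw [hC]; field_simp; ring
      rw [e, div_le_one (by positivity)]
      have := Real.sqrt_nonneg (g : ℝ)
      linarith
    calc _ ≤ 2 * (24 / q) * (3 * ft 0 C g * (0 * g + 2 * C * √(g : ℝ))) :=
          mul_le_mul_of_nonneg_left a1 (by positivity)
      _ = 2 * (24 / q) * (3 * (0 * (g : ℝ) + 2 * C * √(g : ℝ))) * ft 0 C g := by ring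
      _ ≤ 1 * ft 0 C g := mul_le_mul_of_nonneg_right a3 a2
      _ = _ := one_mul _
  have hcol := col_rec (w := 24 / q) hθ0.le hθ1.le (by positivity) (n := n) ρ hα hα' hβ
    (φ := ft 0 C) (ft_nonneg le_rfl hC0)
    (fun t R t' R' g hg h => (kap_K1 hq hq2 hT R t' R' hg h).trans (by
      unfold ft
      rw [hC]
      gcongr
      norm_num))
    (fun c hc hc' a ha R hR R' hR' => kap_K2 hq hq2 hn c hc hc' ha hR R' hR') hconv
  have hcol2 : 2 * (24 / q) * ∑ i ∈ Ioo 0 (n + 1), ft 0 C i * ft 0 C (n + 1 - i) ≤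
      2592 / (q ^ 3 * T) := by
    have a1 := ft_conv le_rfl hC0 (n + 1)
    have sn : 0 < √((n + 1 : ℕ) : ℝ) := Real.sqrt_pos.2 (by positivity)
    refine (mul_le_mul_of_nonneg_left a1 (by positivity)).trans (le_of_eq ?_)
    have e : (T : ℝ) = √(T : ℝ) ^ 2 := (Real.sq_sqrt hT0).symm
    unfold ft
    rw [hC]
    conv_rhs => rw [e]
    field_simp
    ring
  have fin : (2 * d + 1) * (2592 / (q ^ 3 * T)) ≤ (1 / 8) ^ 2 := by
    have b1 : √(t : ℝ) ≤ √((n + 1 : ℕ) : ℝ) * √(T : ℝ) := by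
      rw [← Real.sqrt_mul (by positivity)]
      exact Real.sqrt_le_sqrt (by exact_mod_cast htT)
    have b2 := hsq (n + 1) le_rfl
    have b3 : 3000000 * √(t : ℝ) ≤ q ^ 2 * T := by
      have e : √(T : ℝ) * √(T : ℝ) = T := Real.mul_self_sqrt hT0
      calc 3000000 * √(t : ℝ) ≤ 3000000 * √((n + 1 : ℕ) : ℝ) * √(T : ℝ) := by linarith
        _ ≤ q ^ 2 * √(T : ℝ) * √(T : ℝ) := mul_le_mul_of_nonneg_right b2 sT.le
        _ = q ^ 2 * T := by rw [mul_assoc, e]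
    have b4 : 10 ^ 13 ≤ q ^ 3 * T := by
      have : q ^ 4 * T ≤ q ^ 3 * T := by
        have : 0 ≤ q ^ 3 * T := by positivity
        nlinarith
      nlinarith
    rw [← mul_div_assoc, div_le_iff₀ (by positivity), hd]
    have b5 : 3000000 * (q * √(t : ℝ)) ≤ q ^ 3 * T := by
      have := mul_le_mul_of_nonneg_left b3 hq.le
      nlinarith
    nlinarith
  have hX : √(((V.image (· + R)).card : ℝ) * Col (24 / q)
      (fs (1 - q ^ 2) T α β n ρ (lt false + lt true) 0 - fs (1 - q ^ 2) T α β n ρ (lt false) 0)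
      (fs (1 - q ^ 2) T α β n ρ (lt false + lt true) 0 - fs (1 - q ^ 2) T α β n ρ (lt false) 0)) ≤
      1 / 8 := by
    apply Real.sqrt_le_iff.2 ⟨by norm_num, ?_⟩
    refine le_trans ?_ fin
    exact (mul_le_mul_of_nonneg_left (hcol.trans hcol2) (by positivity)).trans
      (mul_le_mul_of_nonneg_right card (by positivity))
  linarith

/-- average over the set `ρ` of retained marks (`pr_expand`, `pr_smul`, `map_pr`) -/
theorem piece {q : ℝ} (hq : 0 < q) (hq2 : q ≤ 1 / 2) {μ o : Al M} (hμ : IsProb μ)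
    (ho : IsProb o) (hdom : Dom (o - μ) ((2 / q) • μ)) {T α β n : ℕ} (hn1 : 1 ≤ n)
    (hn : ((n : ℝ) + 1) * 10 ^ 13 ≤ q ^ 4 * T) (hα : T ≤ 5 * α) (hα' : α ≤ T) (hβ : T ≤ 5 * β)
    (hβ' : β ≤ T) :
    l1 (pcs (Bq (1 - q ^ 2) μ) (Bq (1 - q) o) T α β n -
      Bq (1 - q) μ ^ n * Bq (1 - q ^ 2) μ ^ (α + (n - 1) * T + β)) ≤ 1 / 4 := by
  have hθ0 : 0 < 1 - q ^ 2 := by nlinarith
  have hθ1 : 1 - q ^ 2 < 1 := by nlinarith
  have hB := hμ.bq hθ0.le hθ1.le
  have hπ : ∀ S : Finset ℕ, 0 ≤ ∏ j ∈ Ico 0 (0 + n), if j ∈ S then (1 - q) else 1 - (1 - q) :=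
    fun S => prod_nonneg fun j _ => by split_ifs <;> linarith
  have href : Bq (1 - q) μ ^ n * Bq (1 - q ^ 2) μ ^ (α + (n - 1) * T + β) =
      pcs (Bq (1 - q ^ 2) μ) (Bq (1 - q) μ) T α β n := by
    obtain ⟨m, rfl⟩ : ∃ m, n = m + 1 := ⟨n - 1, by omega⟩
    have hc : Commute (Bq (1 - q ^ 2) μ) (Bq (1 - q) μ) :=
      commute_Bq _ (commute_Bq _ (Commute.refl μ)).symm
    rw [pcs, Piece_pr_comm hc, Nat.add_sub_cancel, pow_add _ (α + m * T), mul_assoc]
  have hsum : ∑ S ∈ (Ico 0 (0 + n)).powerset,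
      (∏ j ∈ Ico 0 (0 + n), if j ∈ S then (1 - q) else 1 - (1 - q)) = 1 := by
    have h1 := congrArg mass (Piece_expand (1 - q ^ 2) (1 - q) (1 : Al M) 1 T α β n)
    have hB1 : Bq (1 - q ^ 2) (1 : Al M) = 1 := by rw [Bq, ← add_smul]; simp
    have hB2 : Bq (1 - q) (1 : Al M) = 1 := by rw [Bq, ← add_smul]; simp
    simp only [Piece_ev_fs, hB1, hB2, pcs, one_pow, mul_one, ite_self, pr_const, mass_sum, mass_smul,
      mass_one] at h1
    exact h1.symm
  rw [href, Piece_expand, Piece_expand, ← sum_sub_distrib]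
  refine (l1_sum_le _ _).trans ?_
  calc _ ≤ ∑ S ∈ (Ico 0 (0 + n)).powerset,
        (∏ j ∈ Ico 0 (0 + n), if j ∈ S then (1 - q) else 1 - (1 - q)) * (1 / 4) := by
        refine sum_le_sum fun S hS => ?_
        rw [← smul_sub, l1_smul, abs_of_nonneg (hπ S)]
        refine mul_le_mul_of_nonneg_left ?_ (hπ S)
        refine piece_ret hq hq2 hμ ho hdom hn1 hn hα hα' hβ hβ' ?_
        rw [zero_add, ← range_eq_Ico] at hS
        exact mem_powerset.1 hS
    _ = _ := by rw [← sum_mul, hsum, one_mul]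

end Crest.Agent.R300L
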