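import Crest.Agent.R300L.StepCore
import Crest.Agent.R300L.Lin

/-!
# The step theorem
-/

set_option autoImplicit false
open Finset

noncomputable section
namespace Crest.Agent.R300L

variable {M : Type} [Monoid M]

lemma Step_K_one {k : ℕ} (hk : 1 ≤ k) : (1 : ℝ) ≤ (k : ℝ) ^ 4 :=
  one_le_pow₀ (by exact_mod_cast hk)
lemma Step_eps_nn (k : ℕ) : (0 : ℝ) ≤ 1 / (2 * ((k : ℝ) ^ 4) ^ 2) := by positivity
lemma Step_eps_le {k : ℕ} (hk : 1 ≤ k) : (1 : ℝ) / (2 * ((k : ℝ) ^ 4) ^ 2) ≤ 1 := by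
  have := Step_K_one hk
  rw [div_le_one (by positivity)]
  nlinarith
lemma Step_Keps {k : ℕ} (hk : 1 ≤ k) :
    ((k ^ 4 : ℕ) : ℝ) * (1 / (2 * ((k : ℝ) ^ 4) ^ 2)) ≤ 1 / 2 := by
  have := Step_K_one hk
  push_cast
  rw [mul_one_div, div_le_iff₀ (by positivity)]
  nlinarith
lemma Step_K_big {k : ℕ} (hk : 300 ≤ k) : 8100000000 ≤ k ^ 4 :=
  le_trans (by norm_num) (Nat.pow_le_pow_left hk 4)
lemma Step_k_le {k : ℕ} (hk : 300 ≤ k) : k ≤ k ^ 4 := Nat.le_self_pow (by norm_num) k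

lemma Step_ov_nat {k b l : ℕ} (hk : 300 ≤ k) (hl : 1 ≤ l) (hr : k ^ 4 + l + 2 ≤ 2 * b) :
    512 * (k ^ 4) ^ 3 * b ≤ 64 * (2 * (256 * (k ^ 4) ^ 3 * b) + k ^ 4) * l ∧
    64 * (2 * (256 * (k ^ 4) ^ 3 * b) + k ^ 4) * l + 1 ≤ 32 * (k ^ 4) ^ 5 * b ^ 2 ∧
    k ^ 4 + k * (64 * (2 * (256 * (k ^ 4) ^ 3 * b) + k ^ 4) * l + 1) + 2 ≤
      2 * (4 * (k ^ 4) ^ 5 * b ^ 2) ∧
    8 * (2 * (256 * (k ^ 4) ^ 3 * b) + k ^ 4) ≤ 4 * (k ^ 4) ^ 5 * b := by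
  have hK := Step_K_big hk
  have hkK := Step_k_le hk
  generalize k ^ 4 = K at *
  have hb : 1 ≤ b := by omega
  have hK3 : K ≤ K ^ 3 * b := le_trans (Nat.le_self_pow (by norm_num) K) (Nat.le_mul_of_pos_right _ hb)
  have hM : 2 * (256 * K ^ 3 * b) + K ≤ 513 * (K ^ 3 * b) := by nlinarith
  have hT : 1 ≤ K ^ 3 * b := by omega
  have h1 : 64 * (2 * (256 * K ^ 3 * b) + K) * l + 1 ≤ K * (K ^ 3 * b * b) := by
    have a1 : 64 * (2 * (256 * K ^ 3 * b) + K) * l ≤ 64 * (513 * (K ^ 3 * b)) * (2 * b) :=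
      Nat.mul_le_mul (Nat.mul_le_mul_left _ hM) (by omega)
    have a2 : 1 ≤ K ^ 3 * b * b := Nat.mul_pos hT hb
    have a3 : 65665 * (K ^ 3 * b * b) ≤ K * (K ^ 3 * b * b) := Nat.mul_le_mul_right _ (by omega)
    nlinarith
  have h2 : K * (K * (K ^ 3 * b * b)) = K ^ 5 * b ^ 2 := by ring
  have h3 : K * (K ^ 3 * b * b) ≤ K * (K * (K ^ 3 * b * b)) := Nat.le_mul_of_pos_left _ (by omega)
  have h4 : b ≤ K ^ 5 * b ^ 2 :=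
    le_trans (Nat.le_self_pow (by norm_num) b) (Nat.le_mul_of_pos_left _ (Nat.pow_pos (by omega)))
  refine ⟨?_, by nlinarith, ?_, ?_⟩
  · calc 512 * K ^ 3 * b ≤ 64 * (2 * (256 * K ^ 3 * b) + K) * 1 := by nlinarith
      _ ≤ _ := Nat.mul_le_mul_left _ hl
  · have a1 : k * (64 * (2 * (256 * K ^ 3 * b) + K) * l + 1) ≤ K * (K * (K ^ 3 * b * b)) :=
      Nat.mul_le_mul hkK h1
    nlinarith
  · have a1 : 1026 * (K ^ 3 * b) ≤ K * K * (K ^ 3 * b) := Nat.mul_le_mul_right _ (by nlinarith)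
    have a2 : K * K * (K ^ 3 * b) = K ^ 5 * b := by ring
    nlinarith

lemma Step_shift_num {m k : ℕ} (h : (8 * (m : ℝ)) ^ 3 ≤ 2 ^ k) :
    (m : ℝ) * (2 / √(((64 * m ^ 2 : ℕ) : ℝ) + 1) +
      2 * (((64 * m ^ 2 : ℕ) : ℝ) * (1 / 2) ^ k)) ≤ 1 / 2 := by
  have hm : (0 : ℝ) ≤ m := Nat.cast_nonneg m
  have h1 : 8 * (m : ℝ) ≤ √(((64 * m ^ 2 : ℕ) : ℝ) + 1) := by
    apply Real.le_sqrt_of_sq_le
    push_cast
    nlinarith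
  have h0 : 0 < √(((64 * m ^ 2 : ℕ) : ℝ) + 1) := Real.sqrt_pos.2 (by positivity)
  have h2 : (m : ℝ) * (2 / √(((64 * m ^ 2 : ℕ) : ℝ) + 1)) ≤ 1 / 4 := by
    rw [← mul_div_assoc, div_le_iff₀ h0]
    linarith
  have h3 : (m : ℝ) * (2 * (((64 * m ^ 2 : ℕ) : ℝ) * (1 / 2) ^ k)) ≤ 1 / 4 := by
    have h2k : (0 : ℝ) < 2 ^ k := by positivity
    rw [one_div_pow]
    push_cast
    rw [show (m : ℝ) * (2 * (64 * (m : ℝ) ^ 2 * (1 / 2 ^ k))) = (8 * (m : ℝ)) ^ 3 / 4 / 2 ^ k by ring,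
      div_le_iff₀ h2k]
    linarith
  rw [mul_add]
  linarith

lemma Step_final_num (s : Finset ℕ) (c : ℕ → ℝ) {a : ℝ} (ha : 0 ≤ a) {N : ℕ} (hs : s.card ≤ N)
    (g : ℕ) : 2 * √(∑ o ∈ s, a * c o ^ 2) + (∑ o ∈ s, |c o|) * (1 / 2) ^ g ≤
      √(∑ o ∈ s, (8 * a + 2 * N * (1 / 4) ^ g) * c o ^ 2) := by
  apply Real.le_sqrt_of_sq_le
  rw [← mul_sum, ← mul_sum]
  have hT : 0 ≤ ∑ o ∈ s, c o ^ 2 := sum_nonneg fun o _ => sq_nonneg _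
  have h1 : (∑ o ∈ s, |c o|) ^ 2 ≤ N * ∑ o ∈ s, c o ^ 2 := by
    have := sq_sum_le_card_mul_sum_sq (s := s) (f := fun o => |c o|)
    simp only [sq_abs] at this
    exact this.trans (mul_le_mul_of_nonneg_right (by exact_mod_cast hs) hT)
  have h2 := Real.sq_sqrt (mul_nonneg ha hT)
  have h3 : ((1 / 2 : ℝ) ^ g) ^ 2 = (1 / 4) ^ g := by
    rw [← pow_mul, mul_comm, pow_mul]; norm_num
  have h4 : ((∑ o ∈ s, |c o|) * (1 / 2 : ℝ) ^ g) ^ 2 ≤ N * (∑ o ∈ s, c o ^ 2) * (1 / 4) ^ g := by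
    rw [mul_pow, h3]
    exact mul_le_mul_of_nonneg_right h1 (by positivity)
  generalize √(a * ∑ o ∈ s, c o ^ 2) = x at *
  generalize (∑ o ∈ s, |c o|) * (1 / 2 : ℝ) ^ g = y at *
  nlinarith [sq_nonneg (2 * x - y)]

lemma Step_N1 {k b : ℕ} (hk : 300 ≤ k) (hb : 1 ≤ b) :
    512 * (k ^ 4) ^ 3 * b ≤ 4 * (4 * (k ^ 4) ^ 5 * b ^ 2) := by
  have hK := Step_K_big hk
  generalize k ^ 4 = K at *
  have a1 : 32 * (K ^ 3 * b) ≤ K * K * b * (K ^ 3 * b) :=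
    Nat.mul_le_mul_right _ (le_trans (by nlinarith) (Nat.le_mul_of_pos_right _ hb))
  have a2 : K * K * b * (K ^ 3 * b) = K ^ 5 * b ^ 2 := by ring
  nlinarith

lemma Step_Kx {k b q : ℕ} (hk : 300 ≤ k) (hb : 1 ≤ b) (hq : q ≤ k) {B : ℝ} (hB0 : 0 ≤ B)
    (hB : 4 * ((k : ℝ) ^ 4) ^ 15 * b * B ≤ 1) : ((k ^ 4 : ℕ) : ℝ) * (192 * (q : ℝ) * B) ≤ 1 := by
  refine le_trans ?_ hB
  have hK : (8100000000 : ℝ) ≤ (k : ℝ) ^ 4 := by exact_mod_cast Step_K_big hk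
  have hqK : (q : ℝ) ≤ (k : ℝ) ^ 4 := by exact_mod_cast hq.trans (Step_k_le hk)
  have hbR : (1 : ℝ) ≤ b := by exact_mod_cast hb
  push_cast
  generalize (k : ℝ) ^ 4 = K at *
  have h3 : K ^ 3 ≤ K ^ 15 := pow_le_pow_right₀ (by linarith) (by norm_num)
  have h4 : K * (192 * q) ≤ 4 * K ^ 15 * b := by
    have a1 : K * (192 * q) ≤ K * (K * K) := by gcongr; linarith
    have a2 : 0 ≤ K ^ 15 := by positivity
    nlinarith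
  nlinarith

lemma Step_tail {k b N g : ℕ} (hk : 1 ≤ k) (hb : 1 ≤ b) (hN : N ≤ 32 * (k ^ 4) ^ 5 * b ^ 2) {B : ℝ}
    (hfl : (4 * ((k : ℝ) ^ 4) ^ 5 * b) ^ 3 ≤ 2 ^ g * B ^ 2) :
    2 * (N : ℝ) * (1 / 4) ^ g ≤ B ^ 2 / b := by
  have hK := Step_K_one hk
  have hbR : (1 : ℝ) ≤ b := by exact_mod_cast hb
  have hN' : (N : ℝ) ≤ 32 * ((k : ℝ) ^ 4) ^ 5 * b ^ 2 := by exact_mod_cast hN
  generalize (k : ℝ) ^ 4 = K at *
  have h4 : (2 : ℝ) ^ g ≤ 4 ^ g := pow_le_pow_left₀ (by norm_num) (by norm_num) g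
  have h5 : K ^ 5 ≤ K ^ 15 := pow_le_pow_right₀ hK (by norm_num)
  rw [one_div_pow, mul_one_div, div_le_div_iff₀ (by positivity) (by linarith)]
  calc 2 * (N : ℝ) * b ≤ 2 * (32 * K ^ 5 * b ^ 2) * b := by gcongr
    _ ≤ 2 * (32 * K ^ 15 * b ^ 2) * b := by gcongr
    _ = (4 * K ^ 5 * b) ^ 3 := by ring
    _ ≤ 2 ^ g * B ^ 2 := hfl
    _ ≤ 4 ^ g * B ^ 2 := by gcongr
    _ = B ^ 2 * 4 ^ g := by ring

lemma Step_cu_num {k b q : ℕ} (hk : 300 ≤ k) (hb : 1 ≤ b) (hq : q ≤ k) {B S t : ℝ} (hB0 : 0 ≤ B)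
    (hB1 : B ≤ 1) (hS : S ≤ 2 * (((k ^ 4 : ℕ) : ℝ) * (192 * (q : ℝ) * B))) (ht : t ≤ B ^ 2 / b) :
    8 * (1 / (6 * (k : ℝ) ^ 4 * b) * S) + t ≤ ((k : ℝ) ^ 4) ^ 5 * B / (4 * b) := by
  have hK : (8100000000 : ℝ) ≤ (k : ℝ) ^ 4 := by exact_mod_cast Step_K_big hk
  have hqK : (q : ℝ) ≤ (k : ℝ) ^ 4 := by exact_mod_cast hq.trans (Step_k_le hk)
  have hbR : (1 : ℝ) ≤ b := by exact_mod_cast hb
  push_cast at hS
  generalize (k : ℝ) ^ 4 = K at *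
  have hK0 : 0 < K := by linarith
  have h1 : 8 * (1 / (6 * K * b) * S) ≤ 512 * K * B / b := by
    calc 8 * (1 / (6 * K * b) * S) ≤ 8 * (1 / (6 * K * b) * (2 * (K * (192 * K * B)))) := by
          gcongr
          refine hS.trans ?_
          gcongr
      _ = 512 * K * B / b := by field_simp; ring
  have h2 : B ^ 2 / b ≤ B / b := by gcongr; nlinarith
  have h3 : 512 * K * B / b + B / b ≤ K ^ 5 * B / (4 * b) := by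
    have h5 : K ^ 2 ≤ K ^ 5 := pow_le_pow_right₀ (by linarith) (by norm_num)
    have h6 : 4 * (512 * K + 1) ≤ K ^ 5 := by nlinarith
    rw [show 512 * K * B / b + B / b = 4 * (512 * K + 1) * B / (4 * b) by field_simp]
    gcongr
  linarith

lemma Step_cd_num {k b q : ℕ} (hk : 300 ≤ k) (hb : 1 ≤ b) (hq : q ≤ k) {B S t : ℝ} (hB0 : 0 ≤ B)
    (hS : S ≤ (((k ^ 4 : ℕ) : ℝ) * (192 * (q : ℝ) * B)) ^ 2) (ht : t ≤ B ^ 2 / b) :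
    8 * (1 / (6 * (k : ℝ) ^ 4 * b) * S) + t ≤ ((k : ℝ) ^ 4) ^ 5 * B ^ 2 / (4 * b) := by
  have hK : (8100000000 : ℝ) ≤ (k : ℝ) ^ 4 := by exact_mod_cast Step_K_big hk
  have hqK : (q : ℝ) ≤ (k : ℝ) ^ 4 := by exact_mod_cast hq.trans (Step_k_le hk)
  have hbR : (1 : ℝ) ≤ b := by exact_mod_cast hb
  push_cast at hS
  generalize (k : ℝ) ^ 4 = K at *
  have hK0 : 0 < K := by linarith
  have h1 : 8 * (1 / (6 * K * b) * S) ≤ 49152 * K ^ 3 * B ^ 2 / b := by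
    calc 8 * (1 / (6 * K * b) * S) ≤ 8 * (1 / (6 * K * b) * (K * (192 * K * B)) ^ 2) := by
          gcongr
          refine hS.trans ?_
          gcongr
      _ = 49152 * K ^ 3 * B ^ 2 / b := by field_simp; ring
  have h3 : 49152 * K ^ 3 * B ^ 2 / b + B ^ 2 / b ≤ K ^ 5 * B ^ 2 / (4 * b) := by
    have h5 : 1 ≤ K ^ 3 := one_le_pow₀ (by linarith)
    have h7 : 196612 * K ^ 3 ≤ K * K * K ^ 3 := by gcongr; nlinarith
    have h6 : 4 * (49152 * K ^ 3 + 1) ≤ K ^ 5 := by nlinarith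
    rw [show 49152 * K ^ 3 * B ^ 2 / b + B ^ 2 / b = 4 * (49152 * K ^ 3 + 1) * B ^ 2 / (4 * b) by
      field_simp]
    gcongr
  linarith

section
variable {p k b : ℕ} {η η' : Finset ℕ} {U D : Al M} {B Bu : ℝ}

lemma Lvl.probV (h : Lvl p k b η η' U D B Bu) (hk : 1 ≤ k) : IsProb (U + D) := by
  refine ⟨?_, by rw [mass_add, h.prob.2, h.mass0, add_zero]⟩
  have := (h.dom.mono_smul h.prob.1 (Step_eps_le hk)).nn_add
  rwa [one_smul] at this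
lemma Lvl.prob_next (h : Lvl p k b η η' U D B Bu) (hk : 1 ≤ k) (P : ℕ) :
    IsProb (nextU U D (k ^ 4) P η) := by
  exact ((h.prob.pow P).mul (isProb_Wd h.prob (h.probV hk) _ _)).mul (h.prob.pow P)
lemma Lvl.mass_next (h : Lvl p k b η η' U D B Bu) (P : ℕ) :
    mass (nextD U D (k ^ 4) P η η') = 0 := by
  unfold nextD
  rw [mass_mul, mass_mul, mass_Wop U h.mass0 _ (cd_empty η η'), mul_zero, zero_mul]
lemma Lvl.pow_le_next (h : Lvl p k b η η' U D B Bu) (hk : 1 ≤ k) (P : ℕ) :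
    NN ((2 : ℝ) • nextU U D (k ^ 4) P η - U ^ (2 * P + k ^ 4)) := by
  have h1 := pow_le_Wd h.prob.1 (Step_eps_nn k) h.dom (K := k ^ 4) (Step_Keps hk) η
  have h2 := ((h.prob.1.pow P).mul h1).mul (h.prob.1.pow P)
  have e : U ^ P * ((2 : ℝ) • Wd U D (k ^ 4) η - U ^ (k ^ 4)) * U ^ P =
      (2 : ℝ) • nextU U D (k ^ 4) P η - U ^ (2 * P + k ^ 4) := by
    unfold nextU
    rw [mul_sub, sub_mul, mul_smul_comm, smul_mul_assoc, ← pow_add, ← pow_add]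
    congr 2
    ring
  rwa [e] at h2
/-- `|E^d| ≤ (Kε)² U^K`, `U^M ≤ 2 U'`, `2 (Kε)² = ε` for `ε = 1/(2K²)` -/
lemma Lvl.dom_next (h : Lvl p k b η η' U D B Bu) (hk : 1 ≤ k) (P : ℕ) :
    Dom (nextD U D (k ^ 4) P η η')
      ((1 / (2 * ((k : ℝ) ^ 4) ^ 2)) • nextU U D (k ^ 4) P η) := by
  have hK := Step_K_one hk
  set ε : ℝ := 1 / (2 * ((k : ℝ) ^ 4) ^ 2) with hε
  have h1 := (dom_Wop h.prob.1 h.dom (k ^ 4) (cd η η')).mono_smul (h.prob.1.pow _)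
    (sum_cd_le (K := k ^ 4) (Step_eps_nn k) ((Step_Keps hk).trans (by norm_num)) η η')
  have h2 := ((h.prob.1.pow P).dom.mul h1).mul (h.prob.1.pow P).dom
  refine Dom.mono h2 ?_
  have e0 : (((k ^ 4 : ℕ) : ℝ) * ε) ^ 2 * 2 = ε := by
    rw [hε]; push_cast; field_simp
  have e : ε • nextU U D (k ^ 4) P η -
      U ^ P * ((((k ^ 4 : ℕ) : ℝ) * ε) ^ 2 • U ^ (k ^ 4)) * U ^ P =
      (((k ^ 4 : ℕ) : ℝ) * ε) ^ 2 • ((2 : ℝ) • nextU U D (k ^ 4) P η - U ^ (2 * P + k ^ 4)) := by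
    rw [smul_sub, smul_smul, e0, mul_smul_comm, smul_mul_assoc, ← pow_add, ← pow_add]
    congr 3
    ring
  rw [e]
  exact (h.pow_le_next hk P).smul (sq_nonneg _)
/-- `bd4` with `c = Pi.single b 1`, pad by powers of `U`, `Nb.ref_mono` with `C = 2` -/
theorem Lvl.last (h : Lvl p k b η η' U D B Bu) (hk : 1 ≤ k) (hp : 1 ≤ p) {P : ℕ} (hP : 3 * b ≤ P) :
    Nb p (nextU U D (k ^ 4) P η) (nextD U D (k ^ 4) P η η') (2 * √B) := by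
  obtain ⟨r, hr, -⟩ := h.ov
  have hb : b ∈ Icc b (4 * b - k ^ 4 - b) := by
    rw [mem_Icc]; omega
  have h1 := h.bd4 (fun o => if o = b then 1 else 0)
  rw [sum_eq_single_of_mem b hb (fun o _ ho => by simp [ho]),
    sum_eq_single_of_mem b hb (fun o _ ho => by simp [ho])] at h1
  simp only [if_true, one_smul, one_pow, mul_one] at h1
  have hU := h.prob
  have h2 := (h1.mul_left hp (hU.1.pow _) (hU.pow (P - b))).mul_right hp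
    ((hU.1.pow _).mul (hU.1.pow _)) (hU.pow (P - (4 * b - k ^ 4 - b)))
  have e1 : U ^ (P - b) * U ^ (4 * b) * U ^ (P - (4 * b - k ^ 4 - b)) = U ^ (2 * P + k ^ 4) := by
    rw [← pow_add, ← pow_add]; congr 1; omega
  have e2 : U ^ (P - b) * (U ^ b * Wop U D (k ^ 4) (cd η η') * U ^ (4 * b - k ^ 4 - b)) *
      U ^ (P - (4 * b - k ^ 4 - b)) = nextD U D (k ^ 4) P η η' := by
    unfold nextD
    have a1 : U ^ (P - b) * U ^ b = U ^ P := by rw [← pow_add]; congr 1; omega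
    have a2 : U ^ (4 * b - k ^ 4 - b) * U ^ (P - (4 * b - k ^ 4 - b)) = U ^ P := by
      rw [← pow_add]; congr 1; omega
    rw [← a1, mul_assoc (U ^ (P - b)), mul_assoc (U ^ b * _), a2, a1, ← mul_assoc, ← mul_assoc, a1]
  rw [e1, e2] at h2
  exact h2.ref_mono hp (hU.1.pow _) (h.prob_next hk P).1 (by norm_num) (h.pow_le_next hk P)
/-- the dropped one-mark term (`Wd_sub`, `lin_small` with `l = k(r+1) ≤ 2b`, junk `2^{-k}`) -/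
theorem Lvl.err (h : Lvl p k b η η' U D B Bu) (hk : 1 ≤ k) (hη : η ⊆ range (k ^ 4))
    (hη' : η' ⊆ range (k ^ 4)) (hmom : ∀ j < k, ∑ i ∈ η, i.choose j = ∑ i ∈ η', i.choose j) :
    l1 (nextU U D (k ^ 4) (256 * (k ^ 4) ^ 3 * b) η' -
      (nextU U D (k ^ 4) (256 * (k ^ 4) ^ 3 * b) η +
        nextD U D (k ^ 4) (256 * (k ^ 4) ^ 3 * b) η η')) ≤
      130 * ((k : ℝ) ^ 4) ^ 4 * (1 / 2) ^ k := by
  obtain ⟨r, hr, hl⟩ := h.ov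
  have hU := h.prob
  have hov : Ovl (U ^ r) (U ^ (r + 1)) (1 / 2) :=
    ovl_of_l1 (hU.pow r) (hU.pow (r + 1)) (by rwa [l1_sub_comm])
  have hD : l1 D ≤ 1 := by
    have := h.dom.l1_le
    rw [mass_smul, hU.2, mul_one] at this
    exact this.trans (Step_eps_le hk)
  have hP : 64 * (k ^ 4) ^ 3 * (k * (r + 1)) ≤ 256 * (k ^ 4) ^ 3 * b := by
    have : k * (r + 1) ≤ 4 * b := by omega
    calc 64 * (k ^ 4) ^ 3 * (k * (r + 1)) ≤ 64 * (k ^ 4) ^ 3 * (4 * b) := Nat.mul_le_mul_left _ this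
      _ = 256 * (k ^ 4) ^ 3 * b := by ring
  have h1 := lin_small hU hD (bitL_of_ovl hU hov k) (bitR_of_ovl hU hov k)
    (Nat.one_le_pow 4 k hk) hη hη' hmom hP
  have e : nextU U D (k ^ 4) (256 * (k ^ 4) ^ 3 * b) η' -
      (nextU U D (k ^ 4) (256 * (k ^ 4) ^ 3 * b) η +
        nextD U D (k ^ 4) (256 * (k ^ 4) ^ 3 * b) η η') =
      U ^ (256 * (k ^ 4) ^ 3 * b) * lin U D (k ^ 4) η η' * U ^ (256 * (k ^ 4) ^ 3 * b) := by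
    unfold nextU nextD
    have := Wd_sub U D hη hη'
    rw [show lin U D (k ^ 4) η η' = Wd U D (k ^ 4) η' - Wd U D (k ^ 4) η -
      Wop U D (k ^ 4) (cd η η') by rw [this]; abel]
    noncomm_ring
  rw [e]
  refine h1.trans ?_
  have hK := Step_K_one hk
  have h4 : (k : ℝ) ^ 4 ≤ ((k : ℝ) ^ 4) ^ 4 := le_self_pow₀ hK (by norm_num)
  have h5 : (0 : ℝ) < (1 / 2) ^ k := by positivity
  rw [show (1 : ℝ) - 1 / 2 = 1 / 2 by norm_num]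
  push_cast
  nlinarith
end

/-- new overlap: `r' = 64 M l` (`l = k(r+1)`, `M = 2P+K`); `step_core` for `N = r'`, `r'+1` and
`Nb.l1_le` compare `U'^N` with `U^{NM}`; `BitL.shift` with `t = 64 M²`, `j = M`:
`M (2/√(t+1) + 2 t 2^{-k}) ≤ 1/4 + 1/4` (`512 M³ ≤ (4K⁵b)³ ≤ 2^g ≤ 2^k`). -/
theorem step_ov {p k g b : ℕ} (hk : 300 ≤ k) (hp : Even p) (hp2 : 2 ≤ p) (hg : 1 ≤ g)
    (hpg : p * g ≤ k) {η η' : Finset ℕ} (hη : η ⊆ range (k ^ 4)) {U D : Al M} {B Bu : ℝ}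
    (h : Lvl p k b η η' U D B Bu) (hB0 : 0 ≤ B) (hBu0 : 0 ≤ Bu)
    (hBu : Bu * b * ((k : ℝ) ^ 4) ^ 5 ≤ 1) (hfl : (4 * ((k : ℝ) ^ 4) ^ 5 * b) ^ 3 ≤ 2 ^ g) :
    ∃ r, k ^ 4 + k * (r + 1) + 2 ≤ 2 * (4 * (k ^ 4) ^ 5 * b ^ 2) ∧
      l1 (nextU U D (k ^ 4) (256 * (k ^ 4) ^ 3 * b) η ^ (r + 1) -
        nextU U D (k ^ 4) (256 * (k ^ 4) ^ 3 * b) η ^ r) ≤ 1 := by
  obtain ⟨r, hr, hl⟩ := h.ov
  have hU := h.prob
  have hk1 : 1 ≤ k := by omega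
  have hov : Ovl (U ^ r) (U ^ (r + 1)) (1 / 2) :=
    ovl_of_l1 (hU.pow r) (hU.pow (r + 1)) (by rwa [l1_sub_comm])
  have hbit := bitL_of_ovl hU hov k
  rw [show (1 : ℝ) - 1 / 2 = 1 / 2 by norm_num] at hbit
  obtain ⟨l, hldef⟩ : ∃ l, l = k * (r + 1) := ⟨_, rfl⟩
  rw [← hldef] at hbit hr
  have hl1 : 1 ≤ l := by rw [hldef]; exact Nat.mul_pos hk1 (by omega)
  obtain ⟨n1, n2, n3, n4⟩ := Step_ov_nat hk hl1 hr
  set Mm := 2 * (256 * (k ^ 4) ^ 3 * b) + k ^ 4 with hMm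
  refine ⟨64 * Mm * l, n3, ?_⟩
  obtain ⟨R1, hR1, -, a1, -⟩ := step_core hk hp hp2 hg hpg hη h hB0 hBu0 hBu hfl
    (N := 64 * Mm * l) n1 (by omega)
  obtain ⟨R2, hR2, -, a2, -⟩ := step_core hk hp hp2 hg hpg hη h hB0 hBu0 hBu hfl
    (N := 64 * Mm * l + 1) (by omega) n2
  have b1 := a1.l1_le (by omega) hR1.1 hR1.2.le
  have b2 := a2.l1_le (by omega) hR2.1 hR2.2.le
  rw [← hMm] at b1 b2
  have b3 := hbit.shift hU (t := 64 * Mm ^ 2) (N := 64 * Mm * l * Mm) (le_of_eq (by ring)) Mm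
  rw [show 64 * Mm * l * Mm + Mm = (64 * Mm * l + 1) * Mm by ring] at b3
  have b4 : (Mm : ℝ) * (2 / √(((64 * Mm ^ 2 : ℕ) : ℝ) + 1) +
      2 * (((64 * Mm ^ 2 : ℕ) : ℝ) * (1 / 2) ^ k)) ≤ 1 / 2 := by
    apply Step_shift_num
    have hgk : g ≤ k := le_trans (Nat.le_mul_of_pos_left g (by omega)) hpg
    have c1 : (8 * (Mm : ℝ)) ≤ 4 * ((k : ℝ) ^ 4) ^ 5 * b := by exact_mod_cast n4
    calc (8 * (Mm : ℝ)) ^ 3 ≤ (4 * ((k : ℝ) ^ 4) ^ 5 * b) ^ 3 := by gcongr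
      _ ≤ 2 ^ g := hfl
      _ ≤ 2 ^ k := pow_le_pow_right₀ (by norm_num) hgk
  have t1 := l1_triangle (nextU U D (k ^ 4) (256 * (k ^ 4) ^ 3 * b) η ^ (64 * Mm * l + 1))
    (U ^ ((64 * Mm * l + 1) * Mm)) (nextU U D (k ^ 4) (256 * (k ^ 4) ^ 3 * b) η ^ (64 * Mm * l))
  have t2 := l1_triangle (U ^ ((64 * Mm * l + 1) * Mm)) (U ^ (64 * Mm * l * Mm))
    (nextU U D (k ^ 4) (256 * (k ^ 4) ^ 3 * b) η ^ (64 * Mm * l))
  rw [l1_sub_comm] at b1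
  linarith

/-- new Bessel bounds: `step_core` at exponent `g p`, `Nb.ref_change` (the superposition is dominated
by `(∑|c o|) • U'^N` by `dom_Wop`, `sum_nonempty_le`, `dom_next`; `∑|c| ≤ √N ‖c‖₂`), and
`(2a + b)² ≤ 8a² + 2b²`. -/
theorem step_bes {p k g b : ℕ} (hk : 300 ≤ k) (hp : Even p) (hp2 : 2 ≤ p) (hg : 1 ≤ g)
    (hpg : g * p * g ≤ k) {η η' : Finset ℕ} (hη : η ⊆ range (k ^ 4)) {U D : Al M} {B Bu : ℝ}
    (h : Lvl (g * p) k b η η' U D B Bu) (hB0 : 0 ≤ B) (hBu0 : 0 ≤ Bu)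
    (hBu : Bu * b * ((k : ℝ) ^ 4) ^ 5 ≤ 1) (hfl : (4 * ((k : ℝ) ^ 4) ^ 5 * b) ^ 3 ≤ 2 ^ g) {N : ℕ}
    (hN1 : 512 * (k ^ 4) ^ 3 * b ≤ N) (hN2 : N ≤ 32 * (k ^ 4) ^ 5 * b ^ 2) {coef : Finset ℕ → ℝ}
    (h0 : coef ∅ = 0) (h1 : ∀ S, |coef S| ≤ 1) :
    Bes p (nextU U D (k ^ 4) (256 * (k ^ 4) ^ 3 * b) η)
      (Wop (nextU U D (k ^ 4) (256 * (k ^ 4) ^ 3 * b) η)
        (nextD U D (k ^ 4) (256 * (k ^ 4) ^ 3 * b) η η') (k ^ 4) coef) (k ^ 4)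
      (4 * (k ^ 4) ^ 5 * b ^ 2) N
      (8 * (1 / (6 * (k : ℝ) ^ 4 * b) *
          ∑ S ∈ (range (k ^ 4)).powerset, coef S ^ 2 * (192 * (g * p : ℕ) * B) ^ S.card) +
        2 * N * (1 / 4) ^ g) := by
  have hk1 : 1 ≤ k := by omega
  have hgp2 : 2 ≤ g * p := le_trans hp2 (Nat.le_mul_of_pos_left p hg)
  obtain ⟨Rb, hRb, a1, a2, a3⟩ := step_core (η' := η') hk (hp.mul_left g) hgp2 hg hpg hη h hB0 hBu0
    hBu hfl hN1 hN2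
  have hU' := h.prob_next hk1 (256 * (k ^ 4) ^ 3 * b)
  have hD' := h.dom_next hk1 (256 * (k ^ 4) ^ 3 * b)
  obtain ⟨r, hr, -⟩ := h.ov
  have hK1 : 1 ≤ k ^ 4 := Nat.one_le_pow 4 k hk1
  have hb' : 1 ≤ 4 * (k ^ 4) ^ 5 * b ^ 2 :=
    Nat.mul_pos (Nat.mul_pos (by norm_num) (Nat.pow_pos hK1)) (Nat.pow_pos (by omega))
  have a4 := a3 coef
  generalize nextU U D (k ^ 4) (256 * (k ^ 4) ^ 3 * b) η = U' at *
  generalize nextD U D (k ^ 4) (256 * (k ^ 4) ^ 3 * b) η η' = D' at *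
  have ha : (0 : ℝ) ≤ 1 / (6 * (k : ℝ) ^ 4 * b) *
      ∑ S ∈ (range (k ^ 4)).powerset, coef S ^ 2 * (192 * (g * p : ℕ) * B) ^ S.card := by
    refine mul_nonneg (by positivity) (sum_nonneg fun S _ => ?_)
    positivity
  generalize 1 / (6 * (k : ℝ) ^ 4 * b) *
      ∑ S ∈ (range (k ^ 4)).powerset, coef S ^ 2 * (192 * (g * p : ℕ) * B) ^ S.card = a at *
  generalize 4 * (k ^ 4) ^ 5 * b ^ 2 = b' at *
  intro c
  have hc := a4 c h0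
  have hE : Dom (Wop U' D' (k ^ 4) coef) (U' ^ (k ^ 4)) := by
    have h2 := sum_nonempty_le (K := k ^ 4) (Step_eps_nn k) ((Step_Keps hk1).trans (by norm_num))
      h0 h1
    have h3 := (dom_Wop hU'.1 hD' (k ^ 4) coef).mono_smul (hU'.1.pow _) (b := 1)
      (h2.trans (by linarith [Step_Keps hk1]))
    rwa [one_smul] at h3
  have hdom : Dom (∑ o ∈ Icc b' (N - k ^ 4 - b'), c o •
      (U' ^ o * Wop U' D' (k ^ 4) coef * U' ^ (N - k ^ 4 - o)))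
      ((∑ o ∈ Icc b' (N - k ^ 4 - b'), |c o|) • U' ^ N) := by
    rw [sum_smul]
    refine Dom.sum fun o ho => ?_
    rw [mem_Icc] at ho
    have h2 := ((hU'.1.pow o).dom.mul hE).mul (hU'.1.pow (N - k ^ 4 - o)).dom
    rw [← pow_add, ← pow_add, show o + k ^ 4 + (N - k ^ 4 - o) = N by omega] at h2
    exact h2.smul _
  have h14 : Nb (g * p) Rb (U' ^ N - Rb) (1 / 4) := by
    have := a2.add (by omega) hRb.1 a1
    rw [sub_add_sub_cancel] at this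
    exact this.mono (by norm_num)
  have hres := Nb.ref_change (by omega) hg hRb (hU'.pow N) h14 hc
    (sum_nonneg fun o _ => abs_nonneg _) hdom
  refine hres.mono ?_
  exact Step_final_num _ c ha (by rw [Nat.card_Icc]; omega) g

/-- `B ≤ 1`; `2N 4^{-g} ≤ B²/b` from `hfl`; `sum_cu_sq_le`, `sum_cd_sq_le` (`g p ≤ k`); `Bes.mono` -/
theorem step {p k g b : ℕ} (hk : 300 ≤ k) (hp : Even p) (hp2 : 2 ≤ p) (hg : 1 ≤ g)
    (hpg : g * p * g ≤ k) {η η' : Finset ℕ} (hη : η ⊆ range (k ^ 4)) {U D : Al M} {B Bu : ℝ}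
    (h : Lvl (g * p) k b η η' U D B Bu) (hB0 : 0 ≤ B) (hBu0 : 0 ≤ Bu)
    (hBu : Bu * b * ((k : ℝ) ^ 4) ^ 5 ≤ 1) (hB : 4 * ((k : ℝ) ^ 4) ^ 15 * b * B ≤ 1)
    (hfl : (4 * ((k : ℝ) ^ 4) ^ 5 * b) ^ 3 ≤ 2 ^ g * B ^ 2) :
    Lvl p k (4 * (k ^ 4) ^ 5 * b ^ 2) η η' (nextU U D (k ^ 4) (256 * (k ^ 4) ^ 3 * b) η)
      (nextD U D (k ^ 4) (256 * (k ^ 4) ^ 3 * b) η η')
      (((k : ℝ) ^ 4) ^ 5 * B ^ 2 / (4 * b)) (((k : ℝ) ^ 4) ^ 5 * B / (4 * b)) := by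
  have hk1 : 1 ≤ k := by omega
  have hK := Step_K_one hk1
  obtain ⟨r, hr, -⟩ := h.ov
  have hb1 : 1 ≤ b := by omega
  have hbR : (1 : ℝ) ≤ b := by exact_mod_cast hb1
  have hgp2 : 2 ≤ g * p := le_trans hp2 (Nat.le_mul_of_pos_left p hg)
  have hgpk : g * p ≤ k := le_trans (Nat.le_mul_of_pos_right _ hg) hpg
  have hB1 : B ≤ 1 := by
    have h15 : (1 : ℝ) ≤ ((k : ℝ) ^ 4) ^ 15 := one_le_pow₀ hK
    have : (1 : ℝ) ≤ 4 * ((k : ℝ) ^ 4) ^ 15 * b := by nlinarith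
    nlinarith
  have hfl' : (4 * ((k : ℝ) ^ 4) ^ 5 * b) ^ 3 ≤ 2 ^ g := by
    refine hfl.trans ?_
    have : B ^ 2 ≤ 1 := by nlinarith
    have h2 : (0 : ℝ) < 2 ^ g := by positivity
    nlinarith
  have hN1 : 512 * (k ^ 4) ^ 3 * b ≤ 4 * (4 * (k ^ 4) ^ 5 * b ^ 2) := Step_N1 hk hb1
  have hx : (0 : ℝ) ≤ 192 * (g * p : ℕ) * B := by positivity
  have hKx := Step_Kx hk hb1 hgpk hB0 hB
  have key : ∀ N, 512 * (k ^ 4) ^ 3 * b ≤ N → N ≤ 32 * (k ^ 4) ^ 5 * b ^ 2 →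
      Bes p (nextU U D (k ^ 4) (256 * (k ^ 4) ^ 3 * b) η)
        (Wop (nextU U D (k ^ 4) (256 * (k ^ 4) ^ 3 * b) η)
          (nextD U D (k ^ 4) (256 * (k ^ 4) ^ 3 * b) η η') (k ^ 4) (cu η)) (k ^ 4)
        (4 * (k ^ 4) ^ 5 * b ^ 2) N (((k : ℝ) ^ 4) ^ 5 * B / (4 * b)) ∧
      Bes p (nextU U D (k ^ 4) (256 * (k ^ 4) ^ 3 * b) η)
        (Wop (nextU U D (k ^ 4) (256 * (k ^ 4) ^ 3 * b) η)
          (nextD U D (k ^ 4) (256 * (k ^ 4) ^ 3 * b) η η') (k ^ 4) (cd η η')) (k ^ 4)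
        (4 * (k ^ 4) ^ 5 * b ^ 2) N (((k : ℝ) ^ 4) ^ 5 * B ^ 2 / (4 * b)) := by
    intro N n1 n2
    have ht := Step_tail hk1 hb1 n2 hfl
    exact ⟨(step_bes hk hp hp2 hg hpg hη h hB0 hBu0 hBu hfl' n1 n2 (cu_empty η)
        (abs_cu_le η)).mono (Step_cu_num hk hb1 hgpk hB0 hB1 (sum_cu_sq_le hx hKx η) ht),
      (step_bes hk hp hp2 hg hpg hη h hB0 hBu0 hBu hfl' n1 n2 (cd_empty η η')
        (abs_cd_le η η')).mono (Step_cd_num hk hb1 hgpk hB0 (sum_cd_sq_le hx hKx η η') ht)⟩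
  have k4 := key (4 * (4 * (k ^ 4) ^ 5 * b ^ 2)) hN1 (by nlinarith [Nat.zero_le ((k ^ 4) ^ 5 * b ^ 2)])
  have k8 := key (8 * (4 * (k ^ 4) ^ 5 * b ^ 2)) (by omega) (le_of_eq (by ring))
  exact ⟨h.prob_next hk1 _, h.mass_next _, h.dom_next hk1 _,
    step_ov hk (hp.mul_left g) hgp2 hg hpg hη h hB0 hBu0 hBu hfl', k4.1, k8.1, k4.2, k8.2⟩

end Crest.Agent.R300L
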