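import Crest.Agent.R300L.Gam

/-!
# Numerical estimates for the step
`K = k^4`, `M = 512 K³ b + K ∈ [512 K³ b, 513 K³ b]`, `512 K³ b ≤ N ≤ 32 K⁵ b²`, `wt₀ = 1/(K² b)`.
-/

set_option autoImplicit false
open Finset

noncomputable section
namespace Crest.Agent.R300L

section
variable {k b l N : ℕ}

lemma StepNum_M (k b l N : ℕ) :
    ((GG k b l N).M : ℝ) = 512 * ((k : ℝ) ^ 4) ^ 3 * b + (k : ℝ) ^ 4 := by
  simp only [PP.M, GG]
  push_cast
  ring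

lemma StepNum_phi (k b l N g : ℕ) : (GG k b l N).φ g =
    1 / ((GG k b l N).M : ℝ) + 20 * √((b : ℝ) / (GG k b l N).M) / √(g : ℝ) := rfl

lemma StepNum_theta (k b l N : ℕ) :
    (GG k b l N).Θ = 4 * √((N : ℝ) * (GG k b l N).M / b) := by
  simp only [PP.Θ, PP.n, Nat.cast_mul]
  rfl

lemma StepNum_K (hk : 300 ≤ k) : (8000000000 : ℝ) ≤ (k : ℝ) ^ 4 := by
  have h : (300 : ℝ) ≤ k := by exact_mod_cast hk
  calc (8000000000 : ℝ) ≤ 300 ^ 4 := by norm_num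
    _ ≤ _ := pow_le_pow_left₀ (by norm_num) h 4

lemma StepNum_phi_nonneg (k b l N g : ℕ) : 0 ≤ (GG k b l N).φ g := by
  rw [StepNum_phi]
  positivity

lemma StepNum_theta_nonneg (k b l N : ℕ) : 0 ≤ (GG k b l N).Θ := by
  rw [StepNum_theta]
  positivity

/-- the bounds on `M` -/
lemma StepNum_Mb (hk : 300 ≤ k) (hb : 1 ≤ b) :
    512 * ((k : ℝ) ^ 4) ^ 3 * b ≤ (GG k b l N).M ∧
      ((GG k b l N).M : ℝ) ≤ 513 * ((k : ℝ) ^ 4) ^ 3 * b := by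
  rw [StepNum_M]
  have hK := StepNum_K hk
  have hb' : (1 : ℝ) ≤ b := by exact_mod_cast hb
  set K := (k : ℝ) ^ 4
  have h1 : K ≤ K ^ 3 := le_self_pow₀ (by linarith) (by norm_num)
  have h2 : K ^ 3 ≤ K ^ 3 * b := le_mul_of_one_le_right (by positivity) hb'
  constructor <;> nlinarith

lemma StepNum_sum (T : Finset ℕ) (hT : T ⊆ range N) {w : ℝ} (h0 : 0 ≤ w) (h1 : w ≤ 1) :
    ∑ R ∈ T.powerset, w ^ R.card * ((1 / 2 : ℝ) ^ N) ^ 2 ≤ (1 / 2) ^ N := by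
  have h2 : ∑ R ∈ T.powerset, w ^ R.card = (1 + w) ^ T.card := by
    rw [← prod_const, prod_one_add]
    exact sum_congr rfl fun R _ => (prod_const _).symm
  have h3 : T.card ≤ N := by simpa using card_le_card hT
  have h4 : (1 + w) ^ T.card ≤ 2 ^ N :=
    (pow_le_pow_left₀ (by linarith) (by linarith) _).trans (pow_le_pow_right₀ (by norm_num) h3)
  rw [← sum_mul, h2]
  calc (1 + w) ^ T.card * ((1 / 2 : ℝ) ^ N) ^ 2 ≤ 2 ^ N * ((1 / 2 : ℝ) ^ N) ^ 2 := by gcongr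
    _ = (2 * (1 / 2)) ^ N * (1 / 2) ^ N := by rw [mul_pow]; ring
    _ = _ := by norm_num

lemma StepNum_wu (hk : 300 ≤ k) (hb : 1 ≤ b) {wu : ℝ} (h0 : 0 ≤ wu)
    (h1 : wu * (((k : ℝ) ^ 4) ^ 4 * b) ≤ 1) :
    wu * (((k : ℝ) ^ 4) ^ 2 * b) ≤ 1 / ((k : ℝ) ^ 4) ^ 2 ∧
      wu ≤ 1 / (((k : ℝ) ^ 4) ^ 2 * b) ∧ wu ≤ 1 := by
  have hK := StepNum_K hk
  have hb' : (1 : ℝ) ≤ b := by exact_mod_cast hb
  set K := (k : ℝ) ^ 4
  have hK2 : 1 ≤ K ^ 2 := one_le_pow₀ (by linarith)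
  have h2 : wu * (K ^ 2 * b) ≤ 1 / K ^ 2 := by
    rw [le_div_iff₀ (by positivity)]
    calc wu * (K ^ 2 * b) * K ^ 2 = wu * (K ^ 4 * b) := by ring
      _ ≤ 1 := h1
  have h3 : wu * (K ^ 2 * b) ≤ 1 := h2.trans ((div_le_one (by positivity)).2 hK2)
  have h4 : wu ≤ 1 / (K ^ 2 * b) := by rwa [le_div_iff₀ (by positivity)]
  exact ⟨h2, h4, h4.trans ((div_le_one (by positivity)).2 (one_le_mul_of_one_le_of_one_le hK2 hb'))⟩

lemma StepNum_half (N : ℕ) (hN : 1 ≤ N) : (1 / 2 : ℝ) ^ N ≤ 1 / N := by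
  have h : (N : ℝ) ≤ 2 ^ N := by exact_mod_cast Nat.lt_two_pow_self.le
  rw [one_div_pow]
  exact one_div_le_one_div_of_le (by exact_mod_cast hN) h

/-- `A g + 2 C √g ≤ K² b/6` for `g ≤ N+1 ≤ 33 K⁵ b²` in `ft_conv` -/
lemma num_conv (hk : 300 ≤ k) (hb : 1 ≤ b) (hN2 : N ≤ 32 * (k ^ 4) ^ 5 * b ^ 2) :
    ∀ g ≤ N + 1, 2 * (1 / (((k : ℝ) ^ 4) ^ 2 * b)) *
      ∑ i ∈ Ioo 0 g, (GG k b l N).φ i * (GG k b l N).φ (g - i) ≤ (GG k b l N).φ g := by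
  intro g hg
  have hK := StepNum_K hk
  have hb' : (1 : ℝ) ≤ b := by exact_mod_cast hb
  obtain ⟨hM, -⟩ := StepNum_Mb (l := l) (N := N) hk hb
  have hN' : (N : ℝ) ≤ 32 * ((k : ℝ) ^ 4) ^ 5 * b ^ 2 := by exact_mod_cast hN2
  have hg' : (g : ℝ) ≤ N + 1 := by exact_mod_cast hg
  have hc := ft_conv (A := 1 / ((GG k b l N).M : ℝ)) (C := 20 * √((b : ℝ) / (GG k b l N).M))
    (by positivity) (by positivity) g
  have hφ := StepNum_phi_nonneg k b l N g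
  change ∑ i ∈ Ioo 0 g, (GG k b l N).φ i * (GG k b l N).φ (g - i) ≤ 3 * (GG k b l N).φ g * _ at hc
  set K := (k : ℝ) ^ 4
  set M : ℝ := ((GG k b l N).M : ℝ)
  have hK0 : 0 < K := by linarith
  have hM0 : 0 < M := lt_of_lt_of_le (by positivity) hM
  have h1 : (1 : ℝ) ≤ K ^ 5 * b ^ 2 :=
    one_le_mul_of_one_le_of_one_le (one_le_pow₀ (by linarith)) (one_le_pow₀ hb')
  have hg2 : (g : ℝ) ≤ 33 * K ^ 5 * b ^ 2 := by linarith
  have h2 : (g : ℝ) / M ≤ K ^ 2 * b / 15 := by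
    rw [div_le_iff₀ hM0]
    calc (g : ℝ) ≤ 33 * K ^ 5 * b ^ 2 := hg2
      _ ≤ K ^ 2 * b / 15 * (512 * K ^ 3 * b) := by nlinarith
      _ ≤ _ := by gcongr
  have h3 : √((b : ℝ) / M) * √(g : ℝ) ≤ K * b / 3 := by
    rw [← Real.sqrt_mul (by positivity)]
    refine Real.sqrt_le_iff.2 ⟨by positivity, ?_⟩
    calc (b : ℝ) / M * g = b * (g / M) := by ring
      _ ≤ b * (K ^ 2 * b / 15) := by gcongr
      _ ≤ _ := by nlinarith [mul_pos hK0 (show (0 : ℝ) < b by linarith)]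
  have h4 : 1 / M * g + 2 * (20 * √((b : ℝ) / M)) * √(g : ℝ) ≤ K ^ 2 * b / 6 := by
    have h5 : K * b * 200 ≤ K * b * K := mul_le_mul_of_nonneg_left (by linarith) (by positivity)
    have h6 : 1 / M * g = g / M := by ring
    nlinarith
  calc 2 * (1 / (K ^ 2 * b)) * ∑ i ∈ Ioo 0 g, (GG k b l N).φ i * (GG k b l N).φ (g - i)
      ≤ 2 * (1 / (K ^ 2 * b)) * (3 * (GG k b l N).φ g * (K ^ 2 * b / 6)) := by
        refine mul_le_mul_of_nonneg_left (hc.trans ?_) (by positivity)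
        exact mul_le_mul_of_nonneg_left h4 (by positivity)
    _ = _ := by field_simp; ring
/-- `Θ φ(N+1) ≤ 4√(N/(bM)) + 80 ≤ K + 80` -/
lemma num_theta_top (hk : 300 ≤ k) (hb : 1 ≤ b) (hN2 : N ≤ 32 * (k ^ 4) ^ 5 * b ^ 2) :
    (GG k b l N).Θ * (GG k b l N).φ (N + 1) ≤ 2 * (k : ℝ) ^ 4 := by
  have hK := StepNum_K hk
  have hb' : (1 : ℝ) ≤ b := by exact_mod_cast hb
  obtain ⟨hM, -⟩ := StepNum_Mb (l := l) (N := N) hk hb
  have hN' : (N : ℝ) ≤ 32 * ((k : ℝ) ^ 4) ^ 5 * b ^ 2 := by exact_mod_cast hN2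
  rw [StepNum_phi, StepNum_theta]
  set K := (k : ℝ) ^ 4
  set M : ℝ := ((GG k b l N).M : ℝ)
  have hK0 : 0 < K := by linarith
  have hb0 : (0 : ℝ) < b := by linarith
  have hM0 : 0 < M := lt_of_lt_of_le (by positivity) hM
  have h1 : √((N : ℝ) * M / b) ≤ K / 4 * M := by
    refine Real.sqrt_le_iff.2 ⟨by positivity, ?_⟩
    rw [div_le_iff₀ hb0]
    calc (N : ℝ) * M ≤ 32 * K ^ 5 * b ^ 2 * M := by gcongr
      _ = (K / 4) ^ 2 * M * b * (512 * K ^ 3 * b) := by ring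
      _ ≤ (K / 4) ^ 2 * M * b * M := by gcongr
      _ = _ := by ring
  have h2 : √((N : ℝ) * M / b) * √((b : ℝ) / M) ≤ √((N + 1 : ℕ) : ℝ) := by
    rw [← Real.sqrt_mul (by positivity)]
    refine Real.sqrt_le_sqrt ?_
    have : (N : ℝ) * M / b * (b / M) = N := by field_simp
    rw [this]
    push_cast
    linarith
  have h3 : 0 < √((N + 1 : ℕ) : ℝ) := Real.sqrt_pos.2 (by positivity)
  have h4 : √((N : ℝ) * M / b) * √((b : ℝ) / M) / √((N + 1 : ℕ) : ℝ) ≤ 1 := (div_le_one h3).2 h2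
  have h5 : √((N : ℝ) * M / b) / M ≤ K / 4 := by rwa [div_le_iff₀ hM0]
  calc 4 * √((N : ℝ) * M / b) * (1 / M + 20 * √((b : ℝ) / M) / √((N + 1 : ℕ) : ℝ))
      = 4 * (√((N : ℝ) * M / b) / M) +
        80 * (√((N : ℝ) * M / b) * √((b : ℝ) / M) / √((N + 1 : ℕ) : ℝ)) := by ring
    _ ≤ _ := by linarith
/-- `Θ ≤ 520 K⁴ b`, `φ(4K⁵b²) ≤ 1/(256 K³ b)` -/
lemma num_theta_gain (hk : 300 ≤ k) (hb : 1 ≤ b) (hN2 : N ≤ 32 * (k ^ 4) ^ 5 * b ^ 2) :
    (GG k b l N).Θ * (GG k b l N).φ (4 * (k ^ 4) ^ 5 * b ^ 2) ^ 2 ≤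
      1 / (100 * ((k : ℝ) ^ 4) ^ 2 * b) := by
  have hK := StepNum_K hk
  have hb' : (1 : ℝ) ≤ b := by exact_mod_cast hb
  obtain ⟨hM, hM'⟩ := StepNum_Mb (l := l) (N := N) hk hb
  have hN' : (N : ℝ) ≤ 32 * ((k : ℝ) ^ 4) ^ 5 * b ^ 2 := by exact_mod_cast hN2
  have hφ0 := StepNum_phi_nonneg k b l N (4 * (k ^ 4) ^ 5 * b ^ 2)
  have hφ : (GG k b l N).φ (4 * (k ^ 4) ^ 5 * b ^ 2) ≤ 1 / (256 * ((k : ℝ) ^ 4) ^ 3 * b) := by
    rw [StepNum_phi]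
    push_cast
    set K := (k : ℝ) ^ 4
    set M : ℝ := ((GG k b l N).M : ℝ)
    have hK0 : 0 < K := by linarith
    have hb0 : (0 : ℝ) < b := by linarith
    have hM0 : 0 < M := lt_of_lt_of_le (by positivity) hM
    have h1 : 1 / M ≤ 1 / (512 * K ^ 3 * b) := one_div_le_one_div_of_le (by positivity) hM
    have h2 : √((b : ℝ) / M) / √(4 * K ^ 5 * b ^ 2) ≤ 1 / (K ^ 4 * b) := by
      rw [← Real.sqrt_div (by positivity)]
      refine Real.sqrt_le_iff.2 ⟨by positivity, ?_⟩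
      rw [div_div, div_pow, one_pow, div_le_div_iff₀ (by positivity) (by positivity), one_mul]
      calc (b : ℝ) * (K ^ 4 * b) ^ 2 = K ^ 3 * b * (K ^ 5 * b ^ 2) := by ring
        _ ≤ M * (4 * K ^ 5 * b ^ 2) := by
          refine mul_le_mul (le_trans ?_ hM) (by nlinarith [show 0 < K ^ 5 * b ^ 2 by positivity])
            (by positivity) hM0.le
          nlinarith [show 0 < K ^ 3 * b by positivity]
    have h3 : 20 * (1 / (K ^ 4 * b)) ≤ 1 / (512 * K ^ 3 * b) := by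
      rw [mul_one_div, div_le_div_iff₀ (by positivity) (by positivity)]
      have : K ^ 3 * b * 10240 ≤ K ^ 3 * b * K := mul_le_mul_of_nonneg_left (by linarith) (by positivity)
      nlinarith
    have h4 : 1 / (256 * K ^ 3 * b) = 1 / (512 * K ^ 3 * b) + 1 / (512 * K ^ 3 * b) := by
      field_simp; ring
    rw [mul_div_assoc, h4]
    linarith
  have hΘ : (GG k b l N).Θ ≤ 520 * ((k : ℝ) ^ 4) ^ 4 * b := by
    rw [StepNum_theta]
    set K := (k : ℝ) ^ 4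
    set M : ℝ := ((GG k b l N).M : ℝ)
    have hK0 : 0 < K := by linarith
    have hb0 : (0 : ℝ) < b := by linarith
    have h1 : √((N : ℝ) * M / b) ≤ 130 * K ^ 4 * b := by
      refine Real.sqrt_le_iff.2 ⟨by positivity, ?_⟩
      rw [div_le_iff₀ hb0]
      have hM0 : 0 ≤ M := le_trans (by positivity) hM
      calc (N : ℝ) * M ≤ 32 * K ^ 5 * b ^ 2 * (513 * K ^ 3 * b) := by gcongr
        _ ≤ _ := by nlinarith [show 0 < K ^ 8 * b ^ 3 by positivity]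
    linarith
  set K := (k : ℝ) ^ 4
  have hK0 : 0 < K := by linarith
  have hb0 : (0 : ℝ) < b := by linarith
  calc (GG k b l N).Θ * (GG k b l N).φ (4 * (k ^ 4) ^ 5 * b ^ 2) ^ 2
      ≤ 520 * K ^ 4 * b * (1 / (256 * K ^ 3 * b)) ^ 2 := by gcongr
    _ = 520 / 65536 * (1 / (K ^ 2 * b)) := by field_simp; ring
    _ ≤ 1 / 100 * (1 / (K ^ 2 * b)) := mul_le_mul_of_nonneg_right (by norm_num) (by positivity)
    _ = _ := by field_simp
lemma num_phi_le_one (hk : 300 ≤ k) (hb : 1 ≤ b) : ∀ g, 1 ≤ g → (GG k b l N).φ g ≤ 1 := by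
  intro g hg
  have hK := StepNum_K hk
  have hb' : (1 : ℝ) ≤ b := by exact_mod_cast hb
  obtain ⟨hM, -⟩ := StepNum_Mb (l := l) (N := N) hk hb
  rw [StepNum_phi]
  set K := (k : ℝ) ^ 4
  set M : ℝ := ((GG k b l N).M : ℝ)
  have hK3 : K ≤ K ^ 3 := le_self_pow₀ (by linarith) (by norm_num)
  have hb0 : (0 : ℝ) < b := by linarith
  have hM1 : 1600 * b ≤ M := by nlinarith
  have hM0 : 0 < M := by linarith
  have h1 : 1 / M ≤ 1 / 2 := one_div_le_one_div_of_le (by norm_num) (by linarith)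
  have h2 : √((b : ℝ) / M) ≤ 1 / 40 := by
    refine Real.sqrt_le_iff.2 ⟨by norm_num, ?_⟩
    rw [div_le_iff₀ hM0]
    linarith
  have h3 : 1 ≤ √(g : ℝ) := Real.one_le_sqrt.2 (by exact_mod_cast hg)
  have h4 : 20 * √((b : ℝ) / M) / √(g : ℝ) ≤ 20 * √((b : ℝ) / M) := div_le_self (by positivity) h3
  linarith

/-- spectators only: `gam_sum_empty`; `∑_R wu^|R| = (1+wu)^N ≤ 2^N` -/
theorem num_spec (hk : 300 ≤ k) (hb : 1 ≤ b) (hN1 : 512 * (k ^ 4) ^ 3 * b ≤ N)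
    (hN2 : N ≤ 32 * (k ^ 4) ^ 5 * b ^ 2) {wu : ℝ} (h0 : 0 ≤ wu)
    (h1 : wu * (((k : ℝ) ^ 4) ^ 4 * b) ≤ 1) :
    ∑ R ∈ (range N).powerset.erase ∅,
      wu ^ R.card * ((GG k b l N).Θ * Gam (GG k b l N).φ N R + ((1 / 2) ^ N) ^ 2) ≤ 1 / 256 := by
  have hK := StepNum_K hk
  have hb' : (1 : ℝ) ≤ b := by exact_mod_cast hb
  obtain ⟨w1, w2, w3⟩ := StepNum_wu hk hb h0 h1
  have hN1' : 512 * ((k : ℝ) ^ 4) ^ 3 * b ≤ N := by exact_mod_cast hN1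
  have hK0 : (0 : ℝ) < (k : ℝ) ^ 4 := by linarith
  have h2 := gam_sum_empty (StepNum_phi_nonneg k b l N) N h0 w2 (by positivity)
    (num_conv (l := l) hk hb hN2)
  have h3 := num_theta_top (l := l) hk hb hN2
  have hΘ := StepNum_theta_nonneg k b l N
  have h4 : ∑ R ∈ (range N).powerset.erase ∅, wu ^ R.card * ((1 / 2 : ℝ) ^ N) ^ 2 ≤ (1 / 2) ^ N :=
    (sum_le_sum_of_subset_of_nonneg (erase_subset _ _) fun _ _ _ => by positivity).trans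
      (StepNum_sum _ subset_rfl h0 w3)
  set K := (k : ℝ) ^ 4
  have hK3 : K ≤ K ^ 3 := le_self_pow₀ (by linarith) (by norm_num)
  have hN3 : (512 : ℝ) ≤ N := by nlinarith
  have h5 : (1 / 2 : ℝ) ^ N ≤ 1 / 512 :=
    (StepNum_half N (by exact_mod_cast (show (1 : ℝ) ≤ N by linarith))).trans
      (one_div_le_one_div_of_le (by norm_num) hN3)
  have h6 : (GG k b l N).Θ * ∑ R ∈ (range N).powerset.erase ∅, wu ^ R.card * Gam (GG k b l N).φ N R ≤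
      1 / 512 := by
    calc _ ≤ (GG k b l N).Θ * (wu / (1 / (K ^ 2 * b)) * (2 * (GG k b l N).φ (N + 1))) := by gcongr
      _ = 2 * (wu * (K ^ 2 * b)) * ((GG k b l N).Θ * (GG k b l N).φ (N + 1)) := by
          rw [div_div_eq_mul_div, div_one]; ring
      _ ≤ 2 * (1 / K ^ 2) * (2 * K) := by
          have := StepNum_phi_nonneg k b l N (N + 1)
          gcongr
      _ = 4 / K := by field_simp; ring
      _ ≤ 1 / 512 := by rw [div_le_div_iff₀ hK0 (by norm_num)]; linarith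
  simp only [mul_add, sum_add_distrib]
  rw [mul_sum] at h6
  have h7 : ∑ R ∈ (range N).powerset.erase ∅, wu ^ R.card * ((GG k b l N).Θ * Gam (GG k b l N).φ N R) =
      ∑ R ∈ (range N).powerset.erase ∅, (GG k b l N).Θ * (wu ^ R.card * Gam (GG k b l N).φ N R) :=
    sum_congr rfl fun _ _ => by ring
  rw [h7]
  linarith

/-- a cluster plus spectators: `gam_sum`, `gam_cluster`, `2^N ≥ N ≥ 50 K² b` -/
theorem num_cluster (hk : 300 ≤ k) (hb : 1 ≤ b) (hN1 : 512 * (k ^ 4) ^ 3 * b ≤ N)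
    (hN2 : N ≤ 32 * (k ^ 4) ^ 5 * b ^ 2) {wu : ℝ} (h0 : 0 ≤ wu)
    (h1 : wu * (((k : ℝ) ^ 4) ^ 4 * b) ≤ 1) {S : Finset ℕ} {o : ℕ} (hne : S.Nonempty)
    (hS : S ⊆ Ico o (o + k ^ 4)) (ho : 4 * (k ^ 4) ^ 5 * b ^ 2 ≤ o)
    (hN : o + k ^ 4 + 4 * (k ^ 4) ^ 5 * b ^ 2 ≤ N) :
    ∑ R ∈ (range N \ S).powerset,
      wu ^ R.card * ((GG k b l N).Θ * Gam (GG k b l N).φ N (S ∪ R) + ((1 / 2) ^ N) ^ 2) ≤
        2 ^ S.card / (25 * ((k : ℝ) ^ 4) ^ 2 * b) := by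
  have hK := StepNum_K hk
  have hb' : (1 : ℝ) ≤ b := by exact_mod_cast hb
  obtain ⟨w1, w2, w3⟩ := StepNum_wu hk hb h0 h1
  have hN1' : 512 * ((k : ℝ) ^ 4) ^ 3 * b ≤ N := by exact_mod_cast hN1
  have hK0 : (0 : ℝ) < (k : ℝ) ^ 4 := by linarith
  have hφ := StepNum_phi_nonneg k b l N
  have hSN : S ⊆ range N := fun i hi => by
    have := mem_Ico.1 (hS hi)
    rw [mem_range]
    omega
  have h2 := gam_sum hφ N h0 (fun g hg => le_trans (mul_le_mul_of_nonneg_right (by linarith)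
    (sum_nonneg fun i _ => mul_nonneg (hφ _) (hφ _))) (num_conv (l := l) hk hb hN2 g hg)) hSN
  have hk0 : 0 < k := by omega
  have h3 := gam_cluster hφ (num_phi_le_one (l := l) (N := N) hk hb)
    (fun g g' hg hgg => ft_anti (by positivity) hg hgg) hne hS
    (show 1 ≤ 4 * (k ^ 4) ^ 5 * b ^ 2 from Nat.succ_le_of_lt (by positivity)) ho hN
  have h4 := num_theta_gain (l := l) hk hb hN2
  have hΘ := StepNum_theta_nonneg k b l N
  have h5 := StepNum_sum (range N \ S) sdiff_subset h0 w3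
  set K := (k : ℝ) ^ 4
  have hb0 : (0 : ℝ) < b := by linarith
  have hN3 : 50 * K ^ 2 * b ≤ N := by
    have : K ^ 2 * b * 1 ≤ K ^ 2 * b * K := mul_le_mul_of_nonneg_left (by linarith) (by positivity)
    nlinarith [show 0 < K ^ 2 * b by positivity]
  have hK2 : 1 ≤ K ^ 2 * b := one_le_mul_of_one_le_of_one_le (one_le_pow₀ (by linarith)) hb'
  have h6 : (1 / 2 : ℝ) ^ N ≤ 2 ^ S.card / (50 * K ^ 2 * b) :=
    (StepNum_half N (by exact_mod_cast (show (1 : ℝ) ≤ N by nlinarith))).trans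
      ((one_div_le_one_div_of_le (by positivity) hN3).trans
        (div_le_div_of_nonneg_right (one_le_pow₀ (by norm_num)) (by positivity)))
  have h7 : (GG k b l N).Θ * ∑ R ∈ (range N \ S).powerset,
      wu ^ R.card * Gam (GG k b l N).φ N (S ∪ R) ≤ 2 ^ S.card / (50 * K ^ 2 * b) := by
    calc _ ≤ (GG k b l N).Θ * (2 ^ (S.card + 1) *
          (GG k b l N).φ (4 * (k ^ 4) ^ 5 * b ^ 2) ^ 2) :=
          mul_le_mul_of_nonneg_left (h2.trans (mul_le_mul_of_nonneg_left h3 (by positivity))) hΘ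
      _ = 2 ^ (S.card + 1) * ((GG k b l N).Θ * (GG k b l N).φ (4 * (k ^ 4) ^ 5 * b ^ 2) ^ 2) := by ring
      _ ≤ 2 ^ (S.card + 1) * (1 / (100 * K ^ 2 * b)) := by gcongr
      _ = _ := by rw [pow_succ]; field_simp; ring
  simp only [mul_add, sum_add_distrib]
  rw [mul_sum] at h7
  have h8 : ∑ R ∈ (range N \ S).powerset,
      wu ^ R.card * ((GG k b l N).Θ * Gam (GG k b l N).φ N (S ∪ R)) =
      ∑ R ∈ (range N \ S).powerset,
        (GG k b l N).Θ * (wu ^ R.card * Gam (GG k b l N).φ N (S ∪ R)) :=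
    sum_congr rfl fun _ _ => by ring
  have h9 : (2 : ℝ) ^ S.card / (25 * K ^ 2 * b) =
      2 ^ S.card / (50 * K ^ 2 * b) + 2 ^ S.card / (50 * K ^ 2 * b) := by
    field_simp; ring
  rw [h8, h9]
  linarith

end

end Crest.Agent.R300L
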