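import Crest.Agent.R300L.ThmA
import Crest.Agent.R300L.StepNum
import Crest.Agent.R300L.Win
import Crest.Agent.R300L.Bit

/-!
# The core of the step: Theorem A applied to the next-level word
-/

set_option autoImplicit false
open Finset

noncomputable section
namespace Crest.Agent.R300L

variable {M : Type} [Monoid M] {p : ℕ}

lemma StepCore_pow_le {x : ℝ} {n : ℕ} (hx : 0 ≤ x) (h : n * x ≤ 1 / 16) :
    (1 + x) ^ n ≤ 9 / 8 := by
  have h1 : (1 + x) ^ n ≤ Real.exp x ^ n :=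
    pow_le_pow_left₀ (by linarith) (by linarith [Real.add_one_le_exp x]) n
  rw [← Real.exp_nat_mul] at h1
  have h0 : 0 ≤ (n : ℝ) * x := by positivity
  have h2 := Real.exp_bound_div_one_sub_of_interval h0 (by linarith)
  have h3 : 1 / (1 - (n : ℝ) * x) ≤ 9 / 8 := by
    rw [div_le_iff₀ (by linarith)]
    linarith
  linarith

lemma StepCore_tail {N p Jm : ℕ} (h : 7 * (N * p + 5) ≤ Jm) :
    20 * (9 / 10 : ℝ) ^ Jm ≤ ((1 / 2 : ℝ) ^ N) ^ p := by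
  have h1 : (9 / 10 : ℝ) ^ Jm ≤ (9 / 10 : ℝ) ^ (7 * (N * p + 5)) :=
    pow_le_pow_of_le_one (by norm_num) (by norm_num) h
  have h2 : (9 / 10 : ℝ) ^ (7 * (N * p + 5)) ≤ (1 / 2 : ℝ) ^ (N * p + 5) := by
    rw [pow_mul]
    exact pow_le_pow_left₀ (by positivity) (by norm_num) _
  rw [pow_add] at h2
  rw [← pow_mul]
  have h3 : 0 ≤ (1 / 2 : ℝ) ^ (N * p) := by positivity
  nlinarith

lemma StepCore_small {k g b N : ℕ} (hk : 300 ≤ k) (hb : 1 ≤ b)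
    (hfl : (4 * ((k : ℝ) ^ 4) ^ 5 * b) ^ 3 ≤ 2 ^ g) (hN2 : N ≤ 32 * (k ^ 4) ^ 5 * b ^ 2) :
    ((N * (2 * (256 * (k ^ 4) ^ 3 * b) + k ^ 4) : ℕ) : ℝ) * (1 / 2 : ℝ) ^ g ≤ 1 / 16 ∧
      3 * (k : ℝ) * (1 / 2 : ℝ) ^ g ≤ 1 := by
  have hk' : (300 : ℝ) ≤ k := by exact_mod_cast hk
  have hb' : (1 : ℝ) ≤ b := by exact_mod_cast hb
  have hN' : (N : ℝ) ≤ 32 * ((k : ℝ) ^ 4) ^ 5 * (b : ℝ) ^ 2 := by exact_mod_cast hN2
  have hkK : (k : ℝ) ≤ (k : ℝ) ^ 4 := le_self_pow₀ (by linarith) (by norm_num)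
  push_cast
  generalize (k : ℝ) ^ 4 = K at *
  have hK : (300 : ℝ) ≤ K := hk'.trans hkK
  have hK1 : (1 : ℝ) ≤ K := by linarith
  have h2g : (0 : ℝ) < 2 ^ g := by positivity
  have e : (1 / 2 : ℝ) ^ g = 1 / 2 ^ g := by rw [one_div_pow]
  rw [e, mul_one_div, mul_one_div, div_le_iff₀ h2g, div_le_iff₀ h2g]
  have hK3 : K ≤ K ^ 3 * b := by
    have : K ≤ K ^ 3 := le_self_pow₀ hK1 (by norm_num)
    nlinarith [pow_nonneg (by linarith : (0 : ℝ) ≤ K) 3]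
  have hb3 : (1 : ℝ) ≤ (b : ℝ) ^ 3 := one_le_pow₀ hb'
  have h7 : (300 : ℝ) ^ 7 ≤ K ^ 7 := pow_le_pow_left₀ (by norm_num) hK 7
  have h8 : 0 ≤ K ^ 8 * (b : ℝ) ^ 3 := by positivity
  have hfl' : 64 * (K ^ 7 * (K ^ 8 * (b : ℝ) ^ 3)) ≤ 2 ^ g := by
    refine le_trans (le_of_eq ?_) hfl
    ring
  have h9 : (300 : ℝ) ^ 7 * (K ^ 8 * (b : ℝ) ^ 3) ≤ K ^ 7 * (K ^ 8 * (b : ℝ) ^ 3) :=
    mul_le_mul_of_nonneg_right h7 h8
  constructor
  · have h4 : (N : ℝ) * (2 * (256 * K ^ 3 * b) + K) ≤ 32 * K ^ 5 * (b : ℝ) ^ 2 * (513 * (K ^ 3 * b)) :=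
      mul_le_mul hN' (by linarith) (by positivity) (by positivity)
    have h5 : 32 * K ^ 5 * (b : ℝ) ^ 2 * (513 * (K ^ 3 * b)) = 16416 * (K ^ 8 * (b : ℝ) ^ 3) := by
      ring
    nlinarith
  · have h4 : K ≤ K ^ 8 * (b : ℝ) ^ 3 := by
      have : K ≤ K ^ 8 := le_self_pow₀ hK1 (by norm_num)
      nlinarith [pow_nonneg (by linarith : (0 : ℝ) ≤ K) 8]
    nlinarith

/-- `h.ov` gives `r`; `l = k (r+1)`; `ovl_of_l1`, `bitL_of_ovl` (junk `2^{-k}`), `BitL.nu`,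
`NbP.of_dom_l1` with `C = 1` gives `Nb p ν Y (1/2)^g` (`p g ≤ k`).  Apply `thmA` to `GG k b l N` with
`Jm = 23 K³ N - 1`, `ηA = (1/2)^N` (`0.9^7 ≤ 1/2`, `20 ≤ 2^5`), `n ≤ 16416 K⁸ b³`, so `n p 2^{-g}` is tiny
by `hfl`.  `wu = 96 p Bu`, `96 p ≤ K`.  Second claim: `ins_next` with `S = ∅`, `ins_empty`,
`Tb_empty`, `num_spec` (`nb_indexed` with `mult = 1`).  Third claim: `win_sum`, `ins_next`,
`nb_indexed` over the sigma/filtered index set of triples (offset, `S`, `R`) with `mult = K`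
(`win_mult`), `num_cluster`.  If the `Icc` is empty the claim is trivial. -/
theorem step_core {k g b : ℕ} (hk : 300 ≤ k) (hp : Even p) (hp2 : 2 ≤ p) (hg : 1 ≤ g)
    (hpg : p * g ≤ k) {η η' : Finset ℕ} (hη : η ⊆ range (k ^ 4)) {U D : Al M} {B Bu : ℝ}
    (h : Lvl p k b η η' U D B Bu) (hB0 : 0 ≤ B) (hBu0 : 0 ≤ Bu)
    (hBu : Bu * b * ((k : ℝ) ^ 4) ^ 5 ≤ 1) (hfl : (4 * ((k : ℝ) ^ 4) ^ 5 * b) ^ 3 ≤ 2 ^ g) {N : ℕ}
    (hN1 : 512 * (k ^ 4) ^ 3 * b ≤ N) (hN2 : N ≤ 32 * (k ^ 4) ^ 5 * b ^ 2) :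
    ∃ Rb : Al M, IsProb Rb ∧
      Nb p Rb (U ^ (N * (2 * (256 * (k ^ 4) ^ 3 * b) + k ^ 4)) - Rb) (1 / 8) ∧
      Nb p Rb (nextU U D (k ^ 4) (256 * (k ^ 4) ^ 3 * b) η ^ N -
        U ^ (N * (2 * (256 * (k ^ 4) ^ 3 * b) + k ^ 4))) (1 / 8) ∧
      ∀ (coef : Finset ℕ → ℝ) (c : ℕ → ℝ), coef ∅ = 0 →
        Nb p Rb
          (∑ o ∈ Icc (4 * (k ^ 4) ^ 5 * b ^ 2) (N - k ^ 4 - 4 * (k ^ 4) ^ 5 * b ^ 2), c o •
            (nextU U D (k ^ 4) (256 * (k ^ 4) ^ 3 * b) η ^ o *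
              Wop (nextU U D (k ^ 4) (256 * (k ^ 4) ^ 3 * b) η)
                (nextD U D (k ^ 4) (256 * (k ^ 4) ^ 3 * b) η η') (k ^ 4) coef *
              nextU U D (k ^ 4) (256 * (k ^ 4) ^ 3 * b) η ^ (N - k ^ 4 - o)))
          (√(∑ o ∈ Icc (4 * (k ^ 4) ^ 5 * b ^ 2) (N - k ^ 4 - 4 * (k ^ 4) ^ 5 * b ^ 2),
            (1 / (6 * (k : ℝ) ^ 4 * b) *
              ∑ S ∈ (range (k ^ 4)).powerset, coef S ^ 2 * (192 * p * B) ^ S.card) * c o ^ 2)) := by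
  obtain ⟨r, hr, hov⟩ := h.ov
  have hp1 : 1 ≤ p := by omega
  have hpk : p ≤ k := le_trans (Nat.le_mul_of_pos_right p hg) hpg
  have hkK : k ≤ k ^ 4 := Nat.le_self_pow (by norm_num) k
  have hK1 : 1 ≤ k ^ 4 := by omega
  have hKK : k ^ 4 ≤ (k ^ 4) ^ 3 := Nat.le_self_pow (by norm_num) _
  have hb : 1 ≤ b := by omega
  have hKb : 1 ≤ (k ^ 4) ^ 3 * b := Nat.mul_pos (by omega) hb
  have hN0 : 1 ≤ N := by nlinarith
  have hU := h.prob
  rw [l1_sub_comm] at hov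
  obtain ⟨ν, Y, hν, hY0, hYd, hYl, hbit⟩ :=
    (bitL_of_ovl hU (ovl_of_l1 (hU.pow r) (hU.pow (r + 1)) hov) k).nu hU
  have hY : Nb p ν Y ((1 / 2 : ℝ) ^ g) := by
    refine ⟨by positivity, (NbP.of_dom_l1 hp1 hν.1 zero_le_one (by rwa [one_smul]) hYl).mono ?_⟩
    rw [one_pow, one_mul, ← pow_mul, show (1 - 1 / 2 : ℝ) = 1 / 2 by norm_num]
    exact pow_le_pow_of_le_one (by norm_num) (by norm_num) (by rwa [mul_comm])
  obtain ⟨hsm1, hsm2⟩ := StepCore_small hk hb hfl hN2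
  have hη0 : (0 : ℝ) ≤ (1 / 2 : ℝ) ^ g := by positivity
  have hpow := StepCore_pow_le hη0 hsm1
  have hpk' : (p : ℝ) ≤ k := by exact_mod_cast hpk
  have hp0 : (0 : ℝ) ≤ p := Nat.cast_nonneg p
  have hk' : (300 : ℝ) ≤ k := by exact_mod_cast hk
  have hb' : (1 : ℝ) ≤ b := by exact_mod_cast hb
  set G : PP := GG k b (k * (r + 1)) N with hG
  set E : Bool → Al M := fun t => if t then Wop U D (k ^ 4) (cd η η') else Wop U D (k ^ 4) (cu η)
    with hE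
  set Bs : Bool → ℝ := fun t => if t then B else Bu with hBs
  have hGood : G.Good := by
    refine ⟨hr, ?_, hK1, hN0⟩
    show 10 * b ≤ 256 * (k ^ 4) ^ 3 * b
    exact Nat.mul_le_mul_right b (by omega)
  have hKN : 3 ≤ (k ^ 4) ^ 3 * N := by nlinarith
  obtain ⟨Rb, hRb, hA1, hA2⟩ := G.thmA (E := E) (Bs := Bs) (Jm := 23 * ((k ^ 4) ^ 3 * N) - 1)
    (ηA := (1 / 2 : ℝ) ^ N) hp hp2 hGood hU hν hY0 hY hbit
    (fun t => by
      cases t
      · exact mass_Wop U h.mass0 _ (cu_empty η)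
      · exact mass_Wop U h.mass0 _ (cd_empty η η'))
    (fun t => by cases t; exacts [hBu0, hB0])
    (fun t => by cases t; exacts [h.bu4, h.bd4])
    (fun t => by cases t; exacts [h.bu8, h.bd8])
    (by
      refine le_trans (pow_le_pow_left₀ (by positivity) ?_ _) (hpow.trans (by norm_num))
      have : 3 * (p : ℝ) * (1 / 2 : ℝ) ^ g ≤ 1 := by nlinarith
      nlinarith)
    (by omega)
    (by
      show 22 * b * (23 * ((k ^ 4) ^ 3 * N) - 1 + 1) ≤ N * (2 * (256 * (k ^ 4) ^ 3 * b) + k ^ 4)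
      rw [Nat.sub_add_cancel (by omega)]
      have : 22 * b * (23 * ((k ^ 4) ^ 3 * N)) = N * (506 * ((k ^ 4) ^ 3 * b)) := by ring
      rw [this]
      refine Nat.mul_le_mul_left N ?_
      have : 2 * (256 * (k ^ 4) ^ 3 * b) = 512 * ((k ^ 4) ^ 3 * b) := by ring
      omega)
    (by positivity)
    (StepCore_tail (by
      have : N * p ≤ (k ^ 4) ^ 3 * N := by
        rw [mul_comm]
        exact Nat.mul_le_mul_right N (by omega)
      omega))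
  set F : Cfg → ℝ := fun κ => wt p Bs κ * (G.Θ * Gam G.φ N (occ κ) + ((1 / 2 : ℝ) ^ N) ^ 2)
    with hF
  have hφ : ∀ g, 0 ≤ G.φ g := fun g => ft_nonneg (by positivity) (by positivity) g
  have hΘ : 0 ≤ G.Θ := by unfold PP.Θ; positivity
  have hin : ∀ S, 0 ≤ G.Θ * Gam G.φ N S + ((1 / 2 : ℝ) ^ N) ^ 2 := fun S =>
    add_nonneg (mul_nonneg hΘ (Gam_nonneg hφ N S)) (by positivity)
  have hF0 : ∀ κ, G.Adm κ → 0 ≤ F κ := fun κ _ => by
    refine mul_nonneg ?_ (hin _)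
    show 0 ≤ (96 * p * B) ^ κ.1.card * (96 * p * Bu) ^ κ.2.card
    positivity
  have hA3 : ∀ (𝒦 : Finset Cfg) (c : Cfg → ℝ), (∀ κ ∈ 𝒦, G.Adm κ) →
      Nb p Rb (∑ κ ∈ 𝒦, c κ • G.Tb U E κ) (√(4 * ∑ κ ∈ 𝒦, c κ ^ 2 * F κ)) := by
    intro 𝒦 c hc
    have := hA2 𝒦 c hc
    simp only [mul_assoc (c _ ^ 2)] at this
    exact this
  have hwu0 : 0 ≤ 96 * (p : ℝ) * Bu := by positivity
  have hwu : 96 * (p : ℝ) * Bu * (((k : ℝ) ^ 4) ^ 4 * b) ≤ 1 := by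
    have h1 : 96 * (p : ℝ) ≤ (k : ℝ) ^ 4 := by
      have : (300 : ℝ) ^ 3 ≤ (k : ℝ) ^ 3 := pow_le_pow_left₀ (by norm_num) hk' 3
      nlinarith
    have h2 : 0 ≤ Bu * (((k : ℝ) ^ 4) ^ 4 * b) := by positivity
    calc 96 * (p : ℝ) * Bu * (((k : ℝ) ^ 4) ^ 4 * b)
        = 96 * (p : ℝ) * (Bu * (((k : ℝ) ^ 4) ^ 4 * b)) := by ring
      _ ≤ (k : ℝ) ^ 4 * (Bu * (((k : ℝ) ^ 4) ^ 4 * b)) := mul_le_mul_of_nonneg_right h1 h2
      _ = Bu * b * ((k : ℝ) ^ 4) ^ 5 := by ring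
      _ ≤ 1 := hBu
  have hnext : ∀ S : Finset ℕ, S ⊆ range N →
      ins (nextU U D (k ^ 4) (256 * (k ^ 4) ^ 3 * b) η)
        (nextD U D (k ^ 4) (256 * (k ^ 4) ^ 3 * b) η η') N S =
        ∑ R ∈ (range N \ S).powerset, G.Tb U E (S, R) := fun S hS => ins_next U D G η' hη hS
  refine ⟨Rb, hRb, hA1.mono (by
    have : (1 + (1 / 2 : ℝ) ^ g) ^ G.n ≤ 9 / 8 := hpow
    linarith), ?_, fun coef c h0 => ?_⟩
  · have e1 := hnext ∅ (empty_subset _)
    rw [ins_empty, sdiff_empty, ← add_sum_erase _ _ (empty_mem_powerset _), Tb_empty] at e1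
    have e2 : nextU U D (k ^ 4) (256 * (k ^ 4) ^ 3 * b) η ^ N -
        U ^ (N * (2 * (256 * (k ^ 4) ^ 3 * b) + k ^ 4)) =
        ∑ R ∈ (range N).powerset.erase ∅, (1 : ℝ) • G.Tb U E (∅, R) := by
      rw [e1]
      simp only [one_smul]
      exact add_sub_cancel_left _ _
    rw [e2]
    refine (nb_indexed (G.Tb U E) G.Adm F hF0 hA3 ((range N).powerset.erase ∅)
      (fun R => (∅, R)) (fun _ => 1) (fun R hR => ⟨disjoint_empty_left _, ?_⟩) 1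
      (fun R _ => ?_)).mono ?_
    · show ∅ ∪ R ⊆ range N
      rw [empty_union]
      exact mem_powerset.1 (mem_of_mem_erase hR)
    · rw [Nat.cast_le_one, card_le_one]
      intro a ha a' ha'
      have h1 := (mem_filter.1 ha).2
      have h2 := (mem_filter.1 ha').2
      exact (Prod.mk.inj (h1.trans h2.symm)).2
    · have h1 := num_spec (l := k * (r + 1)) hk hb hN1 hN2 hwu0 hwu
      have h2 : ∑ R ∈ (range N).powerset.erase ∅, (1 : ℝ) ^ 2 * F (∅, R) =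
          ∑ R ∈ (range N).powerset.erase ∅, (96 * (p : ℝ) * Bu) ^ R.card *
            (G.Θ * Gam G.φ N R + ((1 / 2 : ℝ) ^ N) ^ 2) := by
        refine sum_congr rfl fun R _ => ?_
        simp [hF, hBs, wt, occ]
      rw [h2, Real.sqrt_le_left (by norm_num)]
      linarith
  · rcases (Icc (4 * (k ^ 4) ^ 5 * b ^ 2) (N - k ^ 4 - 4 * (k ^ 4) ^ 5 * b ^ 2)).eq_empty_or_nonempty
      with he | ⟨o₀, ho₀⟩
    · rw [he, sum_empty]
      exact Nb.zero hp1 _ (Real.sqrt_nonneg _)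
    have hb1 : 1 ≤ 4 * (k ^ 4) ^ 5 * b ^ 2 := Nat.succ_le_of_lt (by positivity)
    have hnc := fun (S : Finset ℕ) (o : ℕ) =>
      num_cluster (l := k * (r + 1)) (S := S) (o := o) hk hb hN1 hN2 hwu0 hwu
    generalize 4 * (k ^ 4) ^ 5 * b ^ 2 = b' at ho₀ hb1 hnc ⊢
    have hNb : k ^ 4 + b' ≤ N := by
      have := mem_Icc.1 ho₀
      omega
    rw [win_sum _ _ _ _ _ h0 c hNb]
    set s := Icc b' (N - k ^ 4 - b') ×ˢ (range (k ^ 4)).powerset.erase ∅ with hs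
    set sh : ℕ × Finset ℕ → Finset ℕ := fun a => a.2.image (· + a.1) with hsh
    have hmem : ∀ a ∈ s, b' ≤ a.1 ∧ a.1 + k ^ 4 + b' ≤ N ∧ (sh a).Nonempty ∧
        sh a ⊆ Ico a.1 (a.1 + k ^ 4) := by
      intro a ha
      obtain ⟨h1, h2⟩ := mem_product.1 ha
      obtain ⟨h3, h4⟩ := mem_Icc.1 h1
      obtain ⟨h5, h6⟩ := mem_erase.1 h2
      refine ⟨h3, by omega, (nonempty_iff_ne_empty.2 h5).image _, fun x hx => ?_⟩
      obtain ⟨y, hy, rfl⟩ := mem_image.1 hx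
      have := mem_range.1 (mem_powerset.1 h6 hy)
      rw [mem_Ico]
      omega
    have hsub : ∀ a ∈ s, sh a ⊆ range N := fun a ha x hx => by
      obtain ⟨-, h2, -, h4⟩ := hmem a ha
      have := mem_Ico.1 (h4 hx)
      rw [mem_range]
      omega
    have e1 : ∑ a ∈ s, (c a.1 * coef a.2) •
        ins (nextU U D (k ^ 4) (256 * (k ^ 4) ^ 3 * b) η)
          (nextD U D (k ^ 4) (256 * (k ^ 4) ^ 3 * b) η η') N (a.2.image (· + a.1)) =
        ∑ x ∈ s.sigma (fun a => (range N \ sh a).powerset),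
          (c x.1.1 * coef x.1.2) • G.Tb U E (sh x.1, x.2) := by
      rw [sum_sigma]
      refine sum_congr rfl fun a ha => ?_
      dsimp only
      rw [← smul_sum, ← hnext _ (hsub a ha)]
    rw [e1]
    refine (nb_indexed (G.Tb U E) G.Adm F hF0 hA3 (s.sigma fun a => (range N \ sh a).powerset)
      (fun x => (sh x.1, x.2)) (fun x => c x.1.1 * coef x.1.2) (fun x hx => ?_) ((k : ℝ) ^ 4)
      (fun x hx => ?_)).mono ?_
    · obtain ⟨h1, h2⟩ := mem_sigma.1 hx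
      have h3 := mem_powerset.1 h2
      refine ⟨disjoint_left.2 fun y hy hy' => (mem_sdiff.1 (h3 hy')).2 hy, ?_⟩
      exact union_subset (hsub _ h1) (h3.trans sdiff_subset)
    · have h1 := win_mult (k ^ 4) (Icc b' (N - k ^ 4 - b')) (mem_sigma.1 hx).1
      have h2 : ((s.sigma fun a => (range N \ sh a).powerset).filter
          fun x' => ((sh x'.1, x'.2) : Cfg) = (sh x.1, x.2)).card ≤ k ^ 4 := by
        refine le_trans (card_le_card_of_injOn (fun x' => x'.1) ?_ ?_) h1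
        · intro y hy
          obtain ⟨h3, h4⟩ := mem_filter.1 (mem_coe.1 hy)
          exact mem_coe.2 (mem_filter.2 ⟨(mem_sigma.1 h3).1, (Prod.mk.inj h4).1⟩)
        · rintro ⟨y, R⟩ hy ⟨y', R'⟩ hy' e
          have h3 := (Prod.mk.inj (mem_filter.1 (mem_coe.1 hy)).2).2
          have h4 := (Prod.mk.inj (mem_filter.1 (mem_coe.1 hy')).2).2
          dsimp only at e h3 h4
          rw [e, h3, h4]
      exact_mod_cast h2
    · refine Real.sqrt_le_sqrt ?_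
      have hK0 : (0 : ℝ) < (k : ℝ) ^ 4 := by positivity
      have h1 : ∀ a ∈ s, ∑ R ∈ (range N \ sh a).powerset, (c a.1 * coef a.2) ^ 2 * F (sh a, R) ≤
          1 / (25 * ((k : ℝ) ^ 4) ^ 2 * b) *
            (coef a.2 ^ 2 * (192 * p * B) ^ a.2.card * c a.1 ^ 2) := by
        intro a ha
        obtain ⟨h2, h3, h4, h5⟩ := hmem a ha
        have h6 := hnc (sh a) a.1 h4 h5 h2 h3
        have hc : (sh a).card = a.2.card := card_image_of_injective _ (add_left_injective a.1)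
        have h7 : ∑ R ∈ (range N \ sh a).powerset, (c a.1 * coef a.2) ^ 2 * F (sh a, R) =
            (c a.1 * coef a.2) ^ 2 * (96 * p * B) ^ a.2.card *
              ∑ R ∈ (range N \ sh a).powerset, (96 * (p : ℝ) * Bu) ^ R.card *
                (G.Θ * Gam G.φ N (sh a ∪ R) + ((1 / 2 : ℝ) ^ N) ^ 2) := by
          rw [mul_sum]
          refine sum_congr rfl fun R _ => ?_
          simp only [hF, hBs, wt, occ, hc, if_true, Bool.false_eq_true, if_false]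
          ring
        rw [h7]
        refine (mul_le_mul_of_nonneg_left h6 (by positivity)).trans (le_of_eq ?_)
        rw [hc, show (192 * p * B : ℝ) = 2 * (96 * p * B) by ring, mul_pow 2]
        ring
      rw [sum_sigma]
      have h2 := sum_le_sum h1
      rw [← mul_sum] at h2
      have h3 : ∑ a ∈ s, coef a.2 ^ 2 * (192 * p * B) ^ a.2.card * c a.1 ^ 2 =
          ∑ o ∈ Icc b' (N - k ^ 4 - b'),
            (∑ S ∈ (range (k ^ 4)).powerset, coef S ^ 2 * (192 * p * B) ^ S.card) * c o ^ 2 := by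
        rw [hs, sum_product]
        refine sum_congr rfl fun o _ => ?_
        dsimp only
        rw [sum_mul, sum_erase _ (by rw [h0]; ring)]
      rw [h3] at h2
      have h4 : 0 ≤ ∑ o ∈ Icc b' (N - k ^ 4 - b'),
          (∑ S ∈ (range (k ^ 4)).powerset, coef S ^ 2 * (192 * p * B) ^ S.card) * c o ^ 2 :=
        sum_nonneg fun o _ => mul_nonneg (sum_nonneg fun S _ => by positivity) (sq_nonneg _)
      simp only [mul_assoc (1 / (6 * (k : ℝ) ^ 4 * b))]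
      rw [← mul_sum]
      refine le_trans (mul_le_mul_of_nonneg_left (mul_le_mul_of_nonneg_left h2 hK0.le)
        (by norm_num)) ?_
      rw [← mul_assoc, ← mul_assoc]
      refine mul_le_mul_of_nonneg_right ?_ h4
      rw [mul_one_div, div_le_div_iff₀ (by positivity) (by positivity)]
      have : 0 ≤ ((k : ℝ) ^ 4) ^ 2 * b := by positivity
      nlinarith

end Crest.Agent.R300L
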