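import Crest.Agent.R300L.Atom
import Crest.Agent.R300L.Parse

/-!
# Theorem A: window operators hidden in a long background
-/

set_option autoImplicit false
open Finset

noncomputable section
namespace Crest.Agent.R300L

lemma ThmA_cnt_sub {ξ : Finset ℕ} {J : ℕ} (h : ξ ⊆ range J) : cnt ξ J = ξ.card := by
  unfold cnt
  rw [filter_true_of_mem fun i hi => mem_range.1 (h hi)]

lemma ThmA_cnt_insert (ξ : Finset ℕ) (J : ℕ) : cnt (insert J ξ) J = cnt ξ J :=
  cnt_congr fun i hi => by simp [hi.ne]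

lemma ThmA_atyp (J : ℕ) : ∑ ξ ∈ (range (J + 1)).powerset,
    (if ¬(J ≤ 4 * cnt ξ J ∧ 4 * cnt ξ J ≤ 3 * J) then (1 : ℝ) else 0) ≤ 4 * (9 / 5) ^ J := by
  have h1 : ∑ ξ ∈ (range J).powerset,
      (if ¬(J ≤ 4 * cnt ξ J ∧ 4 * cnt ξ J ≤ 3 * J) then (1 : ℝ) else 0) ≤ 2 * (9 / 5) ^ J := by
    refine le_trans (le_of_eq ?_) (card_atyp J)
    rw [card_filter]
    push_cast
    refine sum_congr rfl fun ξ hξ => ?_
    rw [ThmA_cnt_sub (mem_powerset.1 hξ)]
  rw [range_add_one, sum_powerset_insert notMem_range_self]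
  simp only [ThmA_cnt_insert]
  linarith

lemma ThmA_fib {A : Type} [AddCommMonoid A] (J : ℕ) (f : Finset ℕ → A) :
    ∑ ξ ∈ (range (J + 1)).powerset, f ξ =
      ∑ a ∈ range (J + 1) ×ˢ (univ : Finset Bool), ∑ ξ ∈ slice J a.1 a.2, f ξ := by
  rw [← sum_fiberwise_of_maps_to (t := range (J + 1) ×ˢ (univ : Finset Bool))
    (g := fun ξ => (cnt ξ J, decide (J ∈ ξ)))
    (fun ξ _ => mem_product.2 ⟨mem_range.2 (Nat.lt_succ_of_le (cnt_le ξ J)), mem_univ _⟩)]
  refine sum_congr rfl fun a _ => sum_congr ?_ fun _ _ => rfl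
  unfold slice
  refine filter_congr fun ξ _ => ?_
  obtain ⟨S, e⟩ := a
  cases e <;> simp

lemma ThmA_nbp_zero {M : Type} (p : ℕ) : NbP p (0 : Al M) 0 0 :=
  ⟨fun _ => 0, fun τ => by simp, by rw [ex_zero]⟩

namespace PP
variable (G : PP) {M : Type} [Monoid M] {p : ℕ}

/-- total weight of the valid paths with atypical hidden sum (`Valid.bounds` gives `Jm ≤ J'`;
`card_atyp`; geometric series) -/
lemma atyp_mass (hG : G.Good) {Jm : ℕ} (hJm : 22 * G.b * (Jm + 1) ≤ G.n) :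
    ∑ J' ∈ range G.n, ∑ ω ∈ (range (J' + 1)).powerset, ∑ ξ ∈ (range (J' + 1)).powerset,
      (if G.Valid (J' + 1) ω ξ ∧ ¬(J' ≤ 4 * cnt ξ J' ∧ 4 * cnt ξ J' ≤ 3 * J') then
        (1 / 4 : ℝ) ^ (J' + 1) else 0) ≤ 20 * (9 / 10) ^ Jm := by
  have hb : 1 ≤ G.b := by have := hG.1; omega
  calc _ ≤ ∑ J' ∈ range G.n, (if Jm ≤ J' then 2 * (9 / 10 : ℝ) ^ J' else 0) := by
        refine sum_le_sum fun J' _ => ?_
        split_ifs with hJ
        · calc _ ≤ ∑ ω ∈ (range (J' + 1)).powerset, (1 / 4 : ℝ) ^ (J' + 1) * (4 * (9 / 5) ^ J') := by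
                refine sum_le_sum fun ω _ => ?_
                refine le_trans ?_ (mul_le_mul_of_nonneg_left (ThmA_atyp J') (by positivity))
                rw [mul_sum]
                refine sum_le_sum fun ξ _ => ?_
                by_cases h1 : ¬(J' ≤ 4 * cnt ξ J' ∧ 4 * cnt ξ J' ≤ 3 * J')
                · rw [if_pos h1, mul_one]
                  split_ifs
                  · exact le_rfl
                  · positivity
                · rw [if_neg h1, if_neg fun h => h1 h.2, mul_zero]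
            _ = _ := by
                rw [sum_const, card_powerset, card_range, nsmul_eq_mul]
                push_cast
                have : (9 / 10 : ℝ) ^ J' = 2 ^ J' * (1 / 4) ^ J' * (9 / 5) ^ J' := by
                  rw [← mul_pow, ← mul_pow]; norm_num
                rw [this]
                ring
        · refine le_of_eq (sum_eq_zero fun ω _ => sum_eq_zero fun ξ _ => if_neg fun h => hJ ?_)
          have h1 := (Valid.bounds G hG h.1).2.2.2
          have h2 : 22 * G.b * (Jm + 1) ≤ 22 * G.b * (J' + 1) := hJm.trans h1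
          have := Nat.le_of_mul_le_mul_left h2 (by omega)
          omega
    _ = 2 * ∑ J' ∈ Ico Jm G.n, (9 / 10 : ℝ) ^ J' := by
        rw [← sum_filter, mul_sum]
        refine sum_congr ?_ fun _ _ => rfl
        ext j
        simp [and_comm]
    _ ≤ 2 * ((9 / 10 : ℝ) ^ Jm / (1 - 9 / 10)) :=
        mul_le_mul_of_nonneg_left (geom_sum_Ico_le_of_lt_one (by norm_num) (by norm_num))
          (by norm_num)
    _ = _ := by ring

lemma ThmA_ref {U ν : Al M} (hU : IsProb U) (hν : IsProb ν) (J : ℕ) (ω ξ : Finset ℕ) :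
    IsProb (G.ref U ν J ω ξ) :=
  (IsProb.pr fun _ _ _ => (hU.pow _).mul hν).mul (hU.pow _)

lemma ThmA_Tb0 (U : Al M) (E : Bool → Al M) : G.Tb U E (∅, ∅) = U ^ G.n := by
  unfold Tb
  simp only [notMem_empty, if_false]
  rw [pr_const, ← pow_add, ← pow_add, ← pow_mul]
  congr 1
  unfold n PP.M
  ring

lemma ThmA_term0 (hp : 1 ≤ p) {U ν Y : Al M} (hU : IsProb U) (hν : IsProb ν) {η : ℝ}
    (hY : Nb p ν Y η) (E : Bool → Al M) (J : ℕ) (ω ξ : Finset ℕ) :
    Nb p (G.ref U ν J ω ξ) (G.term U E ν Y (∅, ∅) J ω ξ - G.ref U ν J ω ξ) ((1 + η) ^ J - 1) := by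
  have hz : ∀ j, G.zl (∅, ∅) ω ξ j = none := fun j => by simp [zl, occ]
  have h1 := Nb.pr_sub hp (R := fun j => U ^ G.chunk ω j * ν)
    (X := fun j => U ^ G.chunk ω j * ((if j ∈ ξ then (1 : ℝ) else -1) • Y)) (η := η)
    (fun j => (hU.pow _).mul hν)
    (fun j => by
      have := (hY.smul (if j ∈ ξ then (1 : ℝ) else -1)).mul_left hp hν.1 (hU.pow (G.chunk ω j))
      have e : |(if j ∈ ξ then (1 : ℝ) else -1)| = 1 := by split_ifs <;> simp
      rwa [e, one_mul] at this) 0 J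
  have h2 := h1.mul_right hp (IsProb.pr fun _ _ _ => (hU.pow _).mul hν).1
    (hU.pow (G.n - G.pos ω ξ J))
  unfold term ref
  simp only [hz, Option.elim_none, mul_add]
  rw [← sub_mul]
  exact h2

/-- one atom, with the weights of the paths -/
lemma ThmA_atom {U ν : Al M} (X : Finset ℕ → Al M) {J' S : ℕ} {e : Bool} {ω : Finset ℕ} {β w : ℝ}
    (hw : 0 ≤ w)
    (h : ∀ ξ₀ ∈ slice J' S e, G.Valid (J' + 1) ω ξ₀ → Nb p (G.ref U ν (J' + 1) ω ξ₀)
      (∑ ξ ∈ slice J' S e, (1 / ((slice J' S e).card : ℝ)) • X ξ) β) :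
    NbP p (∑ ξ ∈ slice J' S e, if G.Valid (J' + 1) ω ξ then w • G.ref U ν (J' + 1) ω ξ else 0)
      (∑ ξ ∈ slice J' S e, if G.Valid (J' + 1) ω ξ then w • X ξ else 0)
      (∑ ξ ∈ slice J' S e, if G.Valid (J' + 1) ω ξ then w * β ^ p else 0) := by
  by_cases hv : ∃ ξ₀ ∈ slice J' S e, G.Valid (J' + 1) ω ξ₀
  · obtain ⟨ξ₀, hξ₀, hV⟩ := hv
    have hall : ∀ ξ ∈ slice J' S e, G.Valid (J' + 1) ω ξ := fun ξ hξ =>
      (G.valid_slice hξ₀ hξ).2 hV
    have hc : (0 : ℝ) < (slice J' S e).card := by exact_mod_cast card_pos.2 ⟨ξ₀, hξ₀⟩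
    have h1 := (h ξ₀ hξ₀ hV).2.smul_both (c := (slice J' S e).card * w) (by positivity)
    have e1 : (∑ ξ ∈ slice J' S e,
        if G.Valid (J' + 1) ω ξ then w • G.ref U ν (J' + 1) ω ξ else 0) =
        (((slice J' S e).card : ℝ) * w) • G.ref U ν (J' + 1) ω ξ₀ := by
      rw [sum_congr rfl (g := fun _ => w • G.ref U ν (J' + 1) ω ξ₀) fun ξ hξ => by
        rw [if_pos (hall ξ hξ)]
        unfold ref
        rw [(G.valid_slice hξ₀ hξ).1]]
      rw [sum_const, ← Nat.cast_smul_eq_nsmul ℝ, smul_smul]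
    have e2 : (∑ ξ ∈ slice J' S e, if G.Valid (J' + 1) ω ξ then w • X ξ else 0) =
        (((slice J' S e).card : ℝ) * w) •
          ∑ ξ ∈ slice J' S e, (1 / ((slice J' S e).card : ℝ)) • X ξ := by
      rw [smul_sum]
      refine sum_congr rfl fun ξ hξ => ?_
      rw [if_pos (hall ξ hξ), smul_smul]
      congr 1
      field_simp
    have e3 : (∑ ξ ∈ slice J' S e, if G.Valid (J' + 1) ω ξ then w * β ^ p else 0) =
        ((slice J' S e).card * w) * β ^ p := by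
      rw [sum_congr rfl (g := fun _ => w * β ^ p) fun ξ hξ => if_pos (hall ξ hξ), sum_const,
        nsmul_eq_mul, mul_assoc]
    rw [e1, e2, e3]
    exact h1
  · push Not at hv
    rw [sum_eq_zero fun ξ hξ => if_neg (hv ξ hξ), sum_eq_zero fun ξ hξ => if_neg (hv ξ hξ),
      sum_eq_zero fun ξ hξ => if_neg (hv ξ hξ)]
    exact ThmA_nbp_zero p

lemma ThmA_shift (hG : G.Good) {A : Type} [AddCommMonoid A] (f : ℕ → Finset ℕ → Finset ℕ → A) :
    ∑ J ∈ range (G.n + 1), ∑ ω ∈ (range J).powerset, ∑ ξ ∈ (range J).powerset,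
      (if G.Valid J ω ξ then f J ω ξ else 0) =
    ∑ J' ∈ range G.n, ∑ ω ∈ (range (J' + 1)).powerset, ∑ ξ ∈ (range (J' + 1)).powerset,
      (if G.Valid (J' + 1) ω ξ then f (J' + 1) ω ξ else 0) := by
  rw [sum_range_succ', sum_eq_zero (s := (range 0).powerset) fun ω _ => sum_eq_zero fun ξ _ =>
    if_neg fun h => absurd (Valid.bounds G hG h).1 (by omega), add_zero]

/-- `Rb = ∑_{valid paths} 4^{-J} • ref`.  (a) `parse` for `κ = (∅,∅)` (`zl = none`, `h = 1`),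
`Nb.pr_sub` with `X j = U^chunk * (± Y)`, `Nb.mix_const`, `J ≤ n`.  (b) `parse` for every `κ`; group
the paths into atoms `(J', ω, S, e)` (`J = J'+1` as `Valid` forces `J ≥ 1`; fibres of
`ξ ↦ (cnt ξ J', decide (J' ∈ ξ))`); `atom` with `Γ = Θ Gam` (`mates_typ`) on typical atoms and `Γ = 1`
(`mates_le`) otherwise; `NbP.smul_both`, `NbP.mix`; total `≤ βt^p + ηA^p βa^p ≤ (βt² + ηA² βa²)^{p/2}`. -/
theorem thmA (hp : Even p) (hp2 : 2 ≤ p) (hG : G.Good) {U ν Y : Al M} (hU : IsProb U)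
    (hν : IsProb ν) (hY0 : mass Y = 0) {η : ℝ} (hY : Nb p ν Y η)
    (hbit : U ^ (G.l + 1) = (1 / 2 : ℝ) • ((ν - Y) * U) + (1 / 2 : ℝ) • (ν + Y))
    {E : Bool → Al M} (hE0 : ∀ t, mass (E t) = 0) {Bs : Bool → ℝ} (hBs : ∀ t, 0 ≤ Bs t)
    (h4 : ∀ t, Bes p U (E t) G.K G.b (4 * G.b) (Bs t))
    (h8 : ∀ t, Bes p U (E t) G.K G.b (8 * G.b) (Bs t)) (hjunk : (1 + 3 * p * η ^ 2) ^ G.n ≤ 2)
    {Jm : ℕ} (hJm1 : 1 ≤ Jm) (hJm : 22 * G.b * (Jm + 1) ≤ G.n) {ηA : ℝ} (hA0 : 0 ≤ ηA)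
    (hA : 20 * (9 / 10) ^ Jm ≤ ηA ^ p) :
    ∃ Rb : Al M, IsProb Rb ∧ Nb p Rb (U ^ G.n - Rb) ((1 + η) ^ G.n - 1) ∧
      ∀ (𝒦 : Finset Cfg) (c : Cfg → ℝ), (∀ κ ∈ 𝒦, G.Adm κ) →
        Nb p Rb (∑ κ ∈ 𝒦, c κ • G.Tb U E κ)
          (√(4 * ∑ κ ∈ 𝒦, c κ ^ 2 * wt p Bs κ * (G.Θ * Gam G.φ G.N (occ κ) + ηA ^ 2))) := by
  have hp1 : 1 ≤ p := by omega
  have hb : 1 ≤ G.b := by have := hG.1; omega
  have hη : 0 ≤ η := hY.1
  have hnn : ∀ J ω ξ, NN (if G.Valid J ω ξ then (1 / 4 : ℝ) ^ J • G.ref U ν J ω ξ else 0) := by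
    intro J ω ξ
    split_ifs
    · exact (G.ThmA_ref hU hν J ω ξ).1.smul (by positivity)
    · exact NN.zero
  refine ⟨∑ J ∈ range (G.n + 1), ∑ ω ∈ (range J).powerset, ∑ ξ ∈ (range J).powerset,
      if G.Valid J ω ξ then (1 / 4 : ℝ) ^ J • G.ref U ν J ω ξ else 0, ⟨?_, ?_⟩, ⟨?_, ?_⟩,
      fun 𝒦 c h𝒦 => ?_⟩
  · exact NN.sum fun J _ => NN.sum fun ω _ => NN.sum fun ξ _ => hnn J ω ξ
  · refine Eq.trans ?_ (G.paths_mass hG)
    simp only [mass_sum]
    refine sum_congr rfl fun J _ => sum_congr rfl fun ω _ => sum_congr rfl fun ξ _ => ?_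
    split_ifs
    · rw [mass_smul, (G.ThmA_ref hU hν J ω ξ).2, mul_one]
    · exact mass_zero
  · have := one_le_pow₀ (n := G.n) (show 1 ≤ 1 + η by linarith)
    linarith
  · have hadm : G.Adm (∅, ∅) := ⟨by simp, by simp [occ]⟩
    have h1 := G.parse hG E hbit hadm
    rw [G.ThmA_Tb0] at h1
    have e1 : occ (∅, ∅) = ∅ := by simp [occ]
    simp only [e1, h_empty, mul_one] at h1
    rw [h1, ← sum_sub_distrib]
    simp only [← sum_sub_distrib]
    have e2 : ((1 + η) ^ G.n - 1) ^ p = ∑ J ∈ range (G.n + 1), ∑ ω ∈ (range J).powerset,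
        ∑ ξ ∈ (range J).powerset,
          if G.Valid J ω ξ then (1 / 4 : ℝ) ^ J * ((1 + η) ^ G.n - 1) ^ p else 0 := by
      have := congrArg (· * ((1 + η) ^ G.n - 1) ^ p) (G.paths_mass hG)
      simp only [sum_mul, ite_mul, zero_mul, one_mul] at this
      exact this.symm
    rw [e2]
    refine NbP.mix hp1 _ _ _ _ (fun J _ => NN.sum fun ω _ => NN.sum fun ξ _ => hnn J ω ξ)
      fun J hJ => NbP.mix hp1 _ _ _ _ (fun ω _ => NN.sum fun ξ _ => hnn J ω ξ)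
        fun ω _ => NbP.mix hp1 _ _ _ _ (fun ξ _ => hnn J ω ξ) fun ξ _ => ?_
    split_ifs
    · rw [← smul_sub]
      refine NbP.smul_both (by positivity) ((G.ThmA_term0 hp1 hU hν hY E J ω ξ).mono ?_).2
      have := pow_le_pow_right₀ (show 1 ≤ 1 + η by linarith) (Nat.lt_succ_iff.1 (mem_range.1 hJ))
      linarith
    · rw [sub_zero]
      exact ThmA_nbp_zero p
  · have hwt : ∀ κ, 0 ≤ wt p Bs κ := fun κ => by
      have h1 := hBs true
      have h2 := hBs false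
      unfold wt
      positivity
    have hΓ : ∀ κ, 0 ≤ G.Θ * Gam G.φ G.N (occ κ) := fun κ =>
      mul_nonneg (by unfold Θ; positivity)
        (Gam_nonneg (fun g => ft_nonneg (by positivity) (by positivity) g) _ _)
    set Xs : ℕ → Finset ℕ → Finset ℕ → Al M := fun J ω ξ =>
      ∑ κ ∈ 𝒦, (c κ * G.h (occ κ) ω ξ J) • G.term U E ν Y κ J ω ξ with hXs
    set xt : ℝ := 2 * ∑ κ ∈ 𝒦, c κ ^ 2 * wt p Bs κ * (G.Θ * Gam G.φ G.N (occ κ)) with hxt
    set xa : ℝ := 2 * ∑ κ ∈ 𝒦, c κ ^ 2 * wt p Bs κ * 1 with hxa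
    have hxt0 : 0 ≤ xt := mul_nonneg zero_le_two (sum_nonneg fun κ _ =>
      mul_nonneg (mul_nonneg (sq_nonneg _) (hwt κ)) (hΓ κ))
    have hxa0 : 0 ≤ xa := mul_nonneg zero_le_two (sum_nonneg fun κ _ =>
      mul_nonneg (mul_nonneg (sq_nonneg _) (hwt κ)) zero_le_one)
    have e1 : ∑ κ ∈ 𝒦, c κ • G.Tb U E κ = ∑ J ∈ range (G.n + 1), ∑ ω ∈ (range J).powerset,
        ∑ ξ ∈ (range J).powerset, if G.Valid J ω ξ then (1 / 4 : ℝ) ^ J • Xs J ω ξ else 0 := by
      rw [sum_congr rfl fun κ hκ => by rw [G.parse hG E hbit (h𝒦 κ hκ)]]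
      simp only [smul_sum]
      rw [sum_comm]
      refine sum_congr rfl fun J _ => ?_
      rw [sum_comm]
      refine sum_congr rfl fun ω _ => ?_
      rw [sum_comm]
      refine sum_congr rfl fun ξ _ => ?_
      split_ifs
      · rw [hXs]
        simp only [smul_sum, smul_smul]
        refine sum_congr rfl fun κ _ => ?_
        congr 1
        ring
      · simp
    rw [e1, G.ThmA_shift hG, G.ThmA_shift hG]
    have key : NbP p
        (∑ J' ∈ range G.n, ∑ ω ∈ (range (J' + 1)).powerset, ∑ ξ ∈ (range (J' + 1)).powerset,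
          if G.Valid (J' + 1) ω ξ then (1 / 4 : ℝ) ^ (J' + 1) • G.ref U ν (J' + 1) ω ξ else 0)
        (∑ J' ∈ range G.n, ∑ ω ∈ (range (J' + 1)).powerset, ∑ ξ ∈ (range (J' + 1)).powerset,
          if G.Valid (J' + 1) ω ξ then (1 / 4 : ℝ) ^ (J' + 1) • Xs (J' + 1) ω ξ else 0)
        (∑ J' ∈ range G.n, ∑ ω ∈ (range (J' + 1)).powerset, ∑ ξ ∈ (range (J' + 1)).powerset,
          if G.Valid (J' + 1) ω ξ then (1 / 4 : ℝ) ^ (J' + 1) *
            (if J' ≤ 4 * cnt ξ J' ∧ 4 * cnt ξ J' ≤ 3 * J' then √xt else √xa) ^ p else 0) := by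
      refine NbP.mix hp1 _ _ _ _ (fun J _ => NN.sum fun ω _ => NN.sum fun ξ _ => hnn _ ω ξ)
        fun J' hJ => NbP.mix hp1 _ _ _ _ (fun ω _ => NN.sum fun ξ _ => hnn _ ω ξ) fun ω _ => ?_
      rw [ThmA_fib, ThmA_fib, ThmA_fib]
      refine NbP.mix hp1 _ _ _ _ (fun a _ => NN.sum fun ξ _ => hnn _ ω ξ) fun a _ => ?_
      obtain ⟨S, e⟩ := a
      have e2 : (∑ ξ ∈ slice J' S e, if G.Valid (J' + 1) ω ξ then (1 / 4 : ℝ) ^ (J' + 1) *
            (if J' ≤ 4 * cnt ξ J' ∧ 4 * cnt ξ J' ≤ 3 * J' then √xt else √xa) ^ p else 0) =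
          ∑ ξ ∈ slice J' S e, if G.Valid (J' + 1) ω ξ then (1 / 4 : ℝ) ^ (J' + 1) *
            (if J' ≤ 4 * S ∧ 4 * S ≤ 3 * J' then √xt else √xa) ^ p else 0 := by
        refine sum_congr rfl fun ξ hξ => ?_
        rw [(mem_filter.1 hξ).2.1]
      simp only
      rw [e2]
      refine G.ThmA_atom (Xs (J' + 1) ω) (by positivity) fun ξ₀ hξ₀ hV => ?_
      have e3 : ∑ ξ ∈ slice J' S e, (1 / ((slice J' S e).card : ℝ)) • Xs (J' + 1) ω ξ =
          ∑ ξ ∈ slice J' S e, ∑ κ ∈ 𝒦,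
            (c κ * G.h (occ κ) ω ξ (J' + 1) / (slice J' S e).card) •
              G.term U E ν Y κ (J' + 1) ω ξ := by
        refine sum_congr rfl fun ξ _ => ?_
        rw [hXs]
        simp only [smul_sum, smul_smul]
        refine sum_congr rfl fun κ _ => ?_
        congr 1
        ring
      rw [e3]
      split_ifs with ht
      · have hJ1 : 1 ≤ J' := by
          have h1 := (Valid.bounds G hG hV).2.2.2
          have h2 : 22 * G.b * (Jm + 1) ≤ 22 * G.b * (J' + 1) := hJm.trans h1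
          have := Nat.le_of_mul_le_mul_left h2 (by omega)
          omega
        exact G.atom hp hp2 hG hU hν hY0 hY hE0 hBs h4 h8 hjunk h𝒦 c hξ₀ hV
          (fun κ => G.Θ * Gam G.φ G.N (occ κ)) (fun κ _ => hΓ κ) fun κ hκ ξ hξ hh =>
            G.mates_typ hG h𝒦 (h𝒦 κ hκ) hξ ((G.valid_slice hξ₀ hξ).2 hV) hh hJ1 ht.1 ht.2
      · exact G.atom hp hp2 hG hU hν hY0 hY hE0 hBs h4 h8 hjunk h𝒦 c hξ₀ hV
          (fun _ => 1) (fun _ _ => zero_le_one) fun κ hκ ξ hξ hh => by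
            rw [mul_one]
            exact_mod_cast G.mates_le hG h𝒦 κ hξ ((G.valid_slice hξ₀ hξ).2 hV)
    refine ⟨Real.sqrt_nonneg _, key.mono ?_⟩
    have hm := G.paths_mass hG
    rw [G.ThmA_shift hG] at hm
    have ha := G.atyp_mass hG hJm
    have ht0 : 0 ≤ √xt ^ p := by positivity
    have ha0 : 0 ≤ √xa ^ p := by positivity
    calc _ ≤ (∑ J' ∈ range G.n, ∑ ω ∈ (range (J' + 1)).powerset,
              ∑ ξ ∈ (range (J' + 1)).powerset,
            if G.Valid (J' + 1) ω ξ then (1 / 4 : ℝ) ^ (J' + 1) else 0) * √xt ^ p +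
          (∑ J' ∈ range G.n, ∑ ω ∈ (range (J' + 1)).powerset, ∑ ξ ∈ (range (J' + 1)).powerset,
            if G.Valid (J' + 1) ω ξ ∧ ¬(J' ≤ 4 * cnt ξ J' ∧ 4 * cnt ξ J' ≤ 3 * J') then
              (1 / 4 : ℝ) ^ (J' + 1) else 0) * √xa ^ p := by
          simp only [sum_mul, ← sum_add_distrib]
          refine sum_le_sum fun J' _ => sum_le_sum fun ω _ => sum_le_sum fun ξ _ => ?_
          have hw : (0 : ℝ) ≤ (1 / 4 : ℝ) ^ (J' + 1) := by positivity
          by_cases hV : G.Valid (J' + 1) ω ξ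
          · by_cases ht : J' ≤ 4 * cnt ξ J' ∧ 4 * cnt ξ J' ≤ 3 * J'
            · rw [if_pos hV, if_pos ht, if_pos hV, if_neg fun h => h.2 ht, zero_mul, add_zero]
            · rw [if_pos hV, if_neg ht, if_pos hV, if_pos ⟨hV, ht⟩]
              have := mul_nonneg hw ht0
              linarith
          · rw [if_neg hV, if_neg hV, if_neg fun h => hV h.1, zero_mul, zero_mul, add_zero]
      _ ≤ √xt ^ p + ηA ^ p * √xa ^ p := by
          rw [hm, one_mul]
          exact add_le_add le_rfl (mul_le_mul_of_nonneg_right (ha.trans hA) ha0)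
      _ ≤ _ := by
          obtain ⟨m, rfl⟩ := hp
          have hm0 : m ≠ 0 := by omega
          have hS : 0 ≤ ∑ κ ∈ 𝒦, c κ ^ 2 * wt (m + m) Bs κ *
              (G.Θ * Gam G.φ G.N (occ κ) + ηA ^ 2) := sum_nonneg fun κ _ =>
            mul_nonneg (mul_nonneg (sq_nonneg _) (hwt κ)) (add_nonneg (hΓ κ) (sq_nonneg _))
          have hs : ∀ x : ℝ, x ^ (m + m) = (x ^ 2) ^ m := fun x => by rw [← pow_mul, two_mul]
          rw [hs, hs, hs, hs (√_), Real.sq_sqrt hxt0, Real.sq_sqrt hxa0,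
            Real.sq_sqrt (by linarith), ← mul_pow]
          refine (pow_add_pow_le hxt0 (mul_nonneg (sq_nonneg _) hxa0) hm0).trans
            (pow_le_pow_left₀ (add_nonneg hxt0 (mul_nonneg (sq_nonneg _) hxa0)) ?_ m)
          have e4 : xt + ηA ^ 2 * xa = 2 * ∑ κ ∈ 𝒦, c κ ^ 2 * wt (m + m) Bs κ *
              (G.Θ * Gam G.φ G.N (occ κ) + ηA ^ 2) := by
            rw [hxt, hxa]
            simp only [mul_sum, ← sum_add_distrib]
            refine sum_congr rfl fun κ _ => ?_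
            ring
          rw [e4]
          linarith

end PP

/-- from families of configurations to indexed families with bounded multiplicity
(`Finset.sum_fiberwise_of_maps_to` with `𝒦 = I.image κ`, Cauchy–Schwarz on each fibre) -/
theorem nb_indexed {M : Type} {p : ℕ} {Rb : Al M} (T : Cfg → Al M) (A : Cfg → Prop) (F : Cfg → ℝ)
    (hF : ∀ κ, A κ → 0 ≤ F κ)
    (h : ∀ (𝒦 : Finset Cfg) (c : Cfg → ℝ), (∀ κ ∈ 𝒦, A κ) →
      Nb p Rb (∑ κ ∈ 𝒦, c κ • T κ) (√(4 * ∑ κ ∈ 𝒦, c κ ^ 2 * F κ)))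
    {ι : Type} (I : Finset ι) (κ : ι → Cfg) (c : ι → ℝ) (hA : ∀ i ∈ I, A (κ i)) (mult : ℝ)
    (hm : ∀ i ∈ I, ((I.filter fun i' => κ i' = κ i).card : ℝ) ≤ mult) :
    Nb p Rb (∑ i ∈ I, c i • T (κ i)) (√(4 * (mult * ∑ i ∈ I, c i ^ 2 * F (κ i)))) := by
  have hmaps : ∀ i ∈ I, κ i ∈ I.image κ := fun i hi => mem_image_of_mem κ hi
  have hA' : ∀ k ∈ I.image κ, A k := fun k hk => by
    obtain ⟨i, hi, rfl⟩ := mem_image.1 hk
    exact hA i hi
  have h1 := h (I.image κ) (fun k => ∑ i ∈ I with κ i = k, c i) hA'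
  have e1 : ∑ k ∈ I.image κ, (∑ i ∈ I with κ i = k, c i) • T k = ∑ i ∈ I, c i • T (κ i) := by
    rw [← sum_fiberwise_of_maps_to hmaps]
    refine sum_congr rfl fun k _ => ?_
    rw [sum_smul]
    refine sum_congr rfl fun i hi => ?_
    rw [(mem_filter.1 hi).2]
  rw [e1] at h1
  refine h1.mono (Real.sqrt_le_sqrt (mul_le_mul_of_nonneg_left ?_ (by norm_num)))
  rw [← sum_fiberwise_of_maps_to hmaps, mul_sum]
  refine sum_le_sum fun k hk => ?_
  have e2 : ∑ i ∈ I with κ i = k, c i ^ 2 * F (κ i) = (∑ i ∈ I with κ i = k, c i ^ 2) * F k := by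
    rw [sum_mul]
    refine sum_congr rfl fun i hi => ?_
    rw [(mem_filter.1 hi).2]
  rw [e2, ← mul_assoc]
  refine mul_le_mul_of_nonneg_right ?_ (hF k (hA' k hk))
  obtain ⟨i, hi, rfl⟩ := mem_image.1 hk
  exact sq_sum_le_card_mul_sum_sq.trans
    (mul_le_mul_of_nonneg_right (hm i hi) (sum_nonneg fun _ _ => sq_nonneg _))

end Crest.Agent.R300L
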